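import Vale.Agent.P361.LRO.Defs

/-!
P361, STAGE 3 (Bloch's law with the constant, spin 1/2): exact outputs of the blocks, as `Prop`s.
Captain: helper569.  See note 10625.  Fields are `h = g / β`, `g ∈ Fam n g0 (β ^ (-9/2))`.
-/

namespace Vale.Agent.P361.LRO.S3

open Finset Matrix Filter Topology

noncomputable section

/-- Bloch's constant for spin 1/2: `ζ(3/2) / (8 π^{3/2} (1/2)^{3/2})`. -/
def BC : ℝ := (riemannZeta (3 / 2)).re / (8 * Real.pi ^ (3 / 2 : ℝ) * (1 / 2 : ℝ) ^ (3 / 2 : ℝ))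

/-- Bootstrap hypothesis on the capped family. -/
def BH3 (n : ℕ) [NeZero n] (β η g0 : ℝ) : Prop :=
  ∀ g : Tor n → ℝ, Fam n g0 (β ^ (-(9 / 2) : ℝ)) g → ∀ x, rho (edges n) β (fun y => g y / β) x ≤ η

/-- The Casimir-type matrix `∑_{x,y in b} h_xy` (ordered pairs) `= N_b (|b| + 1 - N_b)`,
`N_b = J_max - J_b`. -/
def CM {V : Type} [Fintype V] [DecidableEq V] (b : Finset V) :
    Matrix (V → Fin 2) (V → Fin 2) ℝ := ∑ x ∈ b, ∑ y ∈ b, hM x y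

/-- `y_b = <C_b> / |b|^2`, so that `D (1 - D) ≤ C_b / |b|^2 ≤ D (1 + 1/|b|)`, `D = N_b / |b|`. -/
def yb {V : Type} [Fintype V] [DecidableEq V] (L : List (V × V)) (β : ℝ) (h : V → ℝ)
    (b : Finset V) : ℝ := gib L β h (CM b) / (b.card : ℝ) ^ 2

/-- (K) network block (helper118, helper938). -/
def KappaStmt3 : Prop :=
  ∃ c2 c3 : ℝ, 0 < c2 ∧ 0 < c3 ∧ ∀ C7 Lam : ℝ, 0 < C7 → 0 < Lam → ∃ β0 : ℝ, ∀ β : ℝ, β0 ≤ β →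
    ∃ n0 : ℕ, ∀ (n : ℕ) [NeZero n], n0 ≤ n → Odd n → ∀ a : ℕ, Real.sqrt β ≤ (3 : ℝ) ^ a →
    (3 : ℝ) ^ a ≤ β ^ (3 / 4 : ℝ) → ∀ K : ℝ, 1 ≤ K → K ≤ Lam * β ^ (3 / 2 : ℝ) → K ≤ c2 * β * 3 ^ a →
    ∀ g0 : ℝ, (n : ℝ) ^ (-(1 / 4) : ℝ) ≤ g0 → g0 ≤ 1 → BH3 n β (C7 * β ^ (-(3 / 2) : ℝ)) g0 →
    ∀ g : Tor n → ℝ, Fam n g0 (β ^ (-(9 / 2) : ℝ)) g → ∀ x : Tor n,
      ∃ᶠ N : ℕ in atTop, c3 * K ≤ kap (edges n) β N (fun y => g y / β) K (cube n x (3 ^ a))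

/-- (D) direction, closure form (helper74, helper111, helper733). -/
def DirStmt3 : Prop :=
  ∃ C : ℝ, 0 < C ∧ ∀ (V : Type) [Fintype V] [DecidableEq V] (L : List (V × V)) (β : ℝ) (h : V → ℝ)
    (K κ : ℝ) (b : Finset V), 0 < β → (∀ x, 0 ≤ h x) → 1 ≤ K → 0 < κ → b.Nonempty →
    (∃ᶠ N : ℕ in atTop, κ ≤ kap L β N h K b) →
    (∑ x ∈ b, rho L β h x) / b.card ≤ C * (1 + K / κ) * yb L β h b + C / κ

/-- (D) direction, sharp form.  There is a finite law `μ` of `r = N_b = J_max - J_b` in the Gibbs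
state such that, with `D = r / |b|`, `m = E D` and `P = P(D < q)`,
`ρ_b ≤ m + C (K/κ) (m + (1/K) log (C (P + exp (-K q))))`. -/
def DirSharpStmt3 : Prop :=
  ∃ C : ℝ, 0 < C ∧ ∀ (V : Type) [Fintype V] [DecidableEq V] (L : List (V × V)) (β : ℝ) (h : V → ℝ)
    (b : Finset V), 0 < β → (∀ x, 0 ≤ h x) → b.Nonempty →
    ∃ (ι : Type) (_ : Fintype ι) (μ : ι → ℝ) (r : ι → ℕ), (∀ i, 0 ≤ μ i) ∧
      (∀ i, 2 * r i ≤ b.card) ∧ ∑ i, μ i = 1 ∧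
      (∀ P : Polynomial ℝ, ∑ i, μ i * P.eval ((r i : ℝ) * ((b.card : ℝ) - r i + 1)) =
        gib L β h (Polynomial.aeval (CM b) P)) ∧
      ∀ K κ q : ℝ, 1 ≤ K → 0 < κ → 0 ≤ q → q ≤ 1 / 4 →
        (∃ᶠ N : ℕ in atTop, κ ≤ kap L β N h K b) →
        (∑ x ∈ b, rho L β h x) / b.card ≤ (∑ i, μ i * (r i : ℝ)) / b.card +
          C * (K / κ) * ((∑ i, μ i * (r i : ℝ)) / b.card +
            (1 / K) * Real.log (C * ((∑ i, if (r i : ℝ) < q * b.card then μ i else 0) +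
              Real.exp (-(K * q)))))

/-- (E) crude energy for all profiles (helper348). -/
def EnergyStmt3 : Prop :=
  ∃ C β0 : ℝ, ∀ β : ℝ, β0 ≤ β → ∃ n0 : ℕ, ∀ (n : ℕ) [NeZero n], n0 ≤ n → ∀ g : Tor n → ℝ,
    (∀ x, 0 < g x ∧ g x ≤ 1) → ∀ (x : Tor n) (w m : ℕ), 1 ≤ w → (w : ℝ) ≤ 3 * Real.sqrt β →
    β ^ (3 : ℝ) ≤ w * m → (w : ℝ) * m ≤ 2 * β ^ (3 : ℝ) →
    (∑ y : Fin 3 → Fin m, yb (edges n) β (fun z => g z / β)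
      (cube n (x + fun i => ((w * (y i : ℕ) : ℕ) : ZMod n)) w)) / (m : ℝ) ^ 3 ≤
      C * β ^ (-(3 / 2) : ℝ)

/-- (B0) start of the bootstrap: the uniform field `1/β` (helper10, helper236). -/
def StartStmt3 : Prop :=
  ∃ C β0 : ℝ, ∀ β : ℝ, β0 ≤ β → ∃ n0 : ℕ, ∀ (n : ℕ) [NeZero n], n0 ≤ n → Odd n → ∀ x : Tor n,
    rho (edges n) β (fun _ => 1 / β) x ≤ C * β ^ (-(3 / 2) : ℝ)

/-- (B) output of the bootstrap (helper472): Bloch's order for all profiles. -/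
def BootStmt3 : Prop :=
  ∃ C7 β0 : ℝ, 0 < C7 ∧ ∀ β : ℝ, β0 ≤ β → ∃ n0 : ℕ, ∀ (n : ℕ) [NeZero n], n0 ≤ n → Odd n →
    ∀ g0 : ℝ, (n : ℝ) ^ (-(1 / 4) : ℝ) ≤ g0 → g0 ≤ 1 → BH3 n β (C7 * β ^ (-(3 / 2) : ℝ)) g0

/-- (M) sharp mean of `N_b`, uniform small field (helper979 (U'), helper101): blocks of side
`3 ^ a ~ β^{1/2 + d}`, any small `d`. -/
def MeanStmt3 : Prop :=
  ∃ d : ℝ, 0 < d ∧ d ≤ 1 / 100 ∧ ∀ δ : ℝ, 0 < δ → ∃ β0 : ℝ, ∀ β : ℝ, β0 ≤ β → ∀ a : ℕ,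
    β ^ (1 / 2 + d) ≤ (3 : ℝ) ^ a → (3 : ℝ) ^ a ≤ 3 * β ^ (1 / 2 + d) →
    ∀ h : ℝ, 0 < h → h ≤ β ^ (-(10 : ℝ)) → ∃ n0 : ℕ, ∀ (n : ℕ) [NeZero n], n0 ≤ n → Odd n →
    ∀ x : Tor n, yb (edges n) β (fun _ => h) (cube n x (3 ^ a)) ≤ (1 + δ) * BC * β ^ (-(3 / 2) : ℝ)

/-- (T) lower tail of `N_b` (helper260): every polynomial which is at most the indicator of
`r < (1 - δ) BC β^{-3/2} |b|` on the spectrum has small expectation. -/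
def TailStmt3 : Prop :=
  ∀ d : ℝ, 0 < d → d ≤ 1 / 100 → ∀ δ : ℝ, 0 < δ → ∃ β0 : ℝ, ∀ β : ℝ, β0 ≤ β → ∀ a : ℕ,
    β ^ (1 / 2 + d) ≤ (3 : ℝ) ^ a → (3 : ℝ) ^ a ≤ 3 * β ^ (1 / 2 + d) →
    ∀ h : ℝ, 0 < h → h ≤ β ^ (-(10 : ℝ)) → ∃ n0 : ℕ, ∀ (n : ℕ) [NeZero n], n0 ≤ n → Odd n →
    ∀ (x : Tor n) (P : Polynomial ℝ),
      (∀ r : ℕ, 2 * r ≤ (cube n x (3 ^ a)).card →
        P.eval ((r : ℝ) * (((cube n x (3 ^ a)).card : ℝ) - r + 1)) ≤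
          if (r : ℝ) < (1 - δ) * BC * β ^ (-(3 / 2) : ℝ) * (cube n x (3 ^ a)).card then 1 else 0) →
      gib (edges n) β (fun _ => h) (Polynomial.aeval (CM (cube n x (3 ^ a))) P) ≤ δ

/-- (F) output for the torus. -/
def FinalStmt3 : Prop :=
  ∀ ε : ℝ, 0 < ε → ∃ β0 : ℝ, ∀ β : ℝ, β0 ≤ β → ∀ h : ℝ, 0 < h → h ≤ β ^ (-(10 : ℝ)) →
    ∃ n0 : ℕ, ∀ (n : ℕ) [NeZero n], n0 ≤ n → Odd n → ∀ x : Tor n,
      rho (edges n) β (fun _ => h) x ≤ (1 + ε) * BC * β ^ (-(3 / 2) : ℝ)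

end

end Vale.Agent.P361.LRO.S3
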