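import Vale.Agent.P361.LRO.Tw.J.Law3
import Vale.Agent.P361.LRO.S3.Iface
import Vale.Agent.P361.B.Sub

/-!
P361, stage 3, lower tail: the free region `Λ ⊂ ℤ³` in the real swap model (spin 1/2).
-/

namespace Vale.Agent.P361.LRO.S3

open Matrix Finset
open Vale.Agent.P361.LRO.TwJ

set_option linter.all false

noncomputable section

variable {Λ : Finset Site}

theorem siteOp_eq_st (x : Λ) (A : Matrix (Fin 2) (Fin 2) ℂ) :
    (siteOp (n := 1) x A : Matrix (Λ → Fin 2) (Λ → Fin 2) ℂ) = st x A := by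
  ext σ τ
  rw [siteOp, st, P, Matrix.of_apply, Matrix.of_apply]
  refine Finset.prod_congr rfl fun y _ => ?_
  by_cases h : y = x
  · subst h; simp
  · rw [if_neg h, Function.update_of_ne h]

theorem spinZ_one_eq : spinZ 1 = sz := by
  ext i j
  fin_cases i <;> fin_cases j <;> simp [spinZ, sz] <;> norm_num

theorem spinLower_one_eq : spinLower 1 = sm := by
  ext i j
  fin_cases i <;> fin_cases j <;> simp [spinLower, sm]

theorem oZ_eq (x : Λ) : (H.oZ 1 x : Matrix (Λ → Fin 2) (Λ → Fin 2) ℂ) = st x sz := by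
  rw [H.oZ, ← spinZ_one_eq]
  exact siteOp_eq_st x _

theorem oM_eq (x : Λ) : (H.oM 1 x : Matrix (Λ → Fin 2) (Λ → Fin 2) ℂ) = st x sm := by
  rw [H.oM, ← spinLower_one_eq]
  exact siteOp_eq_st x _

theorem oP_eq (x : Λ) : (H.oP 1 x : Matrix (Λ → Fin 2) (Λ → Fin 2) ℂ) = st x sp := by
  rw [H.oP, ← sm_conj, ← spinLower_one_eq]
  exact siteOp_eq_st x _

theorem dotOp_one {x y : Λ} (hxy : x ≠ y) :
    (H.dotOp 1 x y : Matrix (Λ → Fin 2) (Λ → Fin 2) ℂ) = Fp x y := by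
  have h := H.dotOp_eq (n := 1) x y
  rw [oZ_eq, oZ_eq, oP_eq, oP_eq, oM_eq, oM_eq] at h
  refine h.trans ?_
  have h1 : (st y sm : Opr Λ) * st x sp = st x sp * st y sm := st_comm hxy.symm _ _
  have h2 : (st y sz : Opr Λ) * st x sz = st x sz * st y sz := st_comm hxy.symm _ _
  rw [Fp, h1, h2]
  module

/-- Ordered list of nearest neighbour pairs of `Λ`. -/
def nnL (Λ : Finset Site) : List (Λ × Λ) :=
  ((univ : Finset (Λ × Λ)).filter fun e => IsNN e.1.1 e.2.1).toList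

theorem hT_one : (B.hT 1 Λ : Matrix (Λ → Fin 2) (Λ → Fin 2) ℂ) =
    (1 / 2 : ℂ) • cm (ham (nnL Λ) 0) := by
  have h0 : cm (ham (nnL Λ) 0) = ∑ x : Λ, ∑ y : Λ,
      if IsNN x.1 y.1 then cm (hM x y) else 0 := by
    have e1 : ham (nnL Λ) (0 : Λ → ℝ) = ∑ e ∈ (univ : Finset (Λ × Λ)).filter
        (fun e => IsNN e.1.1 e.2.1), hM e.1 e.2 := by
      rw [ham, nnL, Finset.sum_map_toList]
      simp
    rw [e1, cm_sum, Finset.sum_filter, Fintype.sum_prod_type]
  rw [h0, B.hT]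
  congr 1
  refine Finset.sum_congr rfl fun x _ => Finset.sum_congr rfl fun y _ => ?_
  by_cases h : IsNN x.1 y.1
  · rw [if_pos h, if_pos h]
    have hxy : x ≠ y := H.isNN_ne h
    have h3 := Fp_ne hxy
    have h4 := dotOp_one hxy
    rw [← h3, ← h4]
    congr 2
    norm_num
  · rw [if_neg h, if_neg h]

theorem numOp_one : (B.numOp 1 Λ : Matrix (Λ → Fin 2) (Λ → Fin 2) ℂ) = cm (Dn univ) := by
  rw [cm_Dn, B.numOp, Finset.sum_sub_distrib, Sg]
  congr 1
  · rw [Finset.sum_const, ← Nat.cast_smul_eq_nsmul ℂ, smul_smul]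
    congr 1
    push_cast
    ring
  · exact Finset.sum_congr rfl fun x _ => oZ_eq x

theorem cm_exp {V : Type} [Fintype V] [DecidableEq V] (A : Matrix (V → Fin 2) (V → Fin 2) ℝ) :
    cm (NormedSpace.exp A) = NormedSpace.exp (cm A) := by
  have hc : Continuous (Complex.ofRealHom.mapMatrix :
      Matrix (V → Fin 2) (V → Fin 2) ℝ →+* Matrix (V → Fin 2) (V → Fin 2) ℂ) := by
    exact Continuous.matrix_map continuous_id Complex.continuous_ofReal
  open scoped Matrix.Norms.Operator in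
  exact NormedSpace.map_exp (Complex.ofRealHom.mapMatrix :
      Matrix (V → Fin 2) (V → Fin 2) ℝ →+* Matrix (V → Fin 2) (V → Fin 2) ℂ) hc A

theorem Zt_one (β τ : ℝ) : B.Zt 1 Λ β τ =
    trace (NormedSpace.exp (-(β / 2) • ham (nnL Λ) 0 - τ • Dn (univ : Finset Λ))) := by
  have h : -((β : ℂ) • B.hT 1 Λ + (τ : ℂ) • B.numOp 1 Λ) =
      cm (-(β / 2) • ham (nnL Λ) 0 - τ • Dn (univ : Finset Λ)) := by
    have h1 : (β : ℂ) • (B.hT 1 Λ : Matrix (Λ → Fin 2) (Λ → Fin 2) ℂ) =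
        ((β / 2 : ℝ) : ℂ) • cm (ham (nnL Λ) 0) := by
      rw [hT_one, smul_smul]
      congr 1
      push_cast
      ring
    have h2 := numOp_one (Λ := Λ)
    have h3 : cm (-(β / 2) • ham (nnL Λ) 0 - τ • Dn (univ : Finset Λ)) =
        -(((β / 2 : ℝ) : ℂ) • cm (ham (nnL Λ) 0) + (τ : ℂ) • cm (Dn (univ : Finset Λ))) := by
      rw [cm_sub, cm_smul, cm_smul]
      push_cast
      module
    rw [h3, ← h1, ← h2]
  rw [B.Zt, h, ← cm_exp]
  exact (congrArg Complex.re (cm_trace _)).trans (Complex.ofReal_re _)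

theorem free_trace (β : ℝ) (X : Matrix (Λ → Fin 2) (Λ → Fin 2) ℝ) :
    (trace (NormedSpace.exp (-((β : ℂ) • B.hT 1 Λ) + cm X))).re =
      trace (NormedSpace.exp (-(β / 2) • ham (nnL Λ) 0 + X)) := by
  have h : -((β : ℂ) • B.hT 1 Λ) + cm X = cm (-(β / 2) • ham (nnL Λ) 0 + X) := by
    have h1 : (β : ℂ) • (B.hT 1 Λ : Matrix (Λ → Fin 2) (Λ → Fin 2) ℂ) =
        ((β / 2 : ℝ) : ℂ) • cm (ham (nnL Λ) 0) := by
      rw [hT_one, smul_smul]
      congr 1
      push_cast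
      ring
    rw [h1, cm_add, cm_smul]
    push_cast
    module
  rw [h, ← cm_exp]
  exact (congrArg Complex.re (cm_trace _)).trans (Complex.ofReal_re _)

end

end Vale.Agent.P361.LRO.S3
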