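import Vale.Agent.P361.BridgeC

/-! # Bloch's law: final form of the statement (all spins) -/

namespace Vale.Agent.P361.LRO.S3

open Filter Topology

/-- Everything about the zero-field limit for spin `n/2`, given Bloch's law. -/
theorem answer_bloch {n : ℕ} (hn : 1 ≤ n) {c : ℝ}
    (H : Tendsto (fun β : ℝ => β ^ (3 / 2 : ℝ) * ((n : ℝ) / 2 - Model.spontMag n β)) atTop (𝓝 c)) :
    (∀ β : ℝ, 0 < β →
      (∀ h : ℝ, Tendsto (fun N : ℕ => Model.finPressure n N β h) atTop (𝓝 (Model.pressure n β h))) ∧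
      ConvexOn ℝ Set.univ (Model.pressure n β) ∧
      HasDerivWithinAt (Model.pressure n β) (Model.spontMag n β) (Set.Ioi 0) 0 ∧
      Model.spontMag n β ≤ (n : ℝ) / 2) ∧
    (∃ β₀ : ℝ, 0 < β₀ ∧ ∀ β : ℝ, β₀ ≤ β → 0 < Model.spontMag n β) ∧
    Tendsto (fun β : ℝ => Model.spontMag n β) atTop (𝓝 ((n : ℝ) / 2)) ∧
    Tendsto (fun β : ℝ => β ^ (3 / 2 : ℝ) * ((n : ℝ) / 2 - Model.spontMag n β)) atTop (𝓝 c) := by
  have hT : Tendsto (fun β : ℝ => Model.spontMag n β) atTop (𝓝 ((n : ℝ) / 2)) := by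
    have h1 : Tendsto (fun β : ℝ => β ^ (-(3 / 2) : ℝ)) atTop (𝓝 0) :=
      tendsto_rpow_neg_atTop (by norm_num)
    have h2 := h1.mul H
    rw [zero_mul] at h2
    have h3 : Tendsto (fun β : ℝ => (n : ℝ) / 2 - Model.spontMag n β) atTop (𝓝 0) := by
      refine h2.congr' ?_
      filter_upwards [eventually_gt_atTop (0 : ℝ)] with β hβ
      rw [← mul_assoc, ← Real.rpow_add hβ]
      norm_num
    have h4 := (tendsto_const_nhds (x := (n : ℝ) / 2)).sub h3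
    simpa using h4
  have hn' : (0 : ℝ) < (n : ℝ) / 2 := by
    have : (1 : ℝ) ≤ n := by exact_mod_cast hn
    linarith
  obtain ⟨β₁, h1⟩ := eventually_atTop.1 ((tendsto_order.1 hT).1 0 hn')
  exact ⟨fun β hβ => Vale.Agent.P361.Bridge.main_thermo n hn β hβ,
    ⟨max 1 β₁, lt_of_lt_of_le one_pos (le_max_left _ _), fun β hβ =>
      h1 β (le_trans (le_max_right _ _) hβ)⟩, hT, H⟩

/-- Bloch's law for spin `1/2` in the form of the problem. -/
theorem answer_half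
    (H : Tendsto (fun β : ℝ => β ^ (3 / 2 : ℝ) * (1 / 2 - Model.spontMag 1 β)) atTop
      (𝓝 ((riemannZeta (3 / 2)).re / (8 * Real.pi ^ (3 / 2 : ℝ) * (1 / 2 : ℝ) ^ (3 / 2 : ℝ))))) :
    (∀ β : ℝ, 0 < β →
      (∀ h : ℝ, Tendsto (fun N : ℕ => Model.finPressure 1 N β h) atTop (𝓝 (Model.pressure 1 β h))) ∧
      ConvexOn ℝ Set.univ (Model.pressure 1 β) ∧
      HasDerivWithinAt (Model.pressure 1 β) (Model.spontMag 1 β) (Set.Ioi 0) 0 ∧
      Model.spontMag 1 β ≤ 1 / 2) ∧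
    (∃ β₀ : ℝ, 0 < β₀ ∧ ∀ β : ℝ, β₀ ≤ β → 0 < Model.spontMag 1 β) ∧
    Tendsto (fun β : ℝ => Model.spontMag 1 β) atTop (𝓝 (1 / 2)) ∧
    Tendsto (fun β : ℝ => β ^ (3 / 2 : ℝ) * (1 / 2 - Model.spontMag 1 β)) atTop
      (𝓝 ((riemannZeta (3 / 2)).re / (8 * Real.pi ^ (3 / 2 : ℝ) * (1 / 2 : ℝ) ^ (3 / 2 : ℝ)))) := by
  have h := answer_bloch (n := 1) le_rfl (by simpa only [Nat.cast_one] using H)
  simpa only [Nat.cast_one] using h

end Vale.Agent.P361.LRO.S3
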