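import Vale.Agent.P361.LRO.S3.Iface
import Vale.Agent.P361.LRO.Step
import Vale.Agent.P361.LRO.Fin.Boot
import Vale.Agent.P361.LRO.Top.Trans
import Vale.Agent.P361.LRO.LY.Reg

/-!
P361, stage 3, block (B): the bootstrap on the capped family.
-/

namespace Vale.Agent.P361.LRO.S3

open Finset Matrix Filter Topology

noncomputable section

/-- A good point in a cube tiled by blocks. -/
theorem good_point {n : ℕ} [NeZero n] (x : Tor n) {w m : ℕ} (hw : 0 < w) (hm : 0 < m)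
    (hwn : w ≤ n) (F : Tor n → ℝ) (G : (Fin 3 → Fin m) → ℝ) {R : ℝ}
    (hF : ∀ y : Fin 3 → Fin m,
      (∑ z ∈ cube n (x + fun i => ((w * (y i : ℕ) : ℕ) : ZMod n)) w, F z) /
        (cube n (x + fun i => ((w * (y i : ℕ) : ℕ) : ZMod n)) w).card ≤ G y)
    (hG : ∑ y, G y ≤ (m : ℝ) ^ 3 * R) :
    ∃ k : Fin 3 → ℕ, (∀ i, k i ≤ w * m) ∧ F (x + fun i => (k i : ZMod n)) ≤ R := by
  set bl : (Fin 3 → Fin m) → Finset (Tor n) := fun y =>
    cube n (x + fun i => ((w * (y i : ℕ) : ℕ) : ZMod n)) w with hbl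
  have hcard : ∀ z : Tor n, (cube n z w).card = w ^ 3 := by
    intro z
    unfold cube
    rw [Finset.card_image_of_injective, Finset.card_univ, Fintype.card_fun, Fintype.card_fin,
      Fintype.card_fin]
    intro a b hab
    have h2 := add_left_cancel hab
    funext i
    have h3 := congrFun h2 i
    have h4 : ((a i : ℕ) : ZMod n) = ((b i : ℕ) : ZMod n) := h3
    rw [ZMod.natCast_eq_natCast_iff'] at h4
    rw [Nat.mod_eq_of_lt ((a i).2.trans_le hwn), Nat.mod_eq_of_lt ((b i).2.trans_le hwn)] at h4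
    exact Fin.ext h4
  obtain ⟨y, z, hz, hFz⟩ : ∃ y, ∃ z ∈ bl y, F z ≤ R := by
    by_contra hcon
    push Not at hcon
    have hcp : ∀ y, (0 : ℝ) < (bl y).card := by
      intro y
      rw [hbl]
      dsimp only
      rw [hcard]
      positivity
    have h2 : ∀ y, R < (∑ z ∈ bl y, F z) / (bl y).card := by
      intro y
      rw [lt_div_iff₀ (hcp y)]
      have h3 : ∑ z ∈ bl y, R < ∑ z ∈ bl y, F z := by
        refine Finset.sum_lt_sum_of_nonempty ?_ fun z hz => hcon y z hz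
        rw [← Finset.card_pos]
        exact_mod_cast hcp y
      rw [Finset.sum_const, nsmul_eq_mul] at h3
      linarith
    have : Nonempty (Fin m) := ⟨⟨0, hm⟩⟩
    have h3 : ∑ y : Fin 3 → Fin m, R < ∑ y, G y :=
      Finset.sum_lt_sum_of_nonempty Finset.univ_nonempty fun y _ => (h2 y).trans_le (hF y)
    rw [Finset.sum_const, Finset.card_univ, Fintype.card_fun, Fintype.card_fin, Fintype.card_fin,
      nsmul_eq_mul] at h3
    push_cast at h3
    linarith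
  rw [hbl] at hz
  unfold cube at hz
  dsimp only at hz
  rw [Finset.mem_image] at hz
  obtain ⟨a, -, ha⟩ := hz
  refine ⟨fun i => w * (y i : ℕ) + (a i : ℕ), fun i => ?_, ?_⟩
  · have h2 : (y i : ℕ) + 1 ≤ m := (y i).2
    have h3 := Nat.mul_le_mul_left w h2
    have h4 : (a i : ℕ) < w := (a i).2
    rw [mul_add, mul_one] at h3
    exact (Nat.add_le_add_left h4.le _).trans h3
  · have h5 : (x + fun i => ((w * (y i : ℕ) + (a i : ℕ) : ℕ) : ZMod n)) = z := by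
      rw [← ha, add_assoc]
      congr 1
      funext i
      simp only [Pi.add_apply]
      push_cast
      ring
    rw [h5]
    exact hFz

/-- the scale: `√β ≤ 3 ^ a ≤ 3 √β` -/
def a3 (β : ℝ) : ℕ := Nat.clog 3 ⌈Real.sqrt β⌉₊

theorem a3_ge (β : ℝ) : Real.sqrt β ≤ (3 : ℝ) ^ a3 β := by
  refine (Nat.le_ceil _).trans ?_
  have : ⌈Real.sqrt β⌉₊ ≤ 3 ^ a3 β := Nat.le_pow_clog (by norm_num) _
  exact_mod_cast this

theorem a3_le {β : ℝ} (hβ : 1 < β) : (3 : ℝ) ^ a3 β ≤ 3 * Real.sqrt β := by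
  have h1 : 1 < Real.sqrt β := by
    rw [Real.lt_sqrt (by norm_num)]
    linarith
  have h2 : 1 < ⌈Real.sqrt β⌉₊ := by
    rw [Nat.lt_ceil]
    exact_mod_cast h1
  have h3 := Nat.pow_pred_clog_lt_self (b := 3) (by norm_num) h2
  have h4 : ((3 ^ (Nat.clog 3 ⌈Real.sqrt β⌉₊).pred : ℕ) : ℝ) < Real.sqrt β := by
    rwa [← Nat.lt_ceil]
  have h5 : 0 < Nat.clog 3 ⌈Real.sqrt β⌉₊ := Nat.clog_pos (by norm_num) h2
  unfold a3
  obtain ⟨k, hk⟩ := Nat.exists_eq_succ_of_ne_zero h5.ne'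
  rw [hk] at h4 ⊢
  rw [Nat.pred_succ] at h4
  push_cast at h4 ⊢
  rw [pow_succ]
  linarith

/-- regularity: from a good point to `x` -/
theorem reg_step {n : ℕ} [NeZero n] {β : ℝ} (hβp : 0 < β)
    (h3 : 81 ≤ β ^ (3 / 2 : ℝ)) {g0 : ℝ} (g0p : 0 < g0) {g : Tor n → ℝ}
    (hg : Fam n g0 (β ^ (-(9 / 2) : ℝ)) g) (x : Tor n) {l : ℕ} (hl : (l : ℝ) ≤ 2 * β ^ (3 : ℝ))
    {k : Fin 3 → ℕ} (hk : ∀ i, k i ≤ l) {r : ℝ} (hrp : 0 < r) (hr8 : r ≤ 1 / 8)
    (hρz : rho (edges n) β (fun u => g u / β) (x + fun i => (k i : ZMod n)) ≤ r) :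
    rho (edges n) β (fun u => g u / β) x ≤ 3 * r + β ^ (-(3 / 2) : ℝ) := by
  have hp : ∀ a : ℝ, 0 < β ^ a := fun a => Real.rpow_pos_of_pos hβp a
  have hgp : ∀ y, 0 < g y := fun y => g0p.trans_le (hg.1 y).1
  set lam : ℝ := β ^ (-(9 / 2) : ℝ) with hlam
  have hlamp : 0 < lam := hp _
  set v : Tor n := fun i => (k i : ZMod n) with hv
  set d : ℝ := 3 * (l : ℝ) * lam with hd
  have hd0 : 0 ≤ d := by positivity
  have hd1 : d ≤ 6 * β ^ (-(3 / 2) : ℝ) := by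
    have h5 : β ^ (3 : ℝ) * lam = β ^ (-(3 / 2) : ℝ) := by
      rw [hlam, ← Real.rpow_add hβp]
      norm_num
    calc d ≤ 3 * (2 * β ^ (3 : ℝ)) * lam := by
          rw [hd]
          exact mul_le_mul_of_nonneg_right (by linarith) hlamp.le
      _ = 6 * β ^ (-(3 / 2) : ℝ) := by rw [← h5]; ring
  have hβ2 : β ^ (-(3 / 2) : ℝ) ≤ 1 / 81 := by
    rw [Real.rpow_neg hβp.le, one_div]
    exact inv_anti₀ (by norm_num) h3
  have hlog : ∀ u, |Real.log (g (u + v) / β) - Real.log (g u / β)| ≤ d := by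
    intro u
    rw [Real.log_div (hgp _).ne' hβp.ne', Real.log_div (hgp _).ne' hβp.ne', sub_sub_sub_cancel_right]
    exact fam_log_vec hg g0p l k hk hlamp.le u
  have hpi : 3 * d < Real.pi / 2 := by
    have := Real.pi_gt_three
    linarith
  obtain ⟨hMz, hH⟩ := LY.regStmt (Tor n) (edges n) β (fun u => g (u + v) / β) (fun u => g u / β) d
    hβp (fun u => div_pos (hgp _) hβp) (fun u => div_pos (hgp _) hβp) hd0 hpi hlog x
  have hMx : 0 < 1 - 2 * rho (edges n) β (fun u => g u / β) x :=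
    (LY.regStmt (Tor n) (edges n) β (fun u => g u / β) (fun u => g u / β) 0 hβp
      (fun u => div_pos (hgp _) hβp) (fun u => div_pos (hgp _) hβp) le_rfl
      (by rw [mul_zero]; positivity) (fun u => by rw [sub_self, abs_zero]) x).1
  have htr : rho (edges n) β (fun u => g (u + v) / β) x =
      rho (edges n) β (fun u => g u / β) (x + v) := transStmt n β (fun u => g u / β) x v
  rw [htr] at hMz hH
  have e1 : 1 / (1 - 2 * rho (edges n) β (fun u => g u / β) (x + v)) ≤ 1 + 3 * r := by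
    rw [div_le_iff₀ hMz]
    nlinarith
  have e2 : 1 + 2 * rho (edges n) β (fun u => g u / β) x ≤
      1 / (1 - 2 * rho (edges n) β (fun u => g u / β) x) := by
    rw [le_div_iff₀ hMx]
    nlinarith [sq_nonneg (rho (edges n) β (fun u => g u / β) x)]
  have e3 : d ^ 2 ≤ 36 * (β ^ (-(3 / 2) : ℝ)) ^ 2 := by
    have := pow_le_pow_left₀ hd0 hd1 2
    linarith [this]
  have e4 : (β ^ (-(3 / 2) : ℝ)) ^ 2 = β ^ (-(3 : ℝ)) := by
    rw [← Real.rpow_natCast (β ^ (-(3 / 2) : ℝ)), ← Real.rpow_mul hβp.le]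
    norm_num
  have e5 : 81 * β ^ (-(3 : ℝ)) ≤ β ^ (-(3 / 2) : ℝ) := by
    have h4 : β ^ (-(3 / 2) : ℝ) = β ^ (3 / 2 : ℝ) * β ^ (-(3 : ℝ)) := by
      rw [← Real.rpow_add hβp]
      norm_num
    rw [h4]
    exact mul_le_mul_of_nonneg_right h3 (hp _).le
  rw [e4] at e3
  linarith

/-- **The step of the bootstrap.** -/
theorem step3 (hK : KappaStmt3) (hD : DirStmt3) (hE : EnergyStmt3) :
    ∃ Cs : ℝ, 0 < Cs ∧ ∀ C7 : ℝ, 2 * Cs ≤ C7 → ∃ β0 : ℝ, 1 < β0 ∧ ∀ β : ℝ, β0 ≤ β → ∃ n0 : ℕ,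
      ∀ (n : ℕ) [NeZero n], n0 ≤ n → Odd n → ∀ g0 : ℝ, (n : ℝ) ^ (-(1 / 4) : ℝ) ≤ g0 → g0 ≤ 1 →
        BH3 n β (C7 * β ^ (-(3 / 2) : ℝ)) g0 → BH3 n β (C7 * β ^ (-(3 / 2) : ℝ) / 2) g0 := by
  obtain ⟨c2, c3, hc2, hc3, hK⟩ := hK
  obtain ⟨CD, hCD, hD⟩ := hD
  obtain ⟨CE', βE, hE⟩ := hE
  set CE : ℝ := max CE' 1 with hCE
  have hCE1 : 1 ≤ CE := le_max_right _ _
  set c7 : ℝ := min c2 1 with hc7
  have hc7p : 0 < c7 := lt_min hc2 one_pos
  set Cr : ℝ := CD * (1 + 1 / c3) * CE + CD / (c3 * c7) with hCr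
  have hCrp : 0 < Cr := by positivity
  refine ⟨3 * Cr + 1, by positivity, fun C7 hC7 => ?_⟩
  have hC7p : 0 < C7 := by linarith
  obtain ⟨βK, hK⟩ := hK C7 c7 hC7p hc7p
  have hlim : ∀ (a : ℝ), 0 < a → ∀ B : ℝ, ∀ᶠ β : ℝ in atTop, B ≤ β ^ a := fun a ha B =>
    (tendsto_rpow_atTop ha).eventually_ge_atTop B
  obtain ⟨β1, hβ1⟩ := eventually_atTop.1 ((hlim (3 / 2) (by norm_num) (1 / c7)).and
    ((hlim (3 / 2) (by norm_num) (8 * Cr)).and ((hlim (3 / 2) (by norm_num) 81).and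
      ((hlim (1 / 4) (by norm_num) 3).and (eventually_ge_atTop (9 : ℝ))))))
  refine ⟨max (max βE βK) (max β1 2), lt_max_of_lt_right (lt_max_of_lt_right (by norm_num)),
    fun β hβ => ?_⟩
  have hβE : βE ≤ β := (le_max_left _ _).trans ((le_max_left _ _).trans hβ)
  have hβK : βK ≤ β := (le_max_right _ _).trans ((le_max_left _ _).trans hβ)
  obtain ⟨h1, h2, h3, h14, h9⟩ := hβ1 β ((le_max_left _ _).trans ((le_max_right _ _).trans hβ))
  have hβp : 0 < β := by linarith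
  have hp : ∀ a : ℝ, 0 < β ^ a := fun a => Real.rpow_pos_of_pos hβp a
  obtain ⟨nK, hK⟩ := hK β hβK
  obtain ⟨nE, hE⟩ := hE β hβE
  set w : ℕ := 3 ^ a3 β with hw
  have hwr : (w : ℝ) = (3 : ℝ) ^ a3 β := by
    rw [hw]
    push_cast
    rfl
  have hw1 : Real.sqrt β ≤ w := hwr ▸ a3_ge β
  have hw2 : (w : ℝ) ≤ 3 * Real.sqrt β := hwr ▸ a3_le (by linarith)
  have hsq : 3 ≤ Real.sqrt β := by
    rw [Real.le_sqrt (by norm_num) hβp.le]
    linarith
  have hss : Real.sqrt β * Real.sqrt β = β := Real.mul_self_sqrt hβp.le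
  have hwp : (0 : ℝ) < w := by linarith
  have hwN : 0 < w := by exact_mod_cast hwp
  have hwβ : (w : ℝ) ≤ β := by nlinarith
  have hw34 : (w : ℝ) ≤ β ^ (3 / 4 : ℝ) := by
    have e1 : β ^ (3 / 4 : ℝ) = β ^ (1 / 4 : ℝ) * Real.sqrt β := by
      rw [Real.sqrt_eq_rpow, ← Real.rpow_add hβp]
      norm_num
    rw [e1]
    exact hw2.trans (mul_le_mul_of_nonneg_right h14 (Real.sqrt_nonneg _))
  set m : ℕ := ⌈β ^ (3 : ℝ) / w⌉₊ with hm
  have hmp : 0 < m := Nat.ceil_pos.2 (div_pos (hp _) hwp)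
  have hm1 : β ^ (3 : ℝ) ≤ w * m := by
    have := Nat.le_ceil (β ^ (3 : ℝ) / w)
    rw [div_le_iff₀ hwp] at this
    rw [hm]
    linarith
  have hβ3 : β ≤ β ^ (3 : ℝ) := by
    conv_lhs => rw [← Real.rpow_one β]
    exact Real.rpow_le_rpow_of_exponent_le (by linarith) (by norm_num)
  have hm2 : (w : ℝ) * m ≤ 2 * β ^ (3 : ℝ) := by
    have h4 : (m : ℝ) < β ^ (3 : ℝ) / w + 1 := Nat.ceil_lt_add_one (div_pos (hp _) hwp).le
    have h5 : (w : ℝ) * m ≤ w * (β ^ (3 : ℝ) / w + 1) := mul_le_mul_of_nonneg_left h4.le hwp.le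
    rw [mul_add, mul_div_cancel₀ _ hwp.ne', mul_one] at h5
    linarith
  refine ⟨max (max nK nE) (max (w * m) 2), ?_⟩
  intro n _ hn hodd g0 hg0 hg1 hB g hg x
  have hnK : nK ≤ n := (le_max_left _ _).trans ((le_max_left _ _).trans hn)
  have hnE : nE ≤ n := (le_max_right _ _).trans ((le_max_left _ _).trans hn)
  have hnw : w * m ≤ n := (le_max_left _ _).trans ((le_max_right _ _).trans hn)
  have hwn : w ≤ n := le_trans (Nat.le_mul_of_pos_right _ hmp) hnw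
  have hn0 : (0 : ℝ) < n := by exact_mod_cast NeZero.pos n
  have g0p : 0 < g0 := (Real.rpow_pos_of_pos hn0 _).trans_le hg0
  have hgp : ∀ y, 0 < g y := fun y => g0p.trans_le (hg.1 y).1
  have hhp : ∀ y, 0 < g y / β := fun y => div_pos (hgp y) hβp
  set K : ℝ := c7 * β ^ (3 / 2 : ℝ) with hKdef
  have hK1 : 1 ≤ K := by
    rw [div_le_iff₀ hc7p] at h1
    rw [hKdef]
    linarith
  have hKp : 0 < K := by linarith
  have hβ32 : β ^ (3 / 2 : ℝ) = β * Real.sqrt β := by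
    rw [Real.sqrt_eq_rpow]
    conv_rhs => rw [← Real.rpow_one β, ← Real.rpow_mul hβp.le, one_mul]
    rw [← Real.rpow_add hβp]
    norm_num
  have hK2 : K ≤ c2 * β * 3 ^ a3 β := by
    rw [hKdef, hβ32, ← hwr]
    have h4 : c7 ≤ c2 := min_le_left _ _
    have h5 : c7 * (β * Real.sqrt β) ≤ c2 * (β * Real.sqrt β) :=
      mul_le_mul_of_nonneg_right h4 (by positivity)
    have h6 : c2 * β * Real.sqrt β ≤ c2 * β * w :=
      mul_le_mul_of_nonneg_left hw1 (by positivity)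
    linarith
  have hinv : β ^ (-(3 / 2) : ℝ) = (β ^ (3 / 2 : ℝ))⁻¹ := Real.rpow_neg hβp.le _
  set r : ℝ := Cr * β ^ (-(3 / 2) : ℝ) with hr
  -- the direction estimate in a block
  have hblock : ∀ z : Tor n, (∑ y ∈ cube n z w, rho (edges n) β (fun y => g y / β) y) /
      (cube n z w).card ≤ CD * (1 + 1 / c3) * yb (edges n) β (fun y => g y / β) (cube n z w) +
        CD / (c3 * c7) * β ^ (-(3 / 2) : ℝ) := by
    intro z
    have hkap := hK n hnK hodd (a3 β) (a3_ge β) (hwr ▸ hw34) K hK1 le_rfl hK2 g0 hg0 hg1 hB g hg z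
    have hne : (cube n z w).Nonempty := by
      refine ⟨z + fun i => ((0 : ℕ) : ZMod n), ?_⟩
      unfold cube
      rw [Finset.mem_image]
      exact ⟨fun _ => ⟨0, hwN⟩, Finset.mem_univ _, rfl⟩
    have h4 := hD (Tor n) (edges n) β (fun y => g y / β) K (c3 * K) (cube n z w) hβp
      (fun y => (hhp y).le) hK1 (by positivity) hne hkap
    have h5 : K / (c3 * K) = 1 / c3 := by field_simp
    have h6 : CD / (c3 * K) = CD / (c3 * c7) * β ^ (-(3 / 2) : ℝ) := by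
      rw [hKdef, hinv]
      field_simp
    rw [h5, h6] at h4
    exact h4
  have hsum : ∑ y : Fin 3 → Fin m, (CD * (1 + 1 / c3) * yb (edges n) β (fun y => g y / β)
      (cube n (x + fun i => ((w * (y i : ℕ) : ℕ) : ZMod n)) w) +
        CD / (c3 * c7) * β ^ (-(3 / 2) : ℝ)) ≤ (m : ℝ) ^ 3 * r := by
    rw [Finset.sum_add_distrib, ← Finset.mul_sum, Finset.sum_const, Finset.card_univ,
      Fintype.card_fun, Fintype.card_fin, Fintype.card_fin, nsmul_eq_mul, Nat.cast_pow]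
    have hm3 : (0 : ℝ) < (m : ℝ) ^ 3 := by positivity
    have h4 := hE n hnE g (fun y => ⟨hgp y, (hg.1 y).2⟩) x w m hwN hw2 hm1 hm2
    rw [div_le_iff₀ hm3] at h4
    have h5 : CE' * β ^ (-(3 / 2) : ℝ) * (m : ℝ) ^ 3 ≤ CE * β ^ (-(3 / 2) : ℝ) * (m : ℝ) ^ 3 := by
      refine mul_le_mul_of_nonneg_right (mul_le_mul_of_nonneg_right (le_max_left _ _) (hp _).le)
        hm3.le
    have h6 : 0 ≤ CD * (1 + 1 / c3) := by positivity
    have h7 := mul_le_mul_of_nonneg_left (h4.trans h5) h6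
    rw [hr, hCr]
    linarith
  obtain ⟨k, hk, hρ⟩ := good_point x hwN hmp hwn
    (fun z => rho (edges n) β (fun y => g y / β) z) _ (fun y => hblock _) hsum
  have hr8 : r ≤ 1 / 8 := by
    rw [hr, hinv, ← div_eq_mul_inv, div_le_iff₀ (hp _)]
    linarith
  have hrp : 0 < r := mul_pos hCrp (hp _)
  have e6 := reg_step hβp h3 g0p hg x (l := w * m) (by push_cast; exact hm2) hk hrp hr8 hρ
  have e8 : (3 * Cr + 1) * β ^ (-(3 / 2) : ℝ) ≤ C7 * β ^ (-(3 / 2) : ℝ) / 2 := by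
    have := mul_le_mul_of_nonneg_right hC7 (hp (-(3 / 2))).le
    linarith
  rw [hr] at e6
  linarith

/-- **(B)** the bootstrap of stage 3. -/
theorem bootStmt3_of (hK : KappaStmt3) (hD : DirStmt3) (hE : EnergyStmt3) (hS : StartStmt3) :
    BootStmt3 := by
  obtain ⟨Cs, hCs, hst⟩ := step3 hK hD hE
  obtain ⟨CS, βS, hS⟩ := hS
  obtain ⟨β0, hβ0, hst⟩ := hst (max (2 * Cs) CS) (le_max_left _ _)
  have hC7 : 0 < max (2 * Cs) CS := lt_max_of_lt_left (by positivity)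
  refine ⟨max (2 * Cs) CS, max β0 βS, hC7, fun β hβ => ?_⟩
  have hβ0' : β0 ≤ β := (le_max_left _ _).trans hβ
  have hβp : 0 < β := by linarith
  obtain ⟨n1, hst⟩ := hst β hβ0'
  obtain ⟨n2, hS⟩ := hS β ((le_max_right _ _).trans hβ)
  refine ⟨max n1 n2, ?_⟩
  intro n _ hn hodd g0 hg0 hg1
  have hn1 : n1 ≤ n := (le_max_left _ _).trans hn
  have hn2 : n2 ≤ n := (le_max_right _ _).trans hn
  have hn0 : (0 : ℝ) < n := by exact_mod_cast NeZero.pos n
  have g0p : 0 < g0 := (Real.rpow_pos_of_pos hn0 _).trans_le hg0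
  set lam : ℝ := β ^ (-(9 / 2) : ℝ) with hlam
  have hlamp : 0 ≤ lam := (Real.rpow_pos_of_pos hβp _).le
  set η : ℝ := max (2 * Cs) CS * β ^ (-(3 / 2) : ℝ) with hη
  have hηp : 0 < η := mul_pos hC7 (Real.rpow_pos_of_pos hβp _)
  have hexp : 1 ≤ Real.exp lam := Real.one_le_exp hlamp
  have hdiv : Continuous fun g : Tor n → ℝ => fun y => g y / β := by
    fun_prop
  have key := bootstrap_abs (V := Tor n) (fun g x => rho (edges n) β (fun y => g y / β) x)
    (fun x => (continuous_rho (edges n) β x).comp hdiv)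
    (fun h => ∀ (x : Tor n) (i : Fin 3), h x ≤ Real.exp lam * h (x + Pi.single i 1) ∧
      h (x + Pi.single i 1) ≤ Real.exp lam * h x) ?_ g0p hηp ?_ ?_ hg1
  · intro g hg x
    have := key g hg.1 hg.2 x
    linarith
  · intro h c hc hreg x i
    have hm : ∀ u v : ℝ, u ≤ Real.exp lam * v → max u c ≤ Real.exp lam * max v c := by
      intro u v huv
      refine max_le (huv.trans ?_) ?_
      · exact mul_le_mul_of_nonneg_left (le_max_left _ _) (Real.exp_pos _).le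
      · calc c ≤ Real.exp lam * c := by nlinarith
          _ ≤ _ := mul_le_mul_of_nonneg_left (le_max_right _ _) (Real.exp_pos _).le
    exact ⟨hm _ _ (hreg x i).1, hm _ _ (hreg x i).2⟩
  · intro x
    refine (hS n hn2 hodd x).trans ?_
    exact mul_le_mul_of_nonneg_right (le_max_right _ _) (Real.rpow_pos_of_pos hβp _).le
  · intro h0 h2 h3 h4 h h5 h6 x
    exact hst n hn1 hodd h0 (hg0.trans h2) h3 (fun g hg y => h4 g hg.1 hg.2 y) h ⟨h5, h6⟩ x

end

end Vale.Agent.P361.LRO.S3
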