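import Vale.Agent.P361.LRO.Tw.Scalar

/-!
P361, stage 3: the direction of the magnetisation of a block (scalar part).

For a joint law of the density `D` of magnons of a block and of `X = 1 - M/J`, tilted
exponential moments of `X` give `<X> ≤ C/(c K) + (error terms)`.
-/

namespace Vale.Agent.P361.LRO.S3

open Finset

/-- Shells: `2^j a < D ≤ 2^(j+1) a`. -/
theorem exists_shell {a D : ℝ} (ha : 0 < a) (hD : a < D) {m : ℕ} (hm : D ≤ 2 ^ m * a) :
    ∃ j < m, 2 ^ j * a < D ∧ D ≤ 2 ^ (j + 1) * a := by
  induction m with
  | zero => simp at hm; linarith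
  | succ m ih =>
    by_cases h : D ≤ 2 ^ m * a
    · obtain ⟨j, hj, h1, h2⟩ := ih h
      exact ⟨j, by omega, h1, h2⟩
    · push Not at h
      exact ⟨m, by omega, h, hm⟩

/-- **Direction theorem**, abstract form. -/
theorem dir {ι : Type*} [Fintype ι] (w D X : ι → ℝ) (r : ℝ → ι → ℝ) {K c d s L : ℝ} {m : ℕ}
    (hw : ∀ i, 0 ≤ w i) (hw1 : ∑ i, w i = 1) (hD0 : ∀ i, 0 ≤ D i) (hD : ∀ i, D i ≤ 1 / 2)
    (hX0 : ∀ i, 0 ≤ X i) (hX2 : ∀ i, X i ≤ 2) (hc : 0 < c)
    (h1 : ∀ K', 1 ≤ K' → K' ≤ K → ∀ i, Real.exp (-(K' * D i)) ≤ r K' i)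
    (h2 : ∀ K', 1 ≤ K' → K' ≤ K → ∀ i, r K' i ≤ 4 * Real.exp (-(K' * min (D i) (1 / 4))))
    (hE : ∀ K', 1 ≤ K' → K' ≤ K →
      ∑ i, w i * (r K' i * Real.exp (c * K' * X i)) ≤ 2 * ∑ i, w i * r K' i)
    (hd : 0 < d) (hs : 0 ≤ s) (hs1 : s ≤ 1) (hd4 : d ≤ 1 / 4) (hK1 : 1 ≤ K)
    (hKd : 1 / 2 ≤ K * d) (hL : 0 ≤ L) (hm : 1 / 2 ≤ 2 ^ m * ((1 + s) * d)) :
    ∑ i, w i * X i ≤
      8 / (c * K) * ((∑ i, if D i < (1 - s) * d then w i else 0) * Real.exp (K * (1 + s) * d)
        + Real.exp (2 * s * (K * d)))
      + 2 * L / c * (∑ i, if (1 + s) * d < D i then w i * D i else 0)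
      + 16 * m * Real.exp (1 - L) := by
  classical
  have hK0 : 0 < K := by linarith
  have hr0 : ∀ K', 1 ≤ K' → K' ≤ K → ∀ i, 0 ≤ r K' i := fun K' a b i =>
    (Real.exp_pos _).le.trans (h1 K' a b i)
  have hr4 : ∀ K', 1 ≤ K' → K' ≤ K → ∀ i, r K' i ≤ 4 := fun K' a b i => by
    refine (h2 K' a b i).trans ?_
    have : Real.exp (-(K' * min (D i) (1 / 4))) ≤ 1 := by
      rw [Real.exp_le_one_iff]
      have : 0 ≤ K' * min (D i) (1 / 4) := mul_nonneg (by linarith) (le_min (hD0 i) (by norm_num))
      linarith
    linarith
  -- split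
  have hsplit : ∑ i, w i * X i = (∑ i, if D i ≤ (1 + s) * d then w i * X i else 0)
      + ∑ i, if (1 + s) * d < D i then w i * X i else 0 := by
    rw [← sum_add_distrib]
    refine sum_congr rfl fun i _ => ?_
    by_cases h : D i ≤ (1 + s) * d
    · rw [if_pos h, if_neg (not_lt.2 h), add_zero]
    · rw [if_neg h, if_pos (not_le.1 h), zero_add]
  -- part G
  have hG : (∑ i, if D i ≤ (1 + s) * d then w i * X i else 0) ≤
      8 / (c * K) * ((∑ i, if D i < (1 - s) * d then w i else 0) * Real.exp (K * (1 + s) * d)
        + Real.exp (2 * s * (K * d))) := by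
    have g1 : (∑ i, if D i ≤ (1 + s) * d then w i * X i else 0) ≤
        Real.exp (K * (1 + s) * d) / (c * K)
          * ∑ i, w i * (r K i * Real.exp (c * K * X i)) := by
      rw [mul_sum]
      refine sum_le_sum fun i _ => ?_
      have hcK : 0 < c * K := mul_pos hc hK0
      by_cases h : D i ≤ (1 + s) * d
      · rw [if_pos h]
        have e1 : c * K * X i ≤ Real.exp (c * K * X i) := by
          have := Real.add_one_le_exp (c * K * X i); linarith
        have e2 : 1 ≤ Real.exp (K * (1 + s) * d) * r K i := by
          have := h1 K hK1 le_rfl i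
          have e3 : Real.exp (K * (1 + s) * d) * Real.exp (-(K * D i)) ≥ 1 := by
            rw [← Real.exp_add]
            apply Real.one_le_exp
            have : K * D i ≤ K * ((1 + s) * d) := mul_le_mul_of_nonneg_left h hK0.le
            linarith
          have e4 := mul_le_mul_of_nonneg_left this (Real.exp_pos (K * (1 + s) * d)).le
          linarith
        have e5 : X i ≤ Real.exp (c * K * X i) / (c * K) := by
          rw [le_div_iff₀ hcK]; linarith
        calc w i * X i ≤ w i * (Real.exp (c * K * X i) / (c * K)) :=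
              mul_le_mul_of_nonneg_left e5 (hw i)
          _ = w i * (Real.exp (c * K * X i) / (c * K)) * 1 := by ring
          _ ≤ w i * (Real.exp (c * K * X i) / (c * K)) * (Real.exp (K * (1 + s) * d) * r K i) :=
              mul_le_mul_of_nonneg_left e2 (mul_nonneg (hw i) (by positivity))
          _ = _ := by ring
      · rw [if_neg h]
        have := hr0 K hK1 le_rfl i
        have := hw i
        positivity
    have g2 := hE K hK1 le_rfl
    have g3 : ∑ i, w i * r K i ≤
        4 * ((∑ i, if D i < (1 - s) * d then w i else 0) + Real.exp (-(K * ((1 - s) * d)))) := by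
      have hle : ∀ i, w i * r K i ≤ 4 * (if D i < (1 - s) * d then w i else 0)
          + w i * (4 * Real.exp (-(K * ((1 - s) * d)))) := by
        intro i
        have hpos : 0 ≤ w i * (4 * Real.exp (-(K * ((1 - s) * d)))) :=
          mul_nonneg (hw i) (by positivity)
        by_cases h : D i < (1 - s) * d
        · rw [if_pos h]
          have := mul_le_mul_of_nonneg_left (hr4 K hK1 le_rfl i) (hw i)
          linarith
        · rw [if_neg h, mul_zero, zero_add]
          push Not at h
          refine mul_le_mul_of_nonneg_left ?_ (hw i)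
          refine (h2 K hK1 le_rfl i).trans ?_
          have hmin : (1 - s) * d ≤ min (D i) (1 / 4) := by
            refine le_min h ?_
            nlinarith
          have : Real.exp (-(K * min (D i) (1 / 4))) ≤ Real.exp (-(K * ((1 - s) * d))) := by
            apply Real.exp_le_exp.2
            have := mul_le_mul_of_nonneg_left hmin hK0.le
            linarith
          linarith
      refine (sum_le_sum fun i _ => hle i).trans ?_
      rw [sum_add_distrib, ← mul_sum, ← sum_mul, hw1]
      linarith
    set δ := ∑ i, if D i < (1 - s) * d then w i else 0 with hδ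
    have g4 : Real.exp (K * (1 + s) * d) * Real.exp (-(K * ((1 - s) * d)))
        = Real.exp (2 * s * (K * d)) := by
      rw [← Real.exp_add]; congr 1; ring
    have hcK : 0 < c * K := mul_pos hc hK0
    have g5 : Real.exp (K * (1 + s) * d) / (c * K)
          * ∑ i, w i * (r K i * Real.exp (c * K * X i))
        ≤ Real.exp (K * (1 + s) * d) / (c * K)
          * (2 * (4 * (δ + Real.exp (-(K * ((1 - s) * d)))))) := by
      refine mul_le_mul_of_nonneg_left ?_ (by positivity)
      linarith
    refine g1.trans (g5.trans (le_of_eq ?_))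
    rw [← g4]
    ring
  -- part E
  have hEpart : (∑ i, if (1 + s) * d < D i then w i * X i else 0) ≤
      2 * L / c * (∑ i, if (1 + s) * d < D i then w i * D i else 0)
      + 16 * m * Real.exp (1 - L) := by
    set a := (1 + s) * d with ha
    have ha0 : 0 < a := by rw [ha]; positivity
    have had : d ≤ a := by rw [ha]; nlinarith
    -- the bad sets of the shells
    set KK : ℕ → ℝ := fun j => (2 ^ (j + 1) * a)⁻¹ with hKK
    have hKKpos : ∀ j, 0 < KK j := fun j => by rw [hKK]; positivity
    have hKKle : ∀ j, KK j ≤ K := by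
      intro j
      rw [hKK]
      simp only
      rw [inv_le_comm₀ (by positivity) hK0]
      have h3 : (2 : ℝ) ≤ 2 ^ (j + 1) := by
        calc (2 : ℝ) = 2 ^ 1 := by norm_num
          _ ≤ 2 ^ (j + 1) := pow_le_pow_right₀ (by norm_num) (by omega)
      have h4 : 2 * a ≤ 2 ^ (j + 1) * a := mul_le_mul_of_nonneg_right h3 ha0.le
      have h5 : K⁻¹ ≤ 2 * d := by
        rw [inv_le_iff_one_le_mul₀ hK0]; linarith
      linarith
    have hbad : ∀ j, 1 ≤ KK j →
        ∑ i, (if L < c * KK j * X i ∧ KK j * D i ≤ 1 then w i * X i else 0)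
          ≤ 16 * Real.exp (1 - L) := by
      intro j hj
      have b1 : ∑ i, (if L < c * KK j * X i ∧ KK j * D i ≤ 1 then w i * X i else 0)
          ≤ ∑ i, 2 * Real.exp (1 - L) * (w i * (r (KK j) i * Real.exp (c * KK j * X i))) := by
        refine sum_le_sum fun i _ => ?_
        have hr := hr0 (KK j) hj (hKKle j) i
        by_cases h : L < c * KK j * X i ∧ KK j * D i ≤ 1
        · rw [if_pos h]
          have e1 : Real.exp (-1) ≤ r (KK j) i := by
            refine le_trans ?_ (h1 (KK j) hj (hKKle j) i)
            apply Real.exp_le_exp.2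
            linarith [h.2]
          have e2 : Real.exp L ≤ Real.exp (c * KK j * X i) := Real.exp_le_exp.2 h.1.le
          have e3 : 1 ≤ Real.exp (1 - L) * (r (KK j) i * Real.exp (c * KK j * X i)) := by
            have e4 : Real.exp (-1) * Real.exp L ≤ r (KK j) i * Real.exp (c * KK j * X i) :=
              mul_le_mul e1 e2 (Real.exp_pos _).le hr
            have e5 : Real.exp (1 - L) * (Real.exp (-1) * Real.exp L) = 1 := by
              rw [← Real.exp_add, ← Real.exp_add]
              rw [show (1 : ℝ) - L + (-1 + L) = 0 by ring, Real.exp_zero]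
            have e6 := mul_le_mul_of_nonneg_left e4 (Real.exp_pos (1 - L)).le
            linarith
          calc w i * X i ≤ w i * 2 := mul_le_mul_of_nonneg_left (hX2 i) (hw i)
            _ = w i * 2 * 1 := by ring
            _ ≤ w i * 2 * (Real.exp (1 - L) * (r (KK j) i * Real.exp (c * KK j * X i))) :=
                mul_le_mul_of_nonneg_left e3 (mul_nonneg (hw i) (by norm_num))
            _ = _ := by ring
        · rw [if_neg h]
          have := hw i
          positivity
      refine b1.trans ?_
      rw [← mul_sum]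
      have b2 := hE (KK j) hj (hKKle j)
      have b3 : ∑ i, w i * r (KK j) i ≤ 4 := by
        calc ∑ i, w i * r (KK j) i ≤ ∑ i, w i * 4 :=
              sum_le_sum fun i _ => mul_le_mul_of_nonneg_left (hr4 (KK j) hj (hKKle j) i) (hw i)
          _ = 4 := by rw [← sum_mul, hw1]; norm_num
      have b4 : ∑ i, w i * (r (KK j) i * Real.exp (c * KK j * X i)) ≤ 8 := by linarith
      have b5 := mul_le_mul_of_nonneg_left b4 (by positivity : 0 ≤ 2 * Real.exp (1 - L))
      linarith
    -- shells with KK j ≥ 1
    have hpoint : ∀ i, (if a < D i then w i * X i else 0) ≤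
        2 * L / c * (if a < D i then w i * D i else 0)
        + ∑ j ∈ (range m).filter (fun j => 1 ≤ KK j),
          (if L < c * KK j * X i ∧ KK j * D i ≤ 1 then w i * X i else 0) := by
      intro i
      have hnn : ∀ j, 0 ≤ (if L < c * KK j * X i ∧ KK j * D i ≤ 1 then w i * X i else 0) := by
        intro j
        split_ifs
        · exact mul_nonneg (hw i) (hX0 i)
        · exact le_rfl
      have hsumnn : 0 ≤ ∑ j ∈ (range m).filter (fun j => 1 ≤ KK j),
          (if L < c * KK j * X i ∧ KK j * D i ≤ 1 then w i * X i else 0) :=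
        sum_nonneg fun j _ => hnn j
      by_cases h : a < D i
      · rw [if_pos h, if_pos h]
        obtain ⟨j, hj, hj1, hj2⟩ := exists_shell ha0 h (m := m) ((hD i).trans hm)
        have hpow : (0 : ℝ) < 2 ^ j := by positivity
        have hKKD : KK j * D i ≤ 1 := by
          rw [hKK]; simp only
          rw [inv_mul_le_iff₀ (by positivity)]; linarith
        have hKK1 : 1 ≤ KK j := by
          rw [hKK]; simp only
          rw [one_le_inv₀ (by positivity)]
          have : 2 ^ (j + 1) * a = 2 * (2 ^ j * a) := by ring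
          rw [this]
          have := hD i
          linarith
        by_cases hx : L < c * KK j * X i
        · have hmem : j ∈ (range m).filter (fun j => 1 ≤ KK j) := by
            rw [mem_filter, mem_range]; exact ⟨hj, hKK1⟩
          have hsingle := single_le_sum (f := fun j =>
            (if L < c * KK j * X i ∧ KK j * D i ≤ 1 then w i * X i else 0))
            (fun j _ => hnn j) hmem
          rw [if_pos ⟨hx, hKKD⟩] at hsingle
          have : 0 ≤ 2 * L / c * (w i * D i) :=
            mul_nonneg (by positivity) (mul_nonneg (hw i) (hD0 i))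
          linarith
        · push Not at hx
          have hX : X i ≤ 2 * L / c * D i := by
            have e1 : X i ≤ L / (c * KK j) := by
              rw [le_div_iff₀ (mul_pos hc (hKKpos j))]; linarith
            refine e1.trans ?_
            rw [hKK]
            simp only
            have e2 : L / (c * (2 ^ (j + 1) * a)⁻¹) = 2 * L / c * (2 ^ j * a) := by
              field_simp
              ring
            rw [e2]
            exact mul_le_mul_of_nonneg_left hj1.le (by positivity)
          have := mul_le_mul_of_nonneg_left hX (hw i)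
          have e3 : w i * (2 * L / c * D i) = 2 * L / c * (w i * D i) := by ring
          linarith
      · rw [if_neg h, if_neg h, mul_zero, zero_add]
        exact hsumnn
    refine (sum_le_sum fun i _ => hpoint i).trans ?_
    rw [sum_add_distrib, ← mul_sum, sum_comm]
    have hfin : ∑ j ∈ (range m).filter (fun j => 1 ≤ KK j), ∑ i,
        (if L < c * KK j * X i ∧ KK j * D i ≤ 1 then w i * X i else 0)
        ≤ 16 * m * Real.exp (1 - L) := by
      calc ∑ j ∈ (range m).filter (fun j => 1 ≤ KK j), ∑ i,
            (if L < c * KK j * X i ∧ KK j * D i ≤ 1 then w i * X i else 0)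
          ≤ ∑ j ∈ (range m).filter (fun j => 1 ≤ KK j), 16 * Real.exp (1 - L) :=
            sum_le_sum fun j hj => hbad j (mem_filter.1 hj).2
        _ ≤ ∑ j ∈ range m, 16 * Real.exp (1 - L) :=
            sum_le_sum_of_subset_of_nonneg (filter_subset _ _) fun _ _ _ => by positivity
        _ = 16 * m * Real.exp (1 - L) := by
            rw [sum_const, card_range, nsmul_eq_mul]; ring
    linarith
  rw [hsplit]
  linarith

end Vale.Agent.P361.LRO.S3
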