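import Mathlib

/-!
P361, stage 3: the direction of the block spin by Jensen's inequality (scalar part).

`w` is the joint law of `(J, M)`, `D = (J_max - J) / |b|`, `X = 1 - M / J`, `r = A_K(J) / A_K(J_max)`.
-/

namespace Vale.Agent.P361.LRO.S3

open Finset

variable {ι : Type*}

/-- Jensen: the exponential moment inequality gives a linear inequality between the means. -/
theorem jensen_dir (s : Finset ι) (w D X r : ι → ℝ) (hw : ∀ i ∈ s, 0 ≤ w i)
    (hsum : ∑ i ∈ s, w i = 1) {K c : ℝ} (hK : 0 < K)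
    (hr : ∀ i ∈ s, Real.exp (-(K * D i)) ≤ r i)
    (hE : ∑ i ∈ s, w i * (r i * Real.exp (c * K * X i)) ≤ 2 * ∑ i ∈ s, w i * r i) :
    c * ∑ i ∈ s, w i * X i ≤
      ∑ i ∈ s, w i * D i + (1 / K) * Real.log (2 * ∑ i ∈ s, w i * r i) := by
  have h1 : Real.exp (∑ i ∈ s, w i • (K * (c * X i - D i))) ≤
      ∑ i ∈ s, w i • Real.exp (K * (c * X i - D i)) :=
    convexOn_exp.map_sum_le hw hsum fun i _ => Set.mem_univ _
  have h2 : ∑ i ∈ s, w i • Real.exp (K * (c * X i - D i)) ≤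
      ∑ i ∈ s, w i * (r i * Real.exp (c * K * X i)) := by
    refine sum_le_sum fun i hi => ?_
    rw [smul_eq_mul]
    refine mul_le_mul_of_nonneg_left ?_ (hw i hi)
    have e : K * (c * X i - D i) = -(K * D i) + c * K * X i := by ring
    rw [e, Real.exp_add]
    exact mul_le_mul_of_nonneg_right (hr i hi) (Real.exp_pos _).le
  have h3 : Real.exp (∑ i ∈ s, w i • (K * (c * X i - D i))) ≤ 2 * ∑ i ∈ s, w i * r i :=
    h1.trans (h2.trans hE)
  have h4 : ∑ i ∈ s, w i • (K * (c * X i - D i)) ≤ Real.log (2 * ∑ i ∈ s, w i * r i) := by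
    rw [← Real.log_exp (∑ i ∈ s, w i • (K * (c * X i - D i)))]
    exact Real.log_le_log (Real.exp_pos _) h3
  have h5 : ∑ i ∈ s, w i • (K * (c * X i - D i)) =
      K * (c * ∑ i ∈ s, w i * X i - ∑ i ∈ s, w i * D i) := by
    simp only [smul_eq_mul, mul_sub, sum_sub_distrib, mul_sum]
    congr 1
    · exact sum_congr rfl fun i _ => by ring
    · exact sum_congr rfl fun i _ => by ring
  rw [h5] at h4
  have h6 : c * ∑ i ∈ s, w i * X i - ∑ i ∈ s, w i * D i ≤
      (1 / K) * Real.log (2 * ∑ i ∈ s, w i * r i) := by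
    rw [one_div, inv_mul_eq_div, le_div_iff₀ hK]
    linarith
  linarith

/-- Closure form: `r ≤ 1`. -/
theorem dir_closure (s : Finset ι) (w D X r : ι → ℝ) (hw : ∀ i ∈ s, 0 ≤ w i)
    (hsum : ∑ i ∈ s, w i = 1) {K c : ℝ} (hK : 0 < K)
    (hr : ∀ i ∈ s, Real.exp (-(K * D i)) ≤ r i) (hr1 : ∀ i ∈ s, r i ≤ 1)
    (hE : ∑ i ∈ s, w i * (r i * Real.exp (c * K * X i)) ≤ 2 * ∑ i ∈ s, w i * r i) :
    c * ∑ i ∈ s, w i * X i ≤ ∑ i ∈ s, w i * D i + 1 / K := by
  have h := jensen_dir s w D X r hw hsum hK hr hE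
  have hpos : 0 < ∑ i ∈ s, w i * r i := by
    obtain ⟨i, hi, hwi⟩ : ∃ i ∈ s, w i ≠ 0 := by
      by_contra hcon
      push Not at hcon
      rw [sum_eq_zero hcon] at hsum
      exact zero_ne_one hsum
    refine sum_pos' (fun j hj => mul_nonneg (hw j hj) ((Real.exp_pos _).le.trans (hr j hj)))
      ⟨i, hi, mul_pos (lt_of_le_of_ne (hw i hi) hwi.symm) ((Real.exp_pos _).trans_le (hr i hi))⟩
  have h1 : ∑ i ∈ s, w i * r i ≤ 1 := by
    rw [← hsum]
    exact sum_le_sum fun i hi => mul_le_of_le_one_right (hw i hi) (hr1 i hi)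
  have h2 : Real.log (2 * ∑ i ∈ s, w i * r i) ≤ 1 := by
    have := Real.log_le_sub_one_of_pos (show 0 < 2 * ∑ i ∈ s, w i * r i by positivity)
    linarith
  have h3 : (1 / K) * Real.log (2 * ∑ i ∈ s, w i * r i) ≤ 1 / K := by
    have : 0 ≤ 1 / K := by positivity
    nlinarith
  linarith

/-- Sharp form: the lower tail of `D` is negligible at the scale `exp (- K q)`. -/
theorem dir_sharp (s : Finset ι) (w D X r : ι → ℝ) (hw : ∀ i ∈ s, 0 ≤ w i)
    (hsum : ∑ i ∈ s, w i = 1) {K c q : ℝ} (hK : 0 < K)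
    (hr : ∀ i ∈ s, Real.exp (-(K * D i)) ≤ r i) (hr1 : ∀ i ∈ s, r i ≤ 1)
    (hr4 : ∀ i ∈ s, q ≤ D i → r i ≤ 4 * Real.exp (-(K * q)))
    (hE : ∑ i ∈ s, w i * (r i * Real.exp (c * K * X i)) ≤ 2 * ∑ i ∈ s, w i * r i)
    (htail : ∑ i ∈ s, (if D i < q then w i else 0) ≤ Real.exp (-(K * q))) :
    c * ∑ i ∈ s, w i * X i ≤ ∑ i ∈ s, w i * D i - q + 9 / K := by
  have h := jensen_dir s w D X r hw hsum hK hr hE
  have hpos : 0 < ∑ i ∈ s, w i * r i := by
    obtain ⟨i, hi, hwi⟩ : ∃ i ∈ s, w i ≠ 0 := by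
      by_contra hcon
      push Not at hcon
      rw [sum_eq_zero hcon] at hsum
      exact zero_ne_one hsum
    refine sum_pos' (fun j hj => mul_nonneg (hw j hj) ((Real.exp_pos _).le.trans (hr j hj)))
      ⟨i, hi, mul_pos (lt_of_le_of_ne (hw i hi) hwi.symm) ((Real.exp_pos _).trans_le (hr i hi))⟩
  have h1 : ∑ i ∈ s, w i * r i ≤ 5 * Real.exp (-(K * q)) := by
    have h2 : ∀ i ∈ s, w i * r i ≤ w i * (4 * Real.exp (-(K * q))) +
        (if D i < q then w i else 0) := by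
      intro i hi
      have hwi := hw i hi
      have he := (Real.exp_pos (-(K * q))).le
      split_ifs with hq
      · have := mul_le_of_le_one_right hwi (hr1 i hi)
        have := mul_nonneg hwi (by linarith : (0 : ℝ) ≤ 4 * Real.exp (-(K * q)))
        linarith
      · have := mul_le_mul_of_nonneg_left (hr4 i hi (not_lt.1 hq)) hwi
        linarith
    refine (sum_le_sum h2).trans ?_
    rw [sum_add_distrib, ← sum_mul, hsum]
    linarith
  have h2 : Real.log (2 * ∑ i ∈ s, w i * r i) ≤ 9 - K * q := by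
    have h3 : Real.log (2 * ∑ i ∈ s, w i * r i) ≤ Real.log (10 * Real.exp (-(K * q))) :=
      Real.log_le_log (by positivity) (by linarith)
    have h4 : Real.log (10 * Real.exp (-(K * q))) = Real.log 10 - K * q := by
      rw [Real.log_mul (by norm_num) (Real.exp_pos _).ne', Real.log_exp]
      ring
    have h5 : Real.log 10 ≤ 9 := by
      have := Real.log_le_sub_one_of_pos (show (0 : ℝ) < 10 by norm_num)
      linarith
    linarith
  have h3 : (1 / K) * Real.log (2 * ∑ i ∈ s, w i * r i) ≤ 9 / K - q := by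
    have h4 : (1 / K) * Real.log (2 * ∑ i ∈ s, w i * r i) ≤ (1 / K) * (9 - K * q) :=
      mul_le_mul_of_nonneg_left h2 (by positivity)
    have h5 : (1 / K) * (9 - K * q) = 9 / K - q := by
      field_simp
    linarith
  linarith

end Vale.Agent.P361.LRO.S3
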