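import Vale.Agent.P361.LRO.Tw.J.Law2
import Vale.Agent.P361.LRO.Tw.Gibbs
import Vale.Agent.P361.LRO.Bloch.TwistPow
import Vale.Agent.P361.LRO.Bloch.ExpMom
import Vale.Agent.P361.LRO.S3.Jensen
import Vale.Agent.P361.LRO.Top.Iface

/-!
P361, stage 3, block (D): the direction of the block spin, static Gibbs state.
-/

namespace Vale.Agent.P361.LRO.S3

open Finset Matrix Filter

noncomputable section

variable {V : Type} [Fintype V] [DecidableEq V]

/-- The data of the joint law of `(J, M)` of the block `b` in the Gibbs state: `J = N / 2`,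
`M = N / 2 - p`, `|b| = N + 2 r`, with the exponential moment of the twist. -/
structure BlockLaw (L : List (V × V)) (β : ℝ) (h : V → ℝ) (b : Finset V) (K κ : ℝ) {ι : Type}
    [Fintype ι] (μ : ι → ℝ) (N r p : ι → ℕ) : Prop where
  nonneg : ∀ i, 0 ≤ μ i
  sum_one : ∑ i, μ i = 1
  card : ∀ i, N i + 2 * r i = b.card
  le : ∀ i, p i ≤ N i
  mean : (∑ i, μ i * ((r i : ℝ) + p i)) = ∑ x ∈ b, rho L β h x
  cas : ∑ i, μ i * ((r i : ℝ) * ((b.card : ℝ) - r i + 1)) =
    ∑ x ∈ b, ∑ y ∈ b, gib L β h (hM x y)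
  mom : ∑ i, μ i * (TwJ.aN (K / b.card) (N i) * Real.exp (κ * ((p i : ℝ) / N i) / 2)) ≤
    2 * ∑ i, μ i * TwJ.aN (K / b.card) (N i)

/-- The exponential moment from the power moments of the twist. -/
theorem exp_mom_of {W : Matrix (V → Fin 2) (V → Fin 2) ℝ} {b : Finset V} {K κ : ℝ}
    {ι : Type} [Fintype ι] {μ : ι → ℝ} {N p : ι → ℕ} (hK : 0 ≤ K) (hκ : 0 ≤ κ)
    (h5 : ∀ k : ℝ, 0 ≤ k → ∑ i, μ i * TwJ.aN k (N i) =
        Real.cosh (k / 2) ^ b.card / 2 * ∫ φ in (0 : ℝ)..Real.pi,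
          Real.sin φ * Matrix.trace (W * rotT b (Real.tanh (k / 2)) φ))
    (h6 : ∀ k : ℝ, 0 ≤ k → ∀ m : ℕ, ∑ i, μ i * (TwJ.aN k (N i) * ((p i : ℝ) / N i) ^ m) ≤
        Real.cosh (k / 2) ^ b.card / 2 * ∫ φ in (0 : ℝ)..Real.pi,
          Real.sin φ * (1 - Real.cos φ) ^ m *
            Matrix.trace (W * rotT b (Real.tanh (k / 2)) φ))
    (htw : ∀ m : ℕ, κ ^ m * (∫ φ in (0 : ℝ)..Real.pi, Real.sin φ * (1 - Real.cos φ) ^ m *
        Matrix.trace (W * rotT b (Real.tanh (K / (2 * b.card))) φ)) ≤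
      (m.factorial : ℝ) * ∫ φ in (0 : ℝ)..Real.pi, Real.sin φ *
        Matrix.trace (W * rotT b (Real.tanh (K / (2 * b.card))) φ)) :
    ∑ i, μ i * (TwJ.aN (K / b.card) (N i) * Real.exp (κ * ((p i : ℝ) / N i) / 2)) ≤
      2 * ∑ i, μ i * TwJ.aN (K / b.card) (N i) := by
  have hk : 0 ≤ K / b.card := by positivity
  have e1 : K / b.card / 2 = K / (2 * b.card) := by
    rw [div_div, mul_comm (b.card : ℝ) 2]
  have h := Bloch.exp_moment (w := fun i => μ i * TwJ.aN (K / b.card) (N i))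
    (x := fun i => (p i : ℝ) / N i) (κ := κ) (S := ∑ i, μ i * TwJ.aN (K / b.card) (N i)) ?_
  · simpa only [mul_assoc] using h
  · intro m
    have h7 := h6 _ hk m
    rw [h5 _ hk, e1]
    rw [e1] at h7
    have hc : 0 ≤ Real.cosh (K / (2 * b.card)) ^ b.card / 2 := by positivity
    have h8 := mul_le_mul_of_nonneg_left h7 (pow_nonneg hκ m)
    have h9 := mul_le_mul_of_nonneg_left (htw m) hc
    calc κ ^ m * ∑ i, μ i * TwJ.aN (K / b.card) (N i) * ((p i : ℝ) / N i) ^ m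
        = κ ^ m * ∑ i, μ i * (TwJ.aN (K / b.card) (N i) * ((p i : ℝ) / N i) ^ m) := by
          simp only [mul_assoc]
      _ ≤ _ := h8
      _ = Real.cosh (K / (2 * b.card)) ^ b.card / 2 * (κ ^ m *
          ∫ φ in (0 : ℝ)..Real.pi, Real.sin φ * (1 - Real.cos φ) ^ m *
            Matrix.trace (W * rotT b (Real.tanh (K / (2 * b.card))) φ)) := by ring
      _ ≤ _ := h9
      _ = _ := by ring

theorem expH_cons' (L : List (V × V)) (β : ℝ) (h : V → ℝ) (σ τ : V → Fin 2)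
    (hd : NormedSpace.exp (-β • ham L h) σ τ ≠ 0) :
    ∑ x, ((σ x : ℕ) : ℤ) = ∑ x, ((τ x : ℕ) : ℤ) := by
  have := Tw.expH_cons L β h σ τ hd
  exact_mod_cast this

/-- **The joint law in the Gibbs state.** -/
theorem exists_blockLaw (L : List (V × V)) {β : ℝ} (hβ : 0 < β) {h : V → ℝ} (hh : ∀ x, 0 ≤ h x)
    (b : Finset V) {K κ : ℝ} (hK : 0 ≤ K) (hκ : 0 ≤ κ)
    (hf : ∃ᶠ N : ℕ in atTop, κ ≤ kap L β N h K b) :
    ∃ (ι : Type) (_ : Fintype ι) (μ : ι → ℝ) (N r p : ι → ℕ), BlockLaw L β h b K κ μ N r p := by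
  obtain ⟨ι, hι, μ, N, r, p, h1, h2, h3, h4, h4', h5, h6⟩ :=
    TwJ.joint_law (Tw.expH_psd L β h) (expH_cons' L β h) b
  have hT := Tw.trace_expH_pos L β h
  set T := Matrix.trace (NormedSpace.exp (-β • ham L h)) with hTdef
  have hm := exp_mom_of (W := NormedSpace.exp (-β • ham L h)) hK hκ h5 h6
    (Bloch.twist_gibbs_pow L hβ hh hK hκ b hf)
  refine ⟨ι, hι, fun i => μ i / T, N, r, p, ?_, ?_, fun i => (h2 i).1, fun i => (h2 i).2,
    ?_, ?_, ?_⟩
  · exact fun i => div_nonneg (h1 i) hT.le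
  · rw [← Finset.sum_div, h3, div_self hT.ne']
  · have : ∑ i, μ i / T * ((r i : ℝ) + p i) = (∑ i, μ i * ((r i : ℝ) + p i)) / T := by
      rw [Finset.sum_div]
      exact Finset.sum_congr rfl fun i _ => by ring
    rw [this, h4, Finset.sum_div]
    rfl
  · have : ∑ i, μ i / T * ((r i : ℝ) * ((b.card : ℝ) - r i + 1)) =
        (∑ i, μ i * ((r i : ℝ) * ((b.card : ℝ) - r i + 1))) / T := by
      rw [Finset.sum_div]
      exact Finset.sum_congr rfl fun i _ => by ring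
    rw [this, h4', Finset.sum_div]
    refine Finset.sum_congr rfl fun x _ => ?_
    rw [Finset.sum_div]
    rfl
  · have e1 : ∑ i, μ i / T * (TwJ.aN (K / b.card) (N i) *
        Real.exp (κ * ((p i : ℝ) / N i) / 2)) =
        (∑ i, μ i * (TwJ.aN (K / b.card) (N i) * Real.exp (κ * ((p i : ℝ) / N i) / 2))) / T := by
      rw [Finset.sum_div]
      exact Finset.sum_congr rfl fun i _ => by ring
    have e2 : 2 * ∑ i, μ i / T * TwJ.aN (K / b.card) (N i) =
        (2 * ∑ i, μ i * TwJ.aN (K / b.card) (N i)) / T := by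
      rw [Finset.mul_sum, Finset.mul_sum, Finset.sum_div]
      exact Finset.sum_congr rfl fun i _ => by ring
    rw [e1, e2]
    exact div_le_div_of_nonneg_right hm hT.le

namespace BlockLaw

variable {L : List (V × V)} {β : ℝ} {h : V → ℝ} {b : Finset V} {K κ : ℝ} {ι : Type}
  [Fintype ι] {μ : ι → ℝ} {N r p : ι → ℕ}

theorem ratio_ge (H : BlockLaw L β h b K κ μ N r p) (hb : b.Nonempty) (hK : 0 ≤ K) (i : ι) :
    Real.exp (-(K * ((r i : ℝ) / b.card))) ≤
      TwJ.aN (K / b.card) (N i) / TwJ.aN (K / b.card) b.card := by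
  have hn : (0 : ℝ) < b.card := by exact_mod_cast hb.card_pos
  have hk : 0 ≤ K / b.card := by positivity
  have hc := H.card i
  have h1 := TwJ.aN_le hk (N := N i) (n := b.card) (by omega)
  have e : b.card - N i = 2 * r i := by omega
  rw [e] at h1
  rw [le_div_iff₀ (TwJ.aN_pos hk _)]
  have e2 : K / b.card / 2 * ((2 * r i : ℕ) : ℝ) = K * ((r i : ℝ) / b.card) := by
    push_cast
    field_simp
  rw [e2] at h1
  have h2 := mul_le_mul_of_nonneg_left h1 (Real.exp_pos (-(K * ((r i : ℝ) / b.card)))).le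
  rw [← mul_assoc, ← Real.exp_add, neg_add_cancel, Real.exp_zero, one_mul] at h2
  exact h2

theorem ratio_le (H : BlockLaw L β h b K κ μ N r p) (hK : 0 ≤ K) (i : ι) :
    TwJ.aN (K / b.card) (N i) / TwJ.aN (K / b.card) b.card ≤ 1 := by
  have hk : 0 ≤ K / b.card := by positivity
  have hc := H.card i
  rw [div_le_one (TwJ.aN_pos hk _)]
  exact TwJ.aN_mono hk (by omega)

theorem mom' (H : BlockLaw L β h b K κ μ N r p) (hK : 0 < K) :
    ∑ i, μ i * (TwJ.aN (K / b.card) (N i) / TwJ.aN (K / b.card) b.card *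
        Real.exp (κ / (2 * K) * K * ((p i : ℝ) / N i))) ≤
      2 * ∑ i, μ i * (TwJ.aN (K / b.card) (N i) / TwJ.aN (K / b.card) b.card) := by
  have hk : 0 ≤ K / b.card := by positivity
  have ha := TwJ.aN_pos hk b.card
  have hm := div_le_div_of_nonneg_right H.mom ha.le
  have e1 : ∑ i, μ i * (TwJ.aN (K / b.card) (N i) / TwJ.aN (K / b.card) b.card *
        Real.exp (κ / (2 * K) * K * ((p i : ℝ) / N i))) =
      (∑ i, μ i * (TwJ.aN (K / b.card) (N i) * Real.exp (κ * ((p i : ℝ) / N i) / 2))) /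
        TwJ.aN (K / b.card) b.card := by
    rw [Finset.sum_div]
    refine Finset.sum_congr rfl fun i _ => ?_
    have e : κ / (2 * K) * K * ((p i : ℝ) / N i) = κ * ((p i : ℝ) / N i) / 2 := by
      field_simp
    rw [e]
    ring
  have e2 : 2 * ∑ i, μ i * (TwJ.aN (K / b.card) (N i) / TwJ.aN (K / b.card) b.card) =
      (2 * ∑ i, μ i * TwJ.aN (K / b.card) (N i)) / TwJ.aN (K / b.card) b.card := by
    rw [Finset.mul_sum, Finset.mul_sum, Finset.sum_div]
    exact Finset.sum_congr rfl fun i _ => by ring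
  rw [e1, e2]
  exact hm

/-- `ρ̄_b = E D + E[p/|b|] ≤ E D + E[p/N]`. -/
theorem rho_le (H : BlockLaw L β h b K κ μ N r p) (hb : b.Nonempty) :
    (∑ x ∈ b, rho L β h x) / b.card ≤
      ∑ i, μ i * ((r i : ℝ) / b.card) + ∑ i, μ i * ((p i : ℝ) / N i) := by
  have hn : (0 : ℝ) < b.card := by exact_mod_cast hb.card_pos
  rw [← H.mean, Finset.sum_div, ← Finset.sum_add_distrib]
  refine Finset.sum_le_sum fun i _ => ?_
  have h1 : (p i : ℝ) / b.card ≤ (p i : ℝ) / N i := by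
    rcases Nat.eq_zero_or_pos (N i) with h0 | h0
    · have : p i = 0 := by have := H.le i; omega
      rw [this]
      simp
    · have hN0 : (0 : ℝ) < N i := by exact_mod_cast h0
      have hle : (N i : ℝ) ≤ b.card := by
        have := H.card i
        exact_mod_cast (by omega : N i ≤ b.card)
      exact div_le_div_of_nonneg_left (Nat.cast_nonneg _) hN0 hle
  have h2 := mul_le_mul_of_nonneg_left h1 (H.nonneg i)
  calc μ i * ((r i : ℝ) + p i) / b.card = μ i * ((r i : ℝ) / b.card) + μ i * ((p i : ℝ) / b.card) := by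
        ring
    _ ≤ _ := by linarith

/-- The mean of `D` is at most `Db`. -/
theorem mean_D_le (H : BlockLaw L β h b K κ μ N r p) (hb : b.Nonempty) :
    ∑ i, μ i * ((r i : ℝ) / b.card) ≤ Db L β h b := by
  have hn : (0 : ℝ) < b.card := by exact_mod_cast hb.card_pos
  have e : Db L β h b = 2 / (b.card : ℝ) ^ 2 *
      ∑ i, μ i * ((r i : ℝ) * ((b.card : ℝ) - r i + 1)) := by
    rw [H.cas]
    unfold Db
    ring
  rw [e, Finset.mul_sum]
  refine Finset.sum_le_sum fun i _ => ?_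
  have hr : 2 * (r i : ℝ) ≤ b.card := by
    have := H.card i
    exact_mod_cast (by omega : 2 * r i ≤ b.card)
  have hr0 : (0 : ℝ) ≤ r i := Nat.cast_nonneg _
  have h1 : (r i : ℝ) / b.card ≤ 2 / (b.card : ℝ) ^ 2 * ((r i : ℝ) * ((b.card : ℝ) - r i + 1)) := by
    rw [div_mul_eq_mul_div, div_le_div_iff₀ hn (by positivity)]
    have : (b.card : ℝ) ≤ 2 * ((b.card : ℝ) - r i + 1) := by linarith
    have h3 : (r i : ℝ) * b.card * b.card ≤ (2 * ((b.card : ℝ) - r i + 1)) * r i * b.card := by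
      have := mul_le_mul_of_nonneg_right this (mul_nonneg hr0 hn.le)
      linarith
    nlinarith
  calc μ i * ((r i : ℝ) / b.card) ≤ μ i * (2 / (b.card : ℝ) ^ 2 *
        ((r i : ℝ) * ((b.card : ℝ) - r i + 1))) := mul_le_mul_of_nonneg_left h1 (H.nonneg i)
    _ = _ := by ring

/-- Closure. -/
theorem closure (H : BlockLaw L β h b K κ μ N r p) (hb : b.Nonempty) (hK : 0 < K) (hκ : 0 < κ) :
    (∑ x ∈ b, rho L β h x) / b.card ≤ (1 + 2 * K / κ) * Db L β h b + 2 / κ := by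
  have h1 := dir_closure Finset.univ μ (fun i => (r i : ℝ) / b.card) (fun i => (p i : ℝ) / N i)
    (fun i => TwJ.aN (K / b.card) (N i) / TwJ.aN (K / b.card) b.card) (K := K)
    (c := κ / (2 * K)) (fun i _ => H.nonneg i) H.sum_one hK
    (fun i _ => H.ratio_ge hb hK.le i) (fun i _ => H.ratio_le hK.le i) (H.mom' hK)
  have h2 := H.rho_le hb
  have h3 := H.mean_D_le hb
  set ED := ∑ i, μ i * ((r i : ℝ) / b.card) with hED
  set EX := ∑ i, μ i * ((p i : ℝ) / N i) with hEX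
  have h4 : EX ≤ 2 * K / κ * ED + 2 / κ := by
    have h5 : 0 < 2 * K / κ := by positivity
    have h6 := mul_le_mul_of_nonneg_left h1 h5.le
    have e1 : 2 * K / κ * (κ / (2 * K) * EX) = EX := by field_simp
    have e2 : 2 * K / κ * (ED + 1 / K) = 2 * K / κ * ED + 2 / κ := by field_simp
    rw [e1, e2] at h6
    exact h6
  have h7 : 2 * K / κ * ED ≤ 2 * K / κ * Db L β h b :=
    mul_le_mul_of_nonneg_left h3 (by positivity)
  linarith

end BlockLaw

/-- **Block (D), closure form.** -/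
theorem dir_gibbs (L : List (V × V)) {β : ℝ} (hβ : 0 < β) {h : V → ℝ} (hh : ∀ x, 0 ≤ h x)
    {b : Finset V} (hb : b.Nonempty) {K κ : ℝ} (hK : 0 < K) (hκ : 0 < κ)
    (hf : ∃ᶠ N : ℕ in atTop, κ ≤ kap L β N h K b) :
    (∑ x ∈ b, rho L β h x) / b.card ≤ (1 + 2 * K / κ) * Db L β h b + 2 / κ := by
  obtain ⟨ι, hι, μ, N, r, p, H⟩ := exists_blockLaw L hβ hh b hK.le hκ.le hf
  exact H.closure hb hK hκ

end

end Vale.Agent.P361.LRO.S3
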