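import Vale.Agent.P361.LRO.S3.DirGibbs
import Vale.Agent.P361.LRO.S3.Iface
import Vale.Agent.P361.LRO.Tw.J.Law3

/-!
P361, stage 3, block (D): `DirStmt3` and `DirSharpStmt3`.
-/

namespace Vale.Agent.P361.LRO.S3

open Finset Matrix Filter

noncomputable section

/-! ### The scalar function `aN` -/

theorem dd_zero' (k : ℝ) : TwJ.dd k 0 = Real.exp (k / 2) := by
  rw [TwJ.dd, Real.cos_zero, mul_one, Real.cosh_add_sinh]

theorem dd_pi' (k : ℝ) : TwJ.dd k Real.pi = Real.exp (-(k / 2)) := by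
  rw [TwJ.dd, Real.cos_pi, Real.cosh_eq, Real.sinh_eq]
  ring

theorem aN_closed (k : ℝ) (N : ℕ) : ((N : ℝ) + 1) * (2 * Real.sinh (k / 2)) * TwJ.aN k N =
    Real.exp (k / 2) ^ (N + 1) - Real.exp (-(k / 2)) ^ (N + 1) := by
  have h1 : ∀ θ ∈ Set.uIcc (0 : ℝ) Real.pi, HasDerivAt (fun θ => -(TwJ.dd k θ ^ (N + 1)))
      (((N : ℝ) + 1) * (2 * Real.sinh (k / 2)) * (1 / 2 * Real.sin θ ^ 1 * TwJ.dd k θ ^ N)) θ := by
    intro θ _
    have h2 := ((TwJ.hasDerivAt_dd k θ).pow (N + 1)).neg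
    refine h2.congr_deriv ?_
    push_cast
    ring
  have h3 := intervalIntegral.integral_eq_sub_of_hasDerivAt h1
    (((TwJ.cont_a k N).const_mul _).intervalIntegrable _ _)
  rw [intervalIntegral.integral_const_mul] at h3
  rw [TwJ.aN, h3, dd_zero', dd_pi']
  ring

theorem aN_up_mul {k : ℝ} (hk : 0 < k) (N r : ℕ) :
    ((N : ℝ) + 1) * TwJ.aN k N ≤
      Real.exp (-(k * r)) * ((((N + 2 * r : ℕ) : ℝ) + 1) * TwJ.aN k (N + 2 * r)) := by
  have hs : 0 < 2 * Real.sinh (k / 2) := by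
    have := Real.sinh_pos_iff.2 (show 0 < k / 2 by linarith)
    linarith
  refine le_of_mul_le_mul_left ?_ hs
  have h1 := aN_closed k N
  have h2 := aN_closed k (N + 2 * r)
  have e1 : 2 * Real.sinh (k / 2) * (((N : ℝ) + 1) * TwJ.aN k N) =
      Real.exp (k / 2) ^ (N + 1) - Real.exp (-(k / 2)) ^ (N + 1) := by
    rw [← h1]; ring
  have e2 : 2 * Real.sinh (k / 2) * (Real.exp (-(k * r)) *
      ((((N + 2 * r : ℕ) : ℝ) + 1) * TwJ.aN k (N + 2 * r))) =
      Real.exp (-(k * r)) * (Real.exp (k / 2) ^ (N + 2 * r + 1) -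
        Real.exp (-(k / 2)) ^ (N + 2 * r + 1)) := by
    rw [← h2]; ring
  rw [e1, e2, mul_sub]
  have e3 : Real.exp (-(k * r)) * Real.exp (k / 2) ^ (N + 2 * r + 1) =
      Real.exp (k / 2) ^ (N + 1) := by
    rw [← Real.exp_nat_mul, ← Real.exp_nat_mul, ← Real.exp_add]
    congr 1
    push_cast
    ring
  have e4 : Real.exp (-(k * r)) * Real.exp (-(k / 2)) ^ (N + 2 * r + 1) ≤
      Real.exp (-(k / 2)) ^ (N + 1) := by
    rw [← Real.exp_nat_mul, ← Real.exp_nat_mul, ← Real.exp_add]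
    refine Real.exp_le_exp.2 ?_
    push_cast
    have : 0 ≤ k * r := by positivity
    nlinarith
  rw [e3]
  linarith

theorem aN_up {k : ℝ} (hk : 0 < k) {N r n : ℕ} (h : N + 2 * r = n) (hr : 4 * r ≤ n + 3) :
    TwJ.aN k N ≤ 4 * Real.exp (-(k * r)) * TwJ.aN k n := by
  have h1 := aN_up_mul hk N r
  rw [h] at h1
  have ha := TwJ.aN_pos hk.le n
  have h2 : ((n : ℝ) + 1) ≤ 4 * ((N : ℝ) + 1) := by
    have : n + 1 ≤ 4 * (N + 1) := by omega
    exact_mod_cast this
  have hN : (0 : ℝ) < (N : ℝ) + 1 := by positivity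
  have h3 : Real.exp (-(k * r)) * (((n : ℝ) + 1) * TwJ.aN k n) ≤
      Real.exp (-(k * r)) * ((4 * ((N : ℝ) + 1)) * TwJ.aN k n) := by
    refine mul_le_mul_of_nonneg_left ?_ (Real.exp_pos _).le
    exact mul_le_mul_of_nonneg_right h2 ha.le
  have h4 := h1.trans h3
  refine le_of_mul_le_mul_left ?_ hN
  calc _ ≤ _ := h4
    _ = _ := by ring

/-- Upper bound for the ratio. -/
theorem ratio_up {k q : ℝ} (hk : 0 < k) (hq : q ≤ 1 / 4) {N r n : ℕ} (h : N + 2 * r = n)
    (hqr : q * n ≤ r) :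
    TwJ.aN k N / TwJ.aN k n ≤ 4 * Real.exp (-(k * n * q)) := by
  have ha := TwJ.aN_pos hk.le n
  rw [div_le_iff₀ ha]
  have key : ∀ (N' r' : ℕ), N' + 2 * r' = n → 4 * r' ≤ n + 3 → q * n ≤ r' → N ≤ N' →
      TwJ.aN k N ≤ 4 * Real.exp (-(k * n * q)) * TwJ.aN k n := by
    intro N' r' h1 h2 h3 h4
    have h5 := aN_up hk h1 h2
    have h6 := TwJ.aN_mono hk.le h4
    have h7 : Real.exp (-(k * r')) ≤ Real.exp (-(k * n * q)) := by
      refine Real.exp_le_exp.2 ?_
      have := mul_le_mul_of_nonneg_left h3 hk.le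
      linarith
    have h8 : 4 * Real.exp (-(k * r')) * TwJ.aN k n ≤ 4 * Real.exp (-(k * n * q)) * TwJ.aN k n :=
      mul_le_mul_of_nonneg_right (by linarith) ha.le
    exact h6.trans (h5.trans h8)
  by_cases hr : 4 * r ≤ n + 3
  · exact key N r h hr hqr le_rfl
  · push Not at hr
    have h1 : (n - 2 * ((n + 3) / 4)) + 2 * ((n + 3) / 4) = n := by omega
    have h2 : 4 * ((n + 3) / 4) ≤ n + 3 := by omega
    have h3 : n ≤ 4 * ((n + 3) / 4) := by omega
    have h4 : N ≤ n - 2 * ((n + 3) / 4) := by omega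
    refine key _ _ h1 h2 ?_ h4
    have h5 : (n : ℝ) ≤ 4 * (((n + 3) / 4 : ℕ) : ℝ) := by exact_mod_cast h3
    have hn : (0 : ℝ) ≤ n := Nat.cast_nonneg n
    have h6 : q * n ≤ 1 / 4 * n := mul_le_mul_of_nonneg_right hq hn
    linarith

/-! ### The Gibbs expectation is linear -/

variable {V : Type} [Fintype V] [DecidableEq V]

theorem gib_CM (L : List (V × V)) (β : ℝ) (h : V → ℝ) (b : Finset V) :
    gib L β h (CM b) = ∑ x ∈ b, ∑ y ∈ b, gib L β h (hM x y) := by
  unfold gib CM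
  rw [Finset.mul_sum, Matrix.trace_sum, Finset.sum_div]
  refine Finset.sum_congr rfl fun x _ => ?_
  rw [Finset.mul_sum, Matrix.trace_sum, Finset.sum_div]

theorem Db_eq_yb (L : List (V × V)) (β : ℝ) (h : V → ℝ) (b : Finset V) :
    Db L β h b = 2 * yb L β h b := by
  unfold Db yb
  rw [gib_CM]
  ring

/-- **Block (D), closure form.** -/
theorem dirStmt3 : DirStmt3 := by
  refine ⟨4, by norm_num, ?_⟩
  intro V _ _ L β h K κ b hβ hh hK hκ hb hf
  have hK0 : 0 < K := by linarith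
  have h1 := dir_gibbs L hβ hh hb hK0 hκ hf
  obtain ⟨ι, hι, μ, N, r, p, H⟩ := exists_blockLaw L hβ hh b hK0.le hκ.le hf
  have h2 := H.mean_D_le hb
  have h3 : 0 ≤ Db L β h b := by
    refine le_trans (Finset.sum_nonneg fun i _ => mul_nonneg (H.nonneg i) ?_) h2
    positivity
  rw [Db_eq_yb] at h1 h3
  have hy : 0 ≤ yb L β h b := by linarith
  have e : (1 + 2 * K / κ) * (2 * yb L β h b) + 2 / κ ≤
      4 * (1 + K / κ) * yb L β h b + 4 / κ := by
    have e1 : 2 * K / κ = 2 * (K / κ) := by ring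
    have e2 : 4 / κ = 2 / κ + 2 / κ := by ring
    have e3 : 0 < 2 / κ := by positivity
    rw [e1, e2]
    nlinarith
  linarith

/-- **Block (D), sharp form.** -/
theorem dirSharpStmt3 : DirSharpStmt3 := by
  refine ⟨8, by norm_num, ?_⟩
  intro V _ _ L β h b hβ hh hb
  obtain ⟨ι, hι, μ, N, r, p, h1, h2, hP, h5, h6⟩ :=
    TwJ.joint_law_poly (Tw.expH_psd L β h) (expH_cons' L β h) b
  have hT := Tw.trace_expH_pos L β h
  set T := Matrix.trace (NormedSpace.exp (-β • ham L h)) with hTdef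
  have hn : (0 : ℝ) < b.card := by exact_mod_cast hb.card_pos
  have hPP : ∀ P : Polynomial ℝ, ∑ i, μ i / T * P.eval ((r i : ℝ) * ((b.card : ℝ) - r i + 1)) =
      gib L β h (Polynomial.aeval (CM b) P) := by
    intro P
    have h := hP P 1
    simp only [Polynomial.eval_one, mul_one, map_one] at h
    unfold gib
    rw [← hTdef]
    have e : ∑ i, μ i / T * P.eval ((r i : ℝ) * ((b.card : ℝ) - r i + 1)) =
        (∑ i, μ i * P.eval ((r i : ℝ) * ((b.card : ℝ) - r i + 1))) / T := by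
      rw [Finset.sum_div]
      exact Finset.sum_congr rfl fun i _ => by ring
    rw [e, h]
    rfl
  have hsum : ∑ i, μ i / T = 1 := by
    have h := hPP 1
    simp only [Polynomial.eval_one, mul_one, map_one] at h
    rw [h]
    unfold gib
    rw [mul_one, div_self hT.ne']
  refine ⟨ι, hι, fun i => μ i / T, r, fun i => div_nonneg (h1 i) hT.le,
    fun i => by have := (h2 i).1; omega, hsum, hPP, ?_⟩
  intro K κ q hK hκ hq0 hq hf
  have hK0 : 0 < K := by linarith
  have hmean : (∑ i, μ i / T * ((r i : ℝ) + p i)) = ∑ x ∈ b, rho L β h x := by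
    have h := hP 1 Polynomial.X
    simp only [Polynomial.eval_one, one_mul, map_one, Polynomial.aeval_X, Polynomial.eval_X] at h
    have e : ∑ i, μ i / T * ((r i : ℝ) + p i) = (∑ i, μ i * ((r i : ℝ) + p i)) / T := by
      rw [Finset.sum_div]
      exact Finset.sum_congr rfl fun i _ => by ring
    rw [e, h, TwJ.Dn, Finset.mul_sum, Matrix.trace_sum, Finset.sum_div]
    rfl
  have hm := exp_mom_of (W := NormedSpace.exp (-β • ham L h)) hK0.le hκ.le h5 h6
    (Bloch.twist_gibbs_pow L hβ hh hK0.le hκ.le b hf)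
  have hcas : ∑ i, μ i / T * ((r i : ℝ) * ((b.card : ℝ) - r i + 1)) =
      ∑ x ∈ b, ∑ y ∈ b, gib L β h (hM x y) := by
    have h := hPP Polynomial.X
    simp only [Polynomial.eval_X, Polynomial.aeval_X] at h
    rw [h, gib_CM]
  have H : BlockLaw L β h b K κ (fun i => μ i / T) N r p := by
    refine ⟨fun i => div_nonneg (h1 i) hT.le, hsum, fun i => (h2 i).1, fun i => (h2 i).2, hmean,
      hcas, ?_⟩
    have e1 : ∑ i, μ i / T * (TwJ.aN (K / b.card) (N i) *
        Real.exp (κ * ((p i : ℝ) / N i) / 2)) =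
        (∑ i, μ i * (TwJ.aN (K / b.card) (N i) * Real.exp (κ * ((p i : ℝ) / N i) / 2))) / T := by
      rw [Finset.sum_div]
      exact Finset.sum_congr rfl fun i _ => by ring
    have e2 : 2 * ∑ i, μ i / T * TwJ.aN (K / b.card) (N i) =
        (2 * ∑ i, μ i * TwJ.aN (K / b.card) (N i)) / T := by
      rw [Finset.mul_sum, Finset.mul_sum, Finset.sum_div]
      exact Finset.sum_congr rfl fun i _ => by ring
    rw [e1, e2]
    exact div_le_div_of_nonneg_right hm hT.le
  have hk : 0 < K / b.card := by positivity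
  have hJ := jensen_dir Finset.univ (fun i => μ i / T) (fun i => (r i : ℝ) / b.card)
    (fun i => (p i : ℝ) / N i)
    (fun i => TwJ.aN (K / b.card) (N i) / TwJ.aN (K / b.card) b.card) (K := K)
    (c := κ / (2 * K)) (fun i _ => H.nonneg i) H.sum_one hK0
    (fun i _ => H.ratio_ge hb hK0.le i) (H.mom' hK0)
  have hrho := H.rho_le hb
  have hED : ∑ i, μ i / T * ((r i : ℝ) / b.card) = (∑ i, μ i / T * (r i : ℝ)) / b.card := by
    rw [Finset.sum_div]
    exact Finset.sum_congr rfl fun i _ => by ring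
  -- the mean of the ratio
  have hR : ∑ i, μ i / T * (TwJ.aN (K / b.card) (N i) / TwJ.aN (K / b.card) b.card) ≤
      4 * ((∑ i, if (r i : ℝ) < q * b.card then μ i / T else 0) + Real.exp (-(K * q))) := by
    have h7 : ∀ i, μ i / T * (TwJ.aN (K / b.card) (N i) / TwJ.aN (K / b.card) b.card) ≤
        (if (r i : ℝ) < q * b.card then μ i / T else 0) +
          μ i / T * (4 * Real.exp (-(K * q))) := by
      intro i
      have hwi := H.nonneg i
      have he := (Real.exp_pos (-(K * q))).le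
      split_ifs with hlt
      · have := mul_le_of_le_one_right hwi (H.ratio_le hK0.le i)
        have := mul_nonneg hwi (by linarith : (0 : ℝ) ≤ 4 * Real.exp (-(K * q)))
        linarith
      · have h8 := ratio_up hk hq (h2 i).1 (not_lt.1 hlt)
        have e3 : K / (b.card : ℝ) * b.card * q = K * q := by field_simp
        rw [e3] at h8
        have := mul_le_mul_of_nonneg_left h8 hwi
        linarith
    refine (Finset.sum_le_sum fun i _ => h7 i).trans ?_
    rw [Finset.sum_add_distrib, ← Finset.sum_mul, hsum]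
    have h9 : 0 ≤ ∑ i, (if (r i : ℝ) < q * b.card then μ i / T else 0) := by
      refine Finset.sum_nonneg fun i _ => ?_
      split_ifs
      · exact H.nonneg i
      · exact le_rfl
    linarith
  have hRpos : 0 < ∑ i, μ i / T * (TwJ.aN (K / b.card) (N i) / TwJ.aN (K / b.card) b.card) := by
    obtain ⟨i, hi, hwi⟩ : ∃ i ∈ (Finset.univ : Finset ι), μ i / T ≠ 0 := by
      by_contra hcon
      push Not at hcon
      rw [Finset.sum_eq_zero hcon] at hsum
      exact zero_ne_one hsum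
    have hpos : ∀ j, 0 < TwJ.aN (K / b.card) (N j) / TwJ.aN (K / b.card) b.card := fun j =>
      div_pos (TwJ.aN_pos hk.le _) (TwJ.aN_pos hk.le _)
    exact Finset.sum_pos' (fun j _ => mul_nonneg (H.nonneg j) (hpos j).le)
      ⟨i, hi, mul_pos (lt_of_le_of_ne (H.nonneg i) hwi.symm) (hpos i)⟩
  have hlog : Real.log (2 * ∑ i, μ i / T *
      (TwJ.aN (K / b.card) (N i) / TwJ.aN (K / b.card) b.card)) ≤
      Real.log (8 * ((∑ i, if (r i : ℝ) < q * b.card then μ i / T else 0) +
        Real.exp (-(K * q)))) :=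
    Real.log_le_log (by linarith) (by linarith)
  set ED := (∑ i, μ i / T * (r i : ℝ)) / b.card with hEDdef
  set EX := ∑ i, μ i / T * ((p i : ℝ) / N i) with hEX
  set LG := Real.log (8 * ((∑ i, if (r i : ℝ) < q * b.card then μ i / T else 0) +
        Real.exp (-(K * q)))) with hLG
  rw [hED] at hJ hrho
  have hX0 : 0 ≤ EX := Finset.sum_nonneg fun i _ => mul_nonneg (H.nonneg i) (by positivity)
  have h10 : κ / (2 * K) * EX ≤ ED + 1 / K * LG := by
    have := mul_le_mul_of_nonneg_left hlog (show 0 ≤ 1 / K by positivity)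
    linarith
  have h11 : 0 ≤ ED + 1 / K * LG := le_trans (by positivity) h10
  have h12 : EX ≤ 2 * (K / κ) * (ED + 1 / K * LG) := by
    have h13 : 0 < 2 * (K / κ) := by positivity
    have h14 := mul_le_mul_of_nonneg_left h10 h13.le
    have e1 : 2 * (K / κ) * (κ / (2 * K) * EX) = EX := by field_simp
    rw [e1] at h14
    exact h14
  have h15 : 2 * (K / κ) * (ED + 1 / K * LG) ≤ 8 * (K / κ) * (ED + 1 / K * LG) := by
    have : 0 ≤ K / κ := by positivity
    nlinarith
  linarith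

end

end Vale.Agent.P361.LRO.S3
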