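import Vale.Agent.P361.LRO.S3.DirStmt

/-!
P361, stage 3, block (D) for a general positive semidefinite, conserving matrix `W`
(all spins: `W = P exp(-β H)`).
-/

namespace Vale.Agent.P361.LRO.S3

open Finset Matrix Filter

noncomputable section

variable {V : Type} [Fintype V] [DecidableEq V]

/-- Expectation in the state `W`. -/
def gW (W A : Matrix (V → Fin 2) (V → Fin 2) ℝ) : ℝ := Matrix.trace (W * A) / Matrix.trace W

/-- Density of down spins in the state `W`. -/
def rhoW (W : Matrix (V → Fin 2) (V → Fin 2) ℝ) (x : V) : ℝ := gW W ((1 / 2 : ℝ) • (1 - szM x))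

/-- The moment inequality of the twist. -/
def TwistW (W : Matrix (V → Fin 2) (V → Fin 2) ℝ) (b : Finset V) (K κ : ℝ) : Prop :=
  ∀ m : ℕ, κ ^ m * (∫ φ in (0 : ℝ)..Real.pi, Real.sin φ * (1 - Real.cos φ) ^ m *
        Matrix.trace (W * rotT b (Real.tanh (K / (2 * b.card))) φ)) ≤
      (m.factorial : ℝ) * ∫ φ in (0 : ℝ)..Real.pi, Real.sin φ *
        Matrix.trace (W * rotT b (Real.tanh (K / (2 * b.card))) φ)

theorem gW_gib (L : List (V × V)) (β : ℝ) (h : V → ℝ) (A : Matrix (V → Fin 2) (V → Fin 2) ℝ) :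
    gW (NormedSpace.exp (-β • ham L h)) A = gib L β h A := rfl

theorem twistW_gibbs (L : List (V × V)) {β : ℝ} (hβ : 0 < β) {h : V → ℝ} (hh : ∀ x, 0 ≤ h x)
    {K κ : ℝ} (hK : 0 ≤ K) (hκ0 : 0 ≤ κ) (b : Finset V)
    (hκ : ∃ᶠ N : ℕ in atTop, κ ≤ kap L β N h K b) :
    TwistW (NormedSpace.exp (-β • ham L h)) b K κ :=
  Bloch.twist_gibbs_pow L hβ hh hK hκ0 b hκ

/-- **Block (D), sharp form, general `W`.** -/
theorem dir_sharp_W {W : Matrix (V → Fin 2) (V → Fin 2) ℝ} (hW : W.PosSemidef)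
    (hsym : ∀ σ τ, W σ τ ≠ 0 → ∑ x, ((σ x : ℕ) : ℤ) = ∑ x, ((τ x : ℕ) : ℤ))
    (hT : 0 < Matrix.trace W) {b : Finset V} (hb : b.Nonempty) :
    ∃ (ι : Type) (_ : Fintype ι) (μ : ι → ℝ) (r : ι → ℕ), (∀ i, 0 ≤ μ i) ∧
      (∀ i, 2 * r i ≤ b.card) ∧ ∑ i, μ i = 1 ∧
      (∀ P : Polynomial ℝ, ∑ i, μ i * P.eval ((r i : ℝ) * ((b.card : ℝ) - r i + 1)) =
        gW W (Polynomial.aeval (CM b) P)) ∧
      ∀ K κ q : ℝ, 1 ≤ K → 0 < κ → 0 ≤ q → q ≤ 1 / 4 → TwistW W b K κ →
        (∑ x ∈ b, rhoW W x) / b.card ≤ (∑ i, μ i * (r i : ℝ)) / b.card +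
          8 * (K / κ) * ((∑ i, μ i * (r i : ℝ)) / b.card +
            (1 / K) * Real.log (8 * ((∑ i, if (r i : ℝ) < q * b.card then μ i else 0) +
              Real.exp (-(K * q))))) := by
  obtain ⟨ι, hι, μ, N, r, p, h1, h2, hP, h5, h6⟩ := TwJ.joint_law_poly hW hsym b
  set T := Matrix.trace W with hTdef
  have hn : (0 : ℝ) < b.card := by exact_mod_cast hb.card_pos
  have hPP : ∀ P : Polynomial ℝ, ∑ i, μ i / T * P.eval ((r i : ℝ) * ((b.card : ℝ) - r i + 1)) =
      gW W (Polynomial.aeval (CM b) P) := by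
    intro P
    have h := hP P 1
    simp only [Polynomial.eval_one, mul_one, map_one] at h
    unfold gW
    rw [← hTdef]
    have e : ∑ i, μ i / T * P.eval ((r i : ℝ) * ((b.card : ℝ) - r i + 1)) =
        (∑ i, μ i * P.eval ((r i : ℝ) * ((b.card : ℝ) - r i + 1))) / T := by
      rw [Finset.sum_div]
      exact Finset.sum_congr rfl fun i _ => by ring
    rw [e, h]
    rfl
  have hsum : ∑ i, μ i / T = 1 := by
    have h := hPP 1
    simp only [Polynomial.eval_one, mul_one, map_one] at h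
    rw [h]
    unfold gW
    rw [mul_one, div_self hT.ne']
  have hμ : ∀ i, 0 ≤ μ i / T := fun i => div_nonneg (h1 i) hT.le
  refine ⟨ι, hι, fun i => μ i / T, r, hμ,
    fun i => by have := (h2 i).1; omega, hsum, hPP, ?_⟩
  intro K κ q hK hκ hq0 hq htw
  have hK0 : 0 < K := by linarith
  have hk : 0 < K / b.card := by positivity
  have ha := TwJ.aN_pos hk.le b.card
  have hmean : (∑ i, μ i / T * ((r i : ℝ) + p i)) = ∑ x ∈ b, rhoW W x := by
    have h := hP 1 Polynomial.X
    simp only [Polynomial.eval_one, one_mul, map_one, Polynomial.aeval_X, Polynomial.eval_X] at h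
    have e : ∑ i, μ i / T * ((r i : ℝ) + p i) = (∑ i, μ i * ((r i : ℝ) + p i)) / T := by
      rw [Finset.sum_div]
      exact Finset.sum_congr rfl fun i _ => by ring
    rw [e, h, TwJ.Dn, Finset.mul_sum, Matrix.trace_sum, Finset.sum_div]
    rfl
  have hm0 := exp_mom_of (W := W) hK0.le hκ.le h5 h6 htw
  have hm : ∑ i, μ i / T * (TwJ.aN (K / b.card) (N i) / TwJ.aN (K / b.card) b.card *
        Real.exp (κ / (2 * K) * K * ((p i : ℝ) / N i))) ≤
      2 * ∑ i, μ i / T * (TwJ.aN (K / b.card) (N i) / TwJ.aN (K / b.card) b.card) := by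
    have hm1 := div_le_div_of_nonneg_right hm0 (mul_pos hT ha).le
    have e1 : ∑ i, μ i / T * (TwJ.aN (K / b.card) (N i) / TwJ.aN (K / b.card) b.card *
        Real.exp (κ / (2 * K) * K * ((p i : ℝ) / N i))) =
        (∑ i, μ i * (TwJ.aN (K / b.card) (N i) * Real.exp (κ * ((p i : ℝ) / N i) / 2))) /
          (T * TwJ.aN (K / b.card) b.card) := by
      rw [Finset.sum_div]
      refine Finset.sum_congr rfl fun i _ => ?_
      have e : κ / (2 * K) * K * ((p i : ℝ) / N i) = κ * ((p i : ℝ) / N i) / 2 := by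
        field_simp
      rw [e]
      field_simp
    have e2 : 2 * ∑ i, μ i / T * (TwJ.aN (K / b.card) (N i) / TwJ.aN (K / b.card) b.card) =
        (2 * ∑ i, μ i * TwJ.aN (K / b.card) (N i)) / (T * TwJ.aN (K / b.card) b.card) := by
      rw [Finset.mul_sum, Finset.mul_sum, Finset.sum_div]
      refine Finset.sum_congr rfl fun i _ => ?_
      field_simp
    rw [e1, e2]
    exact hm1
  have hge : ∀ i, Real.exp (-(K * ((r i : ℝ) / b.card))) ≤
      TwJ.aN (K / b.card) (N i) / TwJ.aN (K / b.card) b.card := by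
    intro i
    have hc := (h2 i).1
    have h1 := TwJ.aN_le hk.le (N := N i) (n := b.card) (by omega)
    have e : b.card - N i = 2 * r i := by omega
    rw [e] at h1
    rw [le_div_iff₀ ha]
    have e2 : K / b.card / 2 * ((2 * r i : ℕ) : ℝ) = K * ((r i : ℝ) / b.card) := by
      push_cast
      field_simp
    rw [e2] at h1
    have h2 := mul_le_mul_of_nonneg_left h1 (Real.exp_pos (-(K * ((r i : ℝ) / b.card)))).le
    rw [← mul_assoc, ← Real.exp_add, neg_add_cancel, Real.exp_zero, one_mul] at h2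
    exact h2
  have hle : ∀ i, TwJ.aN (K / b.card) (N i) / TwJ.aN (K / b.card) b.card ≤ 1 := by
    intro i
    have hc := (h2 i).1
    rw [div_le_one ha]
    exact TwJ.aN_mono hk.le (by omega)
  have hJ := jensen_dir Finset.univ (fun i => μ i / T) (fun i => (r i : ℝ) / b.card)
    (fun i => (p i : ℝ) / N i)
    (fun i => TwJ.aN (K / b.card) (N i) / TwJ.aN (K / b.card) b.card) (K := K)
    (c := κ / (2 * K)) (fun i _ => hμ i) hsum hK0 (fun i _ => hge i) hm
  have hrho : (∑ x ∈ b, rhoW W x) / b.card ≤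
      ∑ i, μ i / T * ((r i : ℝ) / b.card) + ∑ i, μ i / T * ((p i : ℝ) / N i) := by
    rw [← hmean, Finset.sum_div, ← Finset.sum_add_distrib]
    refine Finset.sum_le_sum fun i _ => ?_
    have h1 : (p i : ℝ) / b.card ≤ (p i : ℝ) / N i := by
      rcases Nat.eq_zero_or_pos (N i) with h0 | h0
      · have : p i = 0 := by have := (h2 i).2; omega
        rw [this]
        simp
      · have hN0 : (0 : ℝ) < N i := by exact_mod_cast h0
        have hle : (N i : ℝ) ≤ b.card := by
          have := (h2 i).1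
          exact_mod_cast (by omega : N i ≤ b.card)
        exact div_le_div_of_nonneg_left (Nat.cast_nonneg _) hN0 hle
    have h2 := mul_le_mul_of_nonneg_left h1 (hμ i)
    calc μ i / T * ((r i : ℝ) + p i) / b.card =
        μ i / T * ((r i : ℝ) / b.card) + μ i / T * ((p i : ℝ) / b.card) := by ring
      _ ≤ _ := by linarith
  have hED : ∑ i, μ i / T * ((r i : ℝ) / b.card) = (∑ i, μ i / T * (r i : ℝ)) / b.card := by
    rw [Finset.sum_div]
    exact Finset.sum_congr rfl fun i _ => by ring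
  have hR : ∑ i, μ i / T * (TwJ.aN (K / b.card) (N i) / TwJ.aN (K / b.card) b.card) ≤
      4 * ((∑ i, if (r i : ℝ) < q * b.card then μ i / T else 0) + Real.exp (-(K * q))) := by
    have h7 : ∀ i, μ i / T * (TwJ.aN (K / b.card) (N i) / TwJ.aN (K / b.card) b.card) ≤
        (if (r i : ℝ) < q * b.card then μ i / T else 0) +
          μ i / T * (4 * Real.exp (-(K * q))) := by
      intro i
      have hwi := hμ i
      have he := (Real.exp_pos (-(K * q))).le
      split_ifs with hlt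
      · have := mul_le_of_le_one_right hwi (hle i)
        have := mul_nonneg hwi (by linarith : (0 : ℝ) ≤ 4 * Real.exp (-(K * q)))
        linarith
      · have h8 := ratio_up hk hq (h2 i).1 (not_lt.1 hlt)
        have e3 : K / (b.card : ℝ) * b.card * q = K * q := by field_simp
        rw [e3] at h8
        have := mul_le_mul_of_nonneg_left h8 hwi
        linarith
    refine (Finset.sum_le_sum fun i _ => h7 i).trans ?_
    rw [Finset.sum_add_distrib, ← Finset.sum_mul, hsum]
    have h9 : 0 ≤ ∑ i, (if (r i : ℝ) < q * b.card then μ i / T else 0) := by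
      refine Finset.sum_nonneg fun i _ => ?_
      split_ifs
      · exact hμ i
      · exact le_rfl
    linarith
  have hRpos : 0 < ∑ i, μ i / T * (TwJ.aN (K / b.card) (N i) / TwJ.aN (K / b.card) b.card) := by
    obtain ⟨i, hi, hwi⟩ : ∃ i ∈ (Finset.univ : Finset ι), μ i / T ≠ 0 := by
      by_contra hcon
      push Not at hcon
      rw [Finset.sum_eq_zero hcon] at hsum
      exact zero_ne_one hsum
    have hpos : ∀ j, 0 < TwJ.aN (K / b.card) (N j) / TwJ.aN (K / b.card) b.card := fun j =>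
      div_pos (TwJ.aN_pos hk.le _) (TwJ.aN_pos hk.le _)
    exact Finset.sum_pos' (fun j _ => mul_nonneg (hμ j) (hpos j).le)
      ⟨i, hi, mul_pos (lt_of_le_of_ne (hμ i) hwi.symm) (hpos i)⟩
  have hlog : Real.log (2 * ∑ i, μ i / T *
      (TwJ.aN (K / b.card) (N i) / TwJ.aN (K / b.card) b.card)) ≤
      Real.log (8 * ((∑ i, if (r i : ℝ) < q * b.card then μ i / T else 0) +
        Real.exp (-(K * q)))) :=
    Real.log_le_log (by linarith) (by linarith)
  set ED := (∑ i, μ i / T * (r i : ℝ)) / b.card with hEDdef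
  set EX := ∑ i, μ i / T * ((p i : ℝ) / N i) with hEX
  set LG := Real.log (8 * ((∑ i, if (r i : ℝ) < q * b.card then μ i / T else 0) +
        Real.exp (-(K * q)))) with hLG
  rw [hED] at hJ hrho
  have hX0 : 0 ≤ EX := Finset.sum_nonneg fun i _ => mul_nonneg (hμ i) (by positivity)
  have h10 : κ / (2 * K) * EX ≤ ED + 1 / K * LG := by
    have := mul_le_mul_of_nonneg_left hlog (show 0 ≤ 1 / K by positivity)
    linarith
  have h11 : 0 ≤ ED + 1 / K * LG := le_trans (by positivity) h10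
  have h12 : EX ≤ 2 * (K / κ) * (ED + 1 / K * LG) := by
    have h13 : 0 < 2 * (K / κ) := by positivity
    have h14 := mul_le_mul_of_nonneg_left h10 h13.le
    have e1 : 2 * (K / κ) * (κ / (2 * K) * EX) = EX := by field_simp
    rw [e1] at h14
    exact h14
  have h15 : 2 * (K / κ) * (ED + 1 / K * LG) ≤ 8 * (K / κ) * (ED + 1 / K * LG) := by
    have : 0 ≤ K / κ := by positivity
    nlinarith
  linarith

/-- **Block (D), closure form, general `W`**: `y = <C_b> / |b|^2`. -/
theorem dir_closure_W {W : Matrix (V → Fin 2) (V → Fin 2) ℝ} (hW : W.PosSemidef)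
    (hsym : ∀ σ τ, W σ τ ≠ 0 → ∑ x, ((σ x : ℕ) : ℤ) = ∑ x, ((τ x : ℕ) : ℤ))
    (hT : 0 < Matrix.trace W) {b : Finset V} (hb : b.Nonempty) {K κ : ℝ} (hK : 1 ≤ K)
    (hκ : 0 < κ) (htw : TwistW W b K κ) :
    (∑ x ∈ b, rhoW W x) / b.card ≤
      18 * (1 + K / κ) * (gW W (CM b) / (b.card : ℝ) ^ 2) + 24 / κ := by
  obtain ⟨ι, hι, μ, r, h0, h1, h2, h3, h4⟩ := dir_sharp_W hW hsym hT hb
  have hn : (0 : ℝ) < b.card := by exact_mod_cast hb.card_pos
  have hK0 : 0 < K := by linarith
  have h5 := h4 K κ 0 hK hκ le_rfl (by norm_num) htw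
  have hX := h3 Polynomial.X
  simp only [Polynomial.eval_X, Polynomial.aeval_X] at hX
  have hzero : (∑ i, if (r i : ℝ) < 0 * (b.card : ℝ) then μ i else 0) = 0 := by
    refine Finset.sum_eq_zero fun i _ => ?_
    rw [if_neg]
    rw [zero_mul]
    exact not_lt.2 (Nat.cast_nonneg _)
  rw [hzero, mul_zero, neg_zero, Real.exp_zero, zero_add, mul_one] at h5
  have hlog : Real.log 8 ≤ 3 := by
    have h6 : Real.log 8 = 3 * Real.log 2 := by
      rw [show (8 : ℝ) = 2 ^ 3 by norm_num, Real.log_pow]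
      norm_num
    have := Real.log_two_lt_d9
    linarith
  have hD : (∑ i, μ i * (r i : ℝ)) / b.card ≤ 2 * (gW W (CM b) / (b.card : ℝ) ^ 2) := by
    rw [← hX, div_le_iff₀ hn]
    have e : 2 * ((∑ i, μ i * ((r i : ℝ) * ((b.card : ℝ) - r i + 1))) / (b.card : ℝ) ^ 2) *
        b.card = ∑ i, μ i * (2 * ((r i : ℝ) * ((b.card : ℝ) - r i + 1)) / b.card) := by
      rw [Finset.sum_div, Finset.mul_sum, Finset.sum_mul]
      refine Finset.sum_congr rfl fun i _ => ?_
      field_simp
    rw [e]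
    refine Finset.sum_le_sum fun i _ => mul_le_mul_of_nonneg_left ?_ (h0 i)
    rw [le_div_iff₀ hn]
    have hr : 2 * (r i : ℝ) ≤ b.card := by exact_mod_cast h1 i
    have hr0 : (0 : ℝ) ≤ r i := Nat.cast_nonneg _
    nlinarith
  have hD0 : 0 ≤ (∑ i, μ i * (r i : ℝ)) / b.card :=
    div_nonneg (Finset.sum_nonneg fun i _ => mul_nonneg (h0 i) (Nat.cast_nonneg _)) hn.le
  set m := (∑ i, μ i * (r i : ℝ)) / b.card with hm
  set y := gW W (CM b) / (b.card : ℝ) ^ 2 with hy
  have hKκ : 0 < K / κ := by positivity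
  have h7 : 8 * (K / κ) * (m + 1 / K * Real.log 8) ≤ 8 * (K / κ) * m + 24 / κ := by
    have e : 8 * (K / κ) * (m + 1 / K * Real.log 8) = 8 * (K / κ) * m + 8 / κ * Real.log 8 := by
      field_simp
    have e2 : 24 / κ = 8 / κ * 3 := by ring
    rw [e, e2]
    have : 8 / κ * Real.log 8 ≤ 8 / κ * 3 := mul_le_mul_of_nonneg_left hlog (by positivity)
    linarith
  have h8 : m + 8 * (K / κ) * m ≤ 18 * (1 + K / κ) * y := by
    have hy0 : 0 ≤ y := by linarith
    have : 8 * (K / κ) * m ≤ 8 * (K / κ) * (2 * y) := mul_le_mul_of_nonneg_left hD (by positivity)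
    nlinarith [mul_nonneg hKκ.le hy0]
  linarith

end

end Vale.Agent.P361.LRO.S3
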