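import Vale.Agent.P361.LRO.Bloch.EnergyTorus
import Vale.Agent.P361.LRO.Energy.Final
import Vale.Agent.P361.LRO.S3.Iface
import Vale.Agent.P361.LRO.Bloch.ZeroField

/-! # P361 LRO, stage 3, block (E): crude energy without logarithm (helper348, helper213) -/

namespace Vale.Agent.P361.LRO.S3.En3

open Matrix Finset

noncomputable section

variable {n : ℕ} [NeZero n]

theorem sum_edges_ins (β : ℝ) (h : Tor n → ℝ) (Q : Finset (Tor n)) :
    ∑ e ∈ (edges n).toFinset with (e.1 ∈ Q ∧ e.2 ∈ Q), gib (edges n) β h (hM e.1 e.2) ≤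
      ∑ z ∈ Energy.ET.ins Q, Energy.eb n β h z := by
  classical
  have h1 : ((edges n).toFinset.filter fun e => e.1 ∈ Q ∧ e.2 ∈ Q) ⊆
      (Energy.ET.ins Q).image fun z => (z.1, Energy.nxt z) := by
    intro e he
    rw [Finset.mem_filter, List.mem_toFinset, edges, List.mem_map] at he
    obtain ⟨⟨z, -, hz⟩, h2⟩ := he
    rw [Finset.mem_image]
    refine ⟨z, ?_, hz⟩
    rw [Energy.ET.ins, Finset.mem_filter]
    refine ⟨Finset.mem_univ _, ?_⟩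
    rw [← hz] at h2
    exact h2
  refine (Finset.sum_le_sum_of_subset_of_nonneg h1 fun e _ _ =>
    Energy.gib_hM_nonneg _ _ _ _ _).trans ?_
  exact Finset.sum_image_le_of_nonneg fun z _ => Energy.gib_hM_nonneg _ _ _ _ _

theorem gib_CM {V : Type} [Fintype V] [DecidableEq V] (L : List (V × V)) (β : ℝ) (h : V → ℝ)
    (b : Finset V) : gib L β h (CM b) = ∑ x ∈ b, ∑ y ∈ b, gib L β h (hM x y) := by
  rw [CM, EnR.gib_sum]
  exact Finset.sum_congr rfl fun x _ => EnR.gib_sum _ _ _ _ _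

/-- the average of `y_b` over the blocks, for any free energy bound `Z` -/
theorem sum_yb_le {β : ℝ} (hβ : 0 < β) {h : Tor n → ℝ} (hh : ∀ x, 0 ≤ h x) (x : Tor n) (w m : ℕ)
    (hw : 0 < w) (hm : 0 < m) (hwm : w * m ≤ n) (hn : 3 ≤ n) {Z : ℝ}
    (hZ : Real.log (B.Zt 1 (B.cube (w * m)) (β / 2) 0) ≤ Z) :
    (∑ y : Fin 3 → Fin m, yb (edges n) β h
      (cube n (x + fun i => ((w * (y i : ℕ) : ℕ) : ZMod n)) w)) ≤
      12 / (w : ℝ) * (2 / β * (Z + 6 * β * ((w : ℝ) * m) ^ 2)) := by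
  have hw' : (0 : ℝ) < w := by exact_mod_cast hw
  have hwn : w ≤ n := le_trans (Nat.le_mul_of_pos_right w hm) hwm
  have h1 := EnR.tileStmt n β h x w m hw hm hwm hn
  have h2 := sum_edges_ins β h (cube n x (w * m))
  have h3 := Energy.ET.energy_ins hβ.le hh x (l := w * m) (Nat.mul_pos hw hm) hwm
  have h4 : ∑ z ∈ Energy.ET.ins (cube n x (w * m)), Energy.eb n β h z ≤
      2 / β * (Z + 6 * β * ((w : ℝ) * m) ^ 2) := by
    rw [div_mul_eq_mul_div, le_div_iff₀ hβ, mul_comm]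
    push_cast at h3
    linarith
  have h5 : ∀ y : Fin 3 → Fin m, yb (edges n) β h
      (cube n (x + fun i => ((w * (y i : ℕ) : ℕ) : ZMod n)) w) =
      1 / (w : ℝ) ^ 6 * ∑ x' ∈ cube n (x + fun i => ((w * (y i : ℕ) : ℕ) : ZMod n)) w,
        ∑ x'' ∈ cube n (x + fun i => ((w * (y i : ℕ) : ℕ) : ZMod n)) w,
          gib (edges n) β h (hM x' x'') := by
    intro y
    rw [yb, gib_CM, EnR.card_cube _ hwn]
    push_cast
    field_simp
  simp only [h5]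
  rw [← Finset.mul_sum]
  have h6 := h1.trans (mul_le_mul_of_nonneg_left (h2.trans h4)
    (by positivity : (0 : ℝ) ≤ 12 * (w : ℝ) ^ 5))
  refine (mul_le_mul_of_nonneg_left h6 (by positivity : (0 : ℝ) ≤ 1 / (w : ℝ) ^ 6)).trans
    (le_of_eq ?_)
  field_simp

theorem energyStmt3_of {C b0 : ℝ} (hC : 0 ≤ C) (hZ : ∀ b : ℝ, b0 ≤ b → ∀ l : ℕ, 1 ≤ l →
    Real.log (B.Zt 1 (B.cube l) (2 * b) 0) ≤ C * (l : ℝ) ^ 3 * b ^ (-(3 / 2) : ℝ) + C * b * (l : ℝ) ^ 2) :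
    EnergyStmt3 := by
  refine ⟨24 * 72 * C + 216 * (C / 4 + 6), max (4 * b0) 1, fun β hβ0 => ?_⟩
  have hb0 : 4 * b0 ≤ β := (le_max_left _ _).trans hβ0
  have hβ1 : 1 ≤ β := (le_max_right _ _).trans hβ0
  have hβ : 0 < β := by linarith
  refine ⟨max 3 ⌈2 * β ^ (3 : ℝ)⌉₊, fun n _ hn g hg x w m hw hw3 hwm1 hwm2 => ?_⟩
  have hn3 : 3 ≤ n := (le_max_left _ _).trans hn
  have hn2 : w * m ≤ n := by
    have h1 : 2 * β ^ (3 : ℝ) ≤ (n : ℝ) := Nat.ceil_le.1 ((le_max_right _ _).trans hn)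
    have h2 : ((w * m : ℕ) : ℝ) ≤ (n : ℝ) := by
      push_cast
      linarith
    exact_mod_cast h2
  have hw' : (0 : ℝ) < w := by exact_mod_cast hw
  have hp3 : (0 : ℝ) < β ^ (3 : ℝ) := Real.rpow_pos_of_pos hβ _
  have hm' : (0 : ℝ) < m := by
    rcases Nat.eq_zero_or_pos m with h | h
    · subst h
      rw [Nat.cast_zero, mul_zero] at hwm1
      linarith
    · exact_mod_cast h
  have hm : 0 < m := by exact_mod_cast hm'
  set P : ℝ := β ^ (-(3 / 2) : ℝ) with hP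
  have hPpos : 0 < P := Real.rpow_pos_of_pos hβ _
  have hb : (β / 4) ^ (-(3 / 2) : ℝ) = 8 * P := by
    rw [Real.div_rpow hβ.le (by norm_num), hP]
    have h4 : (4 : ℝ) ^ (-(3 / 2) : ℝ) = 1 / 8 := by
      rw [show (4 : ℝ) = 2 ^ (2 : ℝ) by norm_num, ← Real.rpow_mul (by norm_num)]
      rw [show (2 : ℝ) * (-(3 / 2)) = -(3 : ℝ) by norm_num, Real.rpow_neg (by norm_num)]
      norm_num
    rw [h4]
    ring
  have hZ' := hZ (β / 4) (by linarith) (w * m) (Nat.mul_pos hw hm)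
  rw [show 2 * (β / 4) = β / 2 by ring, hb] at hZ'
  have h1 := sum_yb_le (n := n) hβ (h := fun z => g z / β) (fun z => div_nonneg (hg z).1.le hβ.le)
    x w m hw hm hn2 hn3 hZ'
  rw [div_le_iff₀ (by positivity)]
  refine h1.trans ?_
  push_cast
  have e1 : 12 / (w : ℝ) * (2 / β * (C * ((w : ℝ) * m) ^ 3 * (8 * P) + C * (β / 4) * ((w : ℝ) * m) ^ 2 +
      6 * β * ((w : ℝ) * m) ^ 2)) =
      (24 * (8 * C * P * ((w : ℝ) ^ 2 / β)) + 24 * ((C / 4 + 6) * ((w : ℝ) ^ 2 / (w * m)))) * (m : ℝ) ^ 3 := by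
    field_simp
    ring
  rw [e1]
  refine mul_le_mul_of_nonneg_right ?_ (by positivity)
  have hw2 : (w : ℝ) ^ 2 ≤ 9 * β := by
    calc (w : ℝ) ^ 2 ≤ (3 * Real.sqrt β) ^ 2 := by gcongr
      _ = 9 * β := by rw [mul_pow, Real.sq_sqrt hβ.le]; norm_num
  have h2 : (w : ℝ) ^ 2 / β ≤ 9 := by
    rw [div_le_iff₀ hβ]; exact hw2
  have h3 : (w : ℝ) ^ 2 / (w * m) ≤ 9 * P := by
    rw [div_le_iff₀ (by positivity)]
    have h4 : 9 * β ≤ 9 * P * β ^ (3 : ℝ) := by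
      have h5 : P * β ^ (3 : ℝ) = β ^ (3 / 2 : ℝ) := by
        rw [hP, ← Real.rpow_add hβ]
        norm_num
      have h6 : β ≤ β ^ (3 / 2 : ℝ) := by
        calc β = β ^ (1 : ℝ) := (Real.rpow_one β).symm
          _ ≤ β ^ (3 / 2 : ℝ) := Real.rpow_le_rpow_of_exponent_le hβ1 (by norm_num)
      calc 9 * β ≤ 9 * β ^ (3 / 2 : ℝ) := by linarith
        _ = 9 * P * β ^ (3 : ℝ) := by rw [mul_assoc, h5]
    exact hw2.trans (h4.trans (mul_le_mul_of_nonneg_left hwm1 (by positivity)))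
  have h7 : 8 * C * P * ((w : ℝ) ^ 2 / β) ≤ 8 * C * P * 9 :=
    mul_le_mul_of_nonneg_left h2 (by positivity)
  have h8 : (C / 4 + 6) * ((w : ℝ) ^ 2 / (w * m)) ≤ (C / 4 + 6) * (9 * P) :=
    mul_le_mul_of_nonneg_left h3 (by positivity)
  calc 24 * (8 * C * P * ((w : ℝ) ^ 2 / β)) + 24 * ((C / 4 + 6) * ((w : ℝ) ^ 2 / (w * m))) ≤
      24 * (8 * C * P * 9) + 24 * ((C / 4 + 6) * (9 * P)) := by linarith
    _ = _ := by ring

end

end Vale.Agent.P361.LRO.S3.En3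

/-- **Block (E)** of stage 3. -/
theorem Vale.Agent.P361.LRO.S3.energyStmt3 : Vale.Agent.P361.LRO.S3.EnergyStmt3 := by
  obtain ⟨C, b0, hC, hb0, h⟩ := Vale.Agent.P361.B.log_Zt_zero' (n := 1) le_rfl
  refine Vale.Agent.P361.LRO.S3.En3.energyStmt3_of (C := C) (b0 := b0) hC fun b hb l _ => ?_
  refine (h b hb l).trans ?_
  have hb1 : 1 ≤ b := hb0.trans hb
  have h1 : b ^ (0.51 : ℝ) ≤ b := by
    calc b ^ (0.51 : ℝ) ≤ b ^ (1 : ℝ) := Real.rpow_le_rpow_of_exponent_le hb1 (by norm_num)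
      _ = b := Real.rpow_one b
  have h2 : C * b ^ (0.51 : ℝ) * (l : ℝ) ^ 2 ≤ C * b * (l : ℝ) ^ 2 :=
    mul_le_mul_of_nonneg_right (mul_le_mul_of_nonneg_left h1 hC) (by positivity)
  linarith
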