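import Vale.Agent.P361.LRO.Tw.Scalar

/-!
P361, stage 3: upper bounds for the tilting factor `sA k N / sA k Nb`.
-/

namespace Vale.Agent.P361.LRO.S3

open Finset

theorem sA_up_mul (k : ℝ) (N m : ℕ) :
    ((N : ℝ) + 1) * sA k N ≤ Real.exp (-(k * m)) * (((N : ℝ) + 2 * m + 1) * sA k (N + 2 * m)) := by
  unfold sA
  have hN : ((N : ℝ) + 1) ≠ 0 := by positivity
  have hN' : (((N + 2 * m : ℕ) : ℝ) + 1) ≠ 0 := by positivity
  have e1 : ((N : ℝ) + 1) * ((∑ j ∈ range (N + 1), Real.exp (k * ((N : ℝ) / 2 - j))) / ((N : ℝ) + 1))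
      = ∑ j ∈ range (N + 1), Real.exp (k * ((N : ℝ) / 2 - j)) := by field_simp
  have e2 : ((N : ℝ) + 2 * m + 1) *
      ((∑ j ∈ range (N + 2 * m + 1), Real.exp (k * (((N + 2 * m : ℕ) : ℝ) / 2 - j)))
        / (((N + 2 * m : ℕ) : ℝ) + 1))
      = ∑ j ∈ range (N + 2 * m + 1), Real.exp (k * (((N + 2 * m : ℕ) : ℝ) / 2 - j)) := by
    have : ((N : ℝ) + 2 * m + 1) = (((N + 2 * m : ℕ) : ℝ) + 1) := by push_cast; ring
    rw [this]
    field_simp
  rw [e1, e2, mul_sum]
  have hsub : range (N + 1) ⊆ range (N + 2 * m + 1) := by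
    intro j hj; rw [mem_range] at hj ⊢; omega
  calc ∑ j ∈ range (N + 1), Real.exp (k * ((N : ℝ) / 2 - j))
      = ∑ j ∈ range (N + 1), Real.exp (-(k * m))
          * Real.exp (k * (((N + 2 * m : ℕ) : ℝ) / 2 - j)) := by
        refine sum_congr rfl fun j _ => ?_
        rw [← Real.exp_add]
        congr 1
        push_cast
        ring
    _ ≤ ∑ j ∈ range (N + 2 * m + 1), Real.exp (-(k * m))
          * Real.exp (k * (((N + 2 * m : ℕ) : ℝ) / 2 - j)) :=
        sum_le_sum_of_subset_of_nonneg hsub fun _ _ _ => by positivity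

/-- `r ≤ 4 exp (- K min(D, 1/4))`, `K = k Nb`, `D = m / Nb`. -/
theorem sA_up {k : ℝ} (hk : 0 ≤ k) (hk1 : k ≤ 1 / 2) {N m Nb : ℕ} (hNb : 0 < Nb)
    (h : N + 2 * m = Nb) :
    sA k N ≤ 4 * Real.exp (-(k * Nb * min ((m : ℝ) / Nb) (1 / 4))) * sA k Nb := by
  have hNb' : (0 : ℝ) < Nb := by exact_mod_cast hNb
  have hpos : 0 < sA k Nb := sA_pos k Nb
  by_cases hm : 4 * m ≤ Nb
  · -- D ≤ 1/4
    have h1 := sA_up_mul k N m
    rw [h] at h1
    have hmr : (4 : ℝ) * m ≤ Nb := by exact_mod_cast hm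
    have hN : (N : ℝ) + 2 * m = Nb := by exact_mod_cast h
    have hD : (m : ℝ) / Nb ≤ 1 / 4 := by
      rw [div_le_iff₀ hNb']; linarith
    rw [min_eq_left hD]
    have e : k * Nb * ((m : ℝ) / Nb) = k * m := by field_simp
    rw [e]
    have hN1 : (0 : ℝ) < (N : ℝ) + 1 := by positivity
    rw [hN] at h1
    have h2 : ((Nb : ℝ) + 1) ≤ 2 * ((N : ℝ) + 1) := by linarith
    have h3 : ((N : ℝ) + 1) * sA k N
        ≤ ((N : ℝ) + 1) * (2 * Real.exp (-(k * m)) * sA k Nb) := by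
      refine h1.trans ?_
      have : Real.exp (-(k * m)) * (((Nb : ℝ) + 1) * sA k Nb)
          ≤ Real.exp (-(k * m)) * ((2 * ((N : ℝ) + 1)) * sA k Nb) :=
        mul_le_mul_of_nonneg_left (mul_le_mul_of_nonneg_right h2 hpos.le) (Real.exp_pos _).le
      refine this.trans (le_of_eq ?_)
      ring
    have h4 := le_of_mul_le_mul_left h3 hN1
    have h5 : 0 ≤ Real.exp (-(k * m)) * sA k Nb := by positivity
    linarith
  · -- D > 1/4
    push Not at hm
    have hD : 1 / 4 ≤ (m : ℝ) / Nb := by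
      rw [le_div_iff₀ hNb']
      have : (Nb : ℝ) < 4 * m := by exact_mod_cast hm
      linarith
    rw [min_eq_right hD]
    set m' := Nb / 4 with hm'
    have hm'le : m' ≤ m := by omega
    have hm'4 : 4 * m' ≤ Nb := by omega
    have hm'5 : Nb < 4 * m' + 4 := by omega
    set N' := Nb - 2 * m' with hN'
    have hN'eq : N' + 2 * m' = Nb := by omega
    have hNN' : N + 2 * (m - m') = N' := by omega
    have hmono : sA k N ≤ sA k N' := by
      have := sA_mono k N (m - m')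
      rwa [hNN'] at this
    have h1 := sA_up_mul k N' m'
    rw [hN'eq] at h1
    have hmr : (4 : ℝ) * m' ≤ Nb := by exact_mod_cast hm'4
    have hmr5 : (Nb : ℝ) ≤ 4 * m' + 4 := by exact_mod_cast hm'5.le
    have hN : (N' : ℝ) + 2 * m' = Nb := by exact_mod_cast hN'eq
    have hN1 : (0 : ℝ) < (N' : ℝ) + 1 := by positivity
    rw [hN] at h1
    have h2 : ((Nb : ℝ) + 1) ≤ 2 * ((N' : ℝ) + 1) := by linarith
    have h3 : ((N' : ℝ) + 1) * sA k N'
        ≤ ((N' : ℝ) + 1) * (2 * Real.exp (-(k * m')) * sA k Nb) := by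
      refine h1.trans ?_
      have : Real.exp (-(k * m')) * (((Nb : ℝ) + 1) * sA k Nb)
          ≤ Real.exp (-(k * m')) * ((2 * ((N' : ℝ) + 1)) * sA k Nb) :=
        mul_le_mul_of_nonneg_left (mul_le_mul_of_nonneg_right h2 hpos.le) (Real.exp_pos _).le
      refine this.trans (le_of_eq ?_)
      ring
    have h4 := le_of_mul_le_mul_left h3 hN1
    have h5 : Real.exp (-(k * m')) ≤ 2 * Real.exp (-(k * Nb * (1 / 4))) := by
      have h6 : Real.exp (-(k * m')) ≤ Real.exp (1 / 2 + -(k * Nb * (1 / 4))) := by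
        apply Real.exp_le_exp.2
        have := mul_le_mul_of_nonneg_left hmr5 hk
        nlinarith
      rw [Real.exp_add] at h6
      have h7 : Real.exp (1 / 2) ≤ 2 := by
        have h8 : Real.exp (1 / 2) * Real.exp (1 / 2) = Real.exp 1 := by
          rw [← Real.exp_add]; norm_num
        have h9 := Real.exp_one_lt_d9
        have h10 := Real.exp_pos (1 / 2 : ℝ)
        nlinarith
      have := mul_le_mul_of_nonneg_right h7 (Real.exp_pos (-(k * Nb * (1 / 4)))).le
      linarith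
    have h6 := mul_le_mul_of_nonneg_right h5 hpos.le
    linarith

/-- `<r_K> ≤ 4 (P(D < q) + e^{-Kq})`. -/
theorem rK_mean_le {ι : Type*} [Fintype ι] (w : ι → ℝ) (hw : ∀ i, 0 ≤ w i) (hw1 : ∑ i, w i = 1)
    (N m : ι → ℕ) {Nb : ℕ} (hNb : 0 < Nb) (hN : ∀ i, N i + 2 * m i = Nb) {k q : ℝ} (hk : 0 ≤ k)
    (hk1 : k ≤ 1 / 2) (hq0 : 0 ≤ q) (hq : q ≤ 1 / 4) :
    ∑ i, w i * (sA k (N i) / sA k Nb) ≤
      4 * ((∑ i, if (m i : ℝ) / Nb < q then w i else 0) + Real.exp (-(k * Nb * q))) := by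
  have hpos : 0 < sA k Nb := sA_pos k Nb
  have hNb' : (0 : ℝ) < Nb := by exact_mod_cast hNb
  have hle : ∀ i, w i * (sA k (N i) / sA k Nb) ≤
      4 * (if (m i : ℝ) / Nb < q then w i else 0) + w i * (4 * Real.exp (-(k * Nb * q))) := by
    intro i
    have h1 : sA k (N i) / sA k Nb ≤ 4 * Real.exp (-(k * Nb * min ((m i : ℝ) / Nb) (1 / 4))) := by
      rw [div_le_iff₀ hpos]
      exact sA_up hk hk1 hNb (hN i)
    by_cases h : (m i : ℝ) / Nb < q
    · rw [if_pos h]
      have h2 : Real.exp (-(k * Nb * min ((m i : ℝ) / Nb) (1 / 4))) ≤ 1 := by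
        rw [Real.exp_le_one_iff]
        have : 0 ≤ k * Nb * min ((m i : ℝ) / Nb) (1 / 4) :=
          mul_nonneg (by positivity) (le_min (by positivity) (by norm_num))
        linarith
      have h3 : w i * (sA k (N i) / sA k Nb) ≤ w i * 4 :=
        mul_le_mul_of_nonneg_left (by linarith) (hw i)
      have h4 : 0 ≤ w i * (4 * Real.exp (-(k * Nb * q))) := mul_nonneg (hw i) (by positivity)
      linarith
    · rw [if_neg h, mul_zero, zero_add]
      push Not at h
      refine mul_le_mul_of_nonneg_left (h1.trans ?_) (hw i)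
      have : Real.exp (-(k * Nb * min ((m i : ℝ) / Nb) (1 / 4))) ≤ Real.exp (-(k * Nb * q)) := by
        apply Real.exp_le_exp.2
        have := mul_le_mul_of_nonneg_left (le_min h hq) (by positivity : 0 ≤ k * Nb)
        linarith
      linarith
  refine (sum_le_sum fun i _ => hle i).trans ?_
  rw [sum_add_distrib, ← mul_sum, ← sum_mul, hw1]
  linarith

end Vale.Agent.P361.LRO.S3
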