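import Vale.Agent.P361.LRO.S3.Jensen
import Vale.Agent.P361.LRO.S3.SAup

/-!
P361, stage 3, final assembly (F1): scalar core. `μ` is the joint law of `(J, M)` of a block,
`D = r / |b| = (J_max - J) / |b|`, `Y = p / N = (1 - M / J) / 2`.
-/

namespace Vale.Agent.P361.LRO.S3F

open Finset

/-- The mean of `D` from the mean of `D (1 - D)` and the lower tail. -/
theorem mean_D {ι : Type*} [Fintype ι] (μ D : ι → ℝ) (h0 : ∀ i, 0 ≤ μ i) (h1 : ∑ i, μ i = 1)
    (hD0 : ∀ i, 0 ≤ D i) (hD1 : ∀ i, D i ≤ 1 / 2) {m q s ε : ℝ} (hq0 : 0 ≤ q) (hq1 : q ≤ 1 / 2)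
    (hs0 : 0 < s) (hs1 : s ≤ 1 / 2) (hs : 4 * q ≤ s)
    (hm : ∑ i, μ i * (D i * (1 - D i)) ≤ m)
    (ht : ∑ i, (if D i < q then μ i else 0) ≤ ε) :
    ∑ i, μ i * D i ≤ m / (1 - s) + 4 * (m - q * (1 - q) + q * ε) := by
  set C : ι → ℝ := fun i => D i * (1 - D i) with hC
  set q' := q * (1 - q) with hq'
  have hq'0 : 0 ≤ q' := mul_nonneg hq0 (by linarith)
  have hC0 : ∀ i, 0 ≤ C i := fun i => mul_nonneg (hD0 i) (by linarith [hD1 i])
  have hs' : (0 : ℝ) < 1 - s := by linarith
  -- pointwise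
  have key : ∀ i, μ i * D i ≤ (1 / (1 - s)) * (μ i * C i) +
      4 * (μ i * (C i - q') + q * (if D i < q then μ i else 0)) := by
    intro i
    have hi := h0 i
    have hneg : 0 ≤ μ i * (C i - q') + q * (if D i < q then μ i else 0) := by
      split_ifs with h
      · have e1 : 0 ≤ μ i * (C i - q' + q) :=
          mul_nonneg hi (by have := hC0 i; nlinarith)
        nlinarith
      · have h2 : q ≤ D i := not_lt.1 h
        have h3 : 0 ≤ (D i - q) * (1 - D i - q) :=
          mul_nonneg (by linarith) (by linarith [hD1 i])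
        have h4 : C i - q' = (D i - q) * (1 - D i - q) := by rw [hC, hq']; ring
        rw [h4, mul_zero, add_zero]
        exact mul_nonneg hi h3
    by_cases h : D i ≤ s
    · have e1 : D i ≤ (1 / (1 - s)) * C i := by
        rw [hC]
        simp only
        rw [one_div, inv_mul_eq_div, le_div_iff₀ hs']
        exact mul_le_mul_of_nonneg_left (by linarith) (hD0 i)
      have e2 := mul_le_mul_of_nonneg_left e1 hi
      have e3 : μ i * (1 / (1 - s) * C i) = 1 / (1 - s) * (μ i * C i) := by ring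
      rw [e3] at e2
      linarith
    · push Not at h
      have e0 : 0 ≤ (1 / (1 - s)) * (μ i * C i) := by
        have := hC0 i
        positivity
      have e1 : D i ≤ 4 * (C i - q') := by
        have h2 : C i = D i * (1 - D i) := rfl
        have h3 : D i / 2 ≤ C i := by
          rw [h2]; nlinarith [hD0 i, hD1 i]
        have h4 : q' ≤ q := by rw [hq']; nlinarith
        nlinarith
      have e2 := mul_le_mul_of_nonneg_left e1 hi
      have e3 : 0 ≤ q * (if D i < q then μ i else 0) := by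
        refine mul_nonneg hq0 ?_
        split_ifs
        · exact hi
        · exact le_rfl
      nlinarith
  refine (sum_le_sum fun i _ => key i).trans ?_
  rw [sum_add_distrib, ← mul_sum, ← mul_sum, sum_add_distrib, ← mul_sum]
  have e1 : ∑ i, μ i * (C i - q') = ∑ i, μ i * C i - q' := by
    simp only [mul_sub, sum_sub_distrib, ← sum_mul, h1, one_mul]
  rw [e1]
  have e2 : 1 / (1 - s) * ∑ i, μ i * C i ≤ m / (1 - s) := by
    rw [one_div, inv_mul_eq_div]
    exact div_le_div_of_nonneg_right hm hs'.le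
  have e3 : q * ∑ i, (if D i < q then μ i else 0) ≤ q * ε := mul_le_mul_of_nonneg_left ht hq0
  have hm' : ∑ i, μ i * C i ≤ m := hm
  linarith

/-- **(F1)** The density of down spins of a block from (J), (M) and (T). -/
theorem core {ι : Type*} [Fintype ι] (μ : ι → ℝ) (N r p : ι → ℕ) {nb : ℕ} (hnb : 0 < nb)
    (h0 : ∀ i, 0 ≤ μ i) (h1 : ∑ i, μ i = 1) (hN : ∀ i, N i + 2 * r i = nb) (hp : ∀ i, p i ≤ N i)
    {K c δ d : ℝ} (hK : 0 < K) (hc : 0 < c) (hKnb : K ≤ nb / 2) (hδ0 : 0 < δ) (hδ1 : δ ≤ 1 / 4)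
    (hd0 : 0 ≤ d) (hd : 4 * d ≤ δ)
    (hE : ∑ i, μ i * (sA (K / nb) (N i) / sA (K / nb) nb *
        Real.exp (c * K * ((p i : ℝ) / N i))) ≤
      2 * ∑ i, μ i * (sA (K / nb) (N i) / sA (K / nb) nb))
    (hM : ∑ i, μ i * ((r i : ℝ) * ((nb : ℝ) - r i + 1)) ≤ (1 + δ) * d * (nb : ℝ) ^ 2)
    (hT : ∑ i, (if (r i : ℝ) / nb < (1 - δ) * d then μ i else 0) ≤
      min δ (Real.exp (-(K * d)))) :
    (∑ i, μ i * ((r i : ℝ) + p i)) / nb ≤
      (1 + 20 * δ) * d + (1 / c) * (21 * δ * d + 9 / K) := by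
  have hnb' : (0 : ℝ) < nb := by exact_mod_cast hnb
  set D : ι → ℝ := fun i => (r i : ℝ) / nb with hD
  set X : ι → ℝ := fun i => (p i : ℝ) / N i with hX
  set q : ℝ := (1 - δ) * d with hq
  have hq0 : 0 ≤ q := mul_nonneg (by linarith) hd0
  have hqd : q ≤ d := by rw [hq]; nlinarith
  have hq1 : q ≤ 1 / 16 := by linarith
  have hD0 : ∀ i, 0 ≤ D i := fun i => by rw [hD]; positivity
  have hNr : ∀ i, (N i : ℝ) + 2 * r i = nb := fun i => by exact_mod_cast hN i
  have hD1 : ∀ i, D i ≤ 1 / 2 := by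
    intro i
    rw [hD]
    simp only
    rw [div_le_iff₀ hnb']
    have : (0 : ℝ) ≤ N i := by positivity
    linarith [hNr i]
  -- (M): mean of D
  have hmean : ∑ i, μ i * (D i * (1 - D i)) ≤ (1 + δ) * d := by
    have e1 : ∀ i, μ i * (D i * (1 - D i)) * (nb : ℝ) ^ 2 ≤
        μ i * ((r i : ℝ) * ((nb : ℝ) - r i + 1)) := by
      intro i
      have : D i * (1 - D i) * (nb : ℝ) ^ 2 = (r i : ℝ) * ((nb : ℝ) - r i) := by
        rw [hD]
        field_simp
      have h2 : μ i * (D i * (1 - D i)) * (nb : ℝ) ^ 2 = μ i * ((r i : ℝ) * ((nb : ℝ) - r i)) := by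
        rw [← this]; ring
      rw [h2]
      refine mul_le_mul_of_nonneg_left ?_ (h0 i)
      have : (0 : ℝ) ≤ r i := by positivity
      nlinarith
    have e2 : (∑ i, μ i * (D i * (1 - D i))) * (nb : ℝ) ^ 2 ≤ (1 + δ) * d * (nb : ℝ) ^ 2 := by
      rw [sum_mul]
      exact (sum_le_sum fun i _ => e1 i).trans hM
    exact le_of_mul_le_mul_right e2 (by positivity)
  have hmD := mean_D μ D h0 h1 hD0 hD1 (m := (1 + δ) * d) (q := q) (s := δ) (ε := δ) hq0
    (by linarith) hδ0 (by linarith) (by linarith) hmean (hT.trans (min_le_left _ _))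
  have hDle : ∑ i, μ i * D i ≤ (1 + 20 * δ) * d := by
    refine hmD.trans ?_
    have e1 : (1 + δ) * d / (1 - δ) ≤ (1 + 3 * δ) * d := by
      rw [div_le_iff₀ (by linarith)]
      have : (1 + δ) ≤ (1 + 3 * δ) * (1 - δ) := by nlinarith
      nlinarith
    have e2 : (1 + δ) * d - q * (1 - q) + q * δ ≤ 4 * δ * d := by
      have h3 : q * (1 - q) = q - q * q := by ring
      have h4 : q * q ≤ d * (δ / 4) := mul_le_mul hqd (by linarith) hq0 hd0
      have h5 : q * δ ≤ d * δ := mul_le_mul_of_nonneg_right hqd hδ0.le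
      rw [h3]
      have h6 : q = d - δ * d := by rw [hq]; ring
      nlinarith
    linarith
  -- (J)
  have hk0 : 0 ≤ K / nb := by positivity
  have hk1 : K / nb ≤ 1 / 2 := by rw [div_le_iff₀ hnb']; linarith
  have hKk : K / nb * nb = K := by field_simp
  set R : ι → ℝ := fun i => sA (K / nb) (N i) / sA (K / nb) nb with hR
  have hpos : 0 < sA (K / nb) nb := sA_pos _ _
  have hRlow : ∀ i ∈ (univ : Finset ι), Real.exp (-(K * D i)) ≤ R i := by
    intro i _
    rw [hR]
    simp only
    rw [le_div_iff₀ hpos]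
    have h2 := sA_lower hk0 (N i) (r i)
    rw [hN i] at h2
    have h3 : K / nb * r i = K * D i := by rw [hD]; field_simp
    rwa [h3] at h2
  have hR1 : ∀ i ∈ (univ : Finset ι), R i ≤ 1 := by
    intro i _
    rw [hR]
    simp only
    rw [div_le_one hpos, ← hN i]
    exact sA_mono _ _ _
  have hR4 : ∀ i ∈ (univ : Finset ι), q ≤ D i → R i ≤ 4 * Real.exp (-(K * q)) := by
    intro i _ hqi
    rw [hR]
    simp only
    rw [div_le_iff₀ hpos]
    refine (S3.sA_up hk0 hk1 hnb (hN i)).trans ?_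
    refine mul_le_mul_of_nonneg_right ?_ hpos.le
    refine mul_le_mul_of_nonneg_left ?_ (by norm_num)
    apply Real.exp_le_exp.2
    rw [hKk]
    have : q ≤ min ((r i : ℝ) / nb) (1 / 4) := le_min hqi (by linarith)
    have := mul_le_mul_of_nonneg_left this hK.le
    linarith
  have htail : ∑ i ∈ (univ : Finset ι), (if D i < q then μ i else 0) ≤ Real.exp (-(K * q)) := by
    refine (hT.trans (min_le_right _ _)).trans ?_
    apply Real.exp_le_exp.2
    have := mul_le_mul_of_nonneg_left hqd hK.le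
    linarith
  have hJ := S3.dir_sharp univ μ D X R (fun i _ => h0 i) h1 (K := K) (c := c) (q := q) hK hRlow hR1
    hR4 hE htail
  -- conclusion
  have hXle : ∑ i, μ i * X i ≤ (1 / c) * (21 * δ * d + 9 / K) := by
    rw [one_div, inv_mul_eq_div, le_div_iff₀ hc, mul_comm]
    refine hJ.trans ?_
    have : q = d - δ * d := by rw [hq]; ring
    rw [this]
    linarith
  have hfin : (∑ i, μ i * ((r i : ℝ) + p i)) / nb ≤ ∑ i, μ i * D i + ∑ i, μ i * X i := by
    rw [div_le_iff₀ hnb', ← sum_add_distrib, sum_mul]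
    refine sum_le_sum fun i _ => ?_
    have e1 : (p i : ℝ) ≤ nb * X i := by
      rcases Nat.eq_zero_or_pos (N i) with h | h
      · have : p i = 0 := by have := hp i; omega
        rw [this]
        have : 0 ≤ X i := by rw [hX]; positivity
        push_cast
        positivity
      · have hN' : (0 : ℝ) < N i := by exact_mod_cast h
        have : (p i : ℝ) = N i * X i := by rw [hX]; field_simp
        rw [this]
        refine mul_le_mul_of_nonneg_right ?_ (by rw [hX]; positivity)
        have : (0 : ℝ) ≤ r i := by positivity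
        linarith [hNr i]
    have e2 : (r i : ℝ) = nb * D i := by rw [hD]; field_simp
    have e3 : μ i * ((r i : ℝ) + p i) ≤ μ i * (nb * D i + nb * X i) := by
      refine mul_le_mul_of_nonneg_left ?_ (h0 i)
      linarith
    refine e3.trans (le_of_eq ?_)
    ring
  linarith

end Vale.Agent.P361.LRO.S3F
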