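import Vale.Agent.P361.LRO.S3.Iface
import Vale.Agent.P361.LRO.S3.FinalCore
import Vale.Agent.P361.LRO.Top.Trans

/-!
P361, stage 3, block (F): the sharp bound on the torus from the blocks (K), (D), (B), (M), (T).
-/

namespace Vale.Agent.P361.LRO.S3F

open Finset Filter Topology S3

/-- Every function of `r` is a polynomial of `r (n - r + 1)`. -/
theorem exists_poly' (n : ℕ) (g : ℕ → ℝ) :
    ∃ P : Polynomial ℝ, ∀ r : ℕ, 2 * r ≤ n → P.eval ((r : ℝ) * ((n : ℝ) - r + 1)) = g r := by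
  classical
  have hinj : Set.InjOn (fun r : ℕ => (r : ℝ) * ((n : ℝ) - r + 1))
      ((Finset.range (n / 2 + 1) : Finset ℕ) : Set ℕ) := by
    intro r hr s hs h
    have hr' : r < n / 2 + 1 := Finset.mem_range.1 hr
    have hs' : s < n / 2 + 1 := Finset.mem_range.1 hs
    have h1 : (r : ℝ) + s ≤ n := by
      have : r + s ≤ n := by omega
      exact_mod_cast this
    simp only at h
    have h2 : ((r : ℝ) - s) * ((n : ℝ) + 1 - r - s) = 0 := by linear_combination h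
    rcases mul_eq_zero.1 h2 with h3 | h3
    · exact_mod_cast sub_eq_zero.1 h3
    · exfalso; linarith
  refine ⟨Lagrange.interpolate (Finset.range (n / 2 + 1))
    (fun r : ℕ => (r : ℝ) * ((n : ℝ) - r + 1)) g, fun r hr => ?_⟩
  exact Lagrange.eval_interpolate_at_node g hinj (Finset.mem_range.2 (by omega))

/-- The scalar conclusion from the sharp direction inequality. -/
theorem sharp_scalar {ι : Type*} [Fintype ι] (μ : ι → ℝ) (r : ι → ℕ) {nb : ℕ} (hnb : 0 < nb)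
    (h0 : ∀ i, 0 ≤ μ i) (h1 : ∑ i, μ i = 1) (hr : ∀ i, 2 * r i ≤ nb)
    {K δ d q C c R : ℝ} (hK : 0 < K) (hC : 0 < C) (hc : 0 < c) (hδ0 : 0 < δ) (hδ1 : δ ≤ 1 / 4)
    (hd0 : 0 < d) (hd : 4 * d ≤ δ) (hq1 : (1 - δ) * d ≤ q) (hq2 : q ≤ d)
    (hM : ∑ i, μ i * ((r i : ℝ) * ((nb : ℝ) - r i + 1)) ≤ (1 + δ) * d * (nb : ℝ) ^ 2)
    (hT1 : ∑ i, (if (r i : ℝ) < q * nb then μ i else 0) ≤ δ)
    (hT2 : ∑ i, (if (r i : ℝ) < q * nb then μ i else 0) ≤ Real.exp (-(K * d)))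
    (hR : R ≤ (∑ i, μ i * (r i : ℝ)) / nb + c * ((∑ i, μ i * (r i : ℝ)) / nb +
      (1 / K) * Real.log (C * ((∑ i, if (r i : ℝ) < q * nb then μ i else 0) +
        Real.exp (-(K * q)))))) :
    R ≤ d * (1 + 20 * δ + c * (21 * δ)) + c * (2 * C / K) := by
  have hnb' : (0 : ℝ) < nb := by exact_mod_cast hnb
  set D : ι → ℝ := fun i => (r i : ℝ) / nb with hD
  have hD0 : ∀ i, 0 ≤ D i := fun i => by rw [hD]; positivity
  have hq0 : 0 ≤ q := le_trans (mul_nonneg (by linarith) hd0.le) hq1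
  have hD1 : ∀ i, D i ≤ 1 / 2 := by
    intro i
    rw [hD]
    simp only
    rw [div_le_iff₀ hnb']
    have : (2 : ℝ) * r i ≤ nb := by exact_mod_cast hr i
    linarith
  have hmean : ∑ i, μ i * (D i * (1 - D i)) ≤ (1 + δ) * d := by
    have e1 : ∀ i, μ i * (D i * (1 - D i)) * (nb : ℝ) ^ 2 ≤
        μ i * ((r i : ℝ) * ((nb : ℝ) - r i + 1)) := by
      intro i
      have : D i * (1 - D i) * (nb : ℝ) ^ 2 = (r i : ℝ) * ((nb : ℝ) - r i) := by
        rw [hD]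
        field_simp
      have h2 : μ i * (D i * (1 - D i)) * (nb : ℝ) ^ 2 = μ i * ((r i : ℝ) * ((nb : ℝ) - r i)) := by
        rw [← this]; ring
      rw [h2]
      refine mul_le_mul_of_nonneg_left ?_ (h0 i)
      have : (0 : ℝ) ≤ r i := by positivity
      nlinarith
    have e2 : (∑ i, μ i * (D i * (1 - D i))) * (nb : ℝ) ^ 2 ≤ (1 + δ) * d * (nb : ℝ) ^ 2 := by
      rw [sum_mul]
      exact (sum_le_sum fun i _ => e1 i).trans hM
    exact le_of_mul_le_mul_right e2 (by positivity)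
  have hconv : ∀ i, (D i < q ↔ (r i : ℝ) < q * nb) := fun i => by
    rw [hD]; exact div_lt_iff₀ hnb'
  have htail : ∑ i, (if D i < q then μ i else 0) ≤ δ := by
    simp only [hconv]
    exact hT1
  have hmD := mean_D μ D h0 h1 hD0 hD1 (m := (1 + δ) * d) (q := q) (s := δ) (ε := δ) hq0
    (by linarith) hδ0 (by linarith) (by linarith) hmean htail
  have hDle : ∑ i, μ i * D i ≤ (1 + 20 * δ) * d := by
    refine hmD.trans ?_
    have e1 : (1 + δ) * d / (1 - δ) ≤ (1 + 3 * δ) * d := by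
      rw [div_le_iff₀ (by linarith)]
      have : (1 + δ) ≤ (1 + 3 * δ) * (1 - δ) := by nlinarith
      nlinarith
    have e2 : (1 + δ) * d - q * (1 - q) + q * δ ≤ 4 * δ * d := by
      have h3 : q * (1 - q) = q - q * q := by ring
      have h4 : q * q ≤ d * (δ / 4) := mul_le_mul hq2 (by linarith) hq0 hd0.le
      have h5 : q * δ ≤ d * δ := mul_le_mul_of_nonneg_right hq2 hδ0.le
      rw [h3]
      nlinarith
    linarith
  have hDr : ∑ i, μ i * D i = (∑ i, μ i * (r i : ℝ)) / nb := by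
    rw [sum_div]
    exact sum_congr rfl fun i _ => by rw [hD]; ring
  rw [hDr] at hDle
  set m := (∑ i, μ i * (r i : ℝ)) / nb with hm
  set P := ∑ i, (if (r i : ℝ) < q * nb then μ i else 0) with hP
  have hP0 : 0 ≤ P := sum_nonneg fun i _ => by split_ifs; exacts [h0 i, le_rfl]
  have hPq : P ≤ Real.exp (-(K * q)) := by
    refine hT2.trans (Real.exp_le_exp.2 ?_)
    have := mul_le_mul_of_nonneg_left hq2 hK.le
    linarith
  have hlog : Real.log (C * (P + Real.exp (-(K * q)))) ≤ 2 * C - K * q := by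
    have he := Real.exp_pos (-(K * q))
    have h2 : Real.log (C * (P + Real.exp (-(K * q)))) ≤
        Real.log (2 * C * Real.exp (-(K * q))) := by
      refine Real.log_le_log (mul_pos hC (by linarith)) ?_
      have := mul_le_mul_of_nonneg_left hPq hC.le
      nlinarith
    rw [Real.log_mul (by positivity) he.ne', Real.log_exp] at h2
    have h3 := Real.log_le_sub_one_of_pos (show 0 < 2 * C by positivity)
    linarith
  have hlog2 : (1 / K) * Real.log (C * (P + Real.exp (-(K * q)))) ≤ 2 * C / K - q := by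
    have h2 := mul_le_mul_of_nonneg_left hlog (show 0 ≤ 1 / K by positivity)
    have h3 : (1 / K) * (2 * C - K * q) = 2 * C / K - q := by field_simp
    linarith
  have hfin : c * (m + (1 / K) * Real.log (C * (P + Real.exp (-(K * q))))) ≤
      c * (21 * δ * d + 2 * C / K) := by
    refine mul_le_mul_of_nonneg_left ?_ hc.le
    nlinarith
  have : R ≤ m + c * (21 * δ * d + 2 * C / K) := by linarith
  nlinarith

/-- `3 ^ a` in `[x, 3 x]`. -/
theorem exists_pow3 {x : ℝ} (hx : 1 ≤ x) : ∃ a : ℕ, x ≤ (3 : ℝ) ^ a ∧ (3 : ℝ) ^ a ≤ 3 * x := by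
  obtain ⟨m, hm1, hm2⟩ := exists_nat_pow_near hx (by norm_num : (1 : ℝ) < 3)
  exact ⟨m + 1, hm2.le, by rw [pow_succ]; linarith⟩

theorem BC_pos : 0 < BC := by
  have hz : 0 < (riemannZeta (3 / 2)).re := by
    have h1 : riemannZeta (3 / 2) = ((∑' n : ℕ, 1 / ((n : ℝ) + 1) ^ (3 / 2 : ℝ) : ℝ) : ℂ) := by
      have h2 := zeta_eq_tsum_one_div_nat_add_one_cpow (s := 3 / 2) (by norm_num)
      rw [h2, Complex.ofReal_tsum]
      refine tsum_congr fun n => ?_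
      have h3 : ((((n : ℝ) + 1) ^ (3 / 2 : ℝ) : ℝ) : ℂ) = ((n : ℂ) + 1) ^ (3 / 2 : ℂ) := by
        rw [Complex.ofReal_cpow (by positivity)]
        push_cast
        norm_num
      rw [Complex.ofReal_div, h3, Complex.ofReal_one]
    rw [h1, Complex.ofReal_re]
    have hs : Summable fun n : ℕ => 1 / ((n : ℝ) + 1) ^ (3 / 2 : ℝ) := by
      have := (summable_nat_add_iff 1).2 (Real.summable_one_div_nat_rpow.2
        (by norm_num : (1 : ℝ) < 3 / 2))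
      simpa using this
    exact hs.tsum_pos (fun n => by positivity) 0 (by positivity)
  unfold BC
  positivity

theorem rho_const {n : ℕ} [NeZero n] {β h : ℝ} (x y : Tor n) :
    rho (edges n) β (fun _ => h) x = rho (edges n) β (fun _ => h) y := by
  have h1 := transStmt n β (fun _ => h) x (y - x)
  simpa using h1

theorem cube_nonempty {n : ℕ} [NeZero n] (x : Tor n) {w : ℕ} (hw : 0 < w) :
    (cube n x w).Nonempty := by
  have : NeZero w := ⟨hw.ne'⟩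
  unfold cube
  exact (Finset.univ_nonempty).image _

/-- The body of `DirSharpStmt3` for one state. -/
def DirAt (C : ℝ) {V : Type} [Fintype V] [DecidableEq V] (L : List (V × V)) (β : ℝ) (h : V → ℝ)
    (b : Finset V) : Prop :=
  ∃ (ι : Type) (_ : Fintype ι) (μ : ι → ℝ) (r : ι → ℕ), (∀ i, 0 ≤ μ i) ∧
      (∀ i, 2 * r i ≤ b.card) ∧ ∑ i, μ i = 1 ∧
      (∀ P : Polynomial ℝ, ∑ i, μ i * P.eval ((r i : ℝ) * ((b.card : ℝ) - r i + 1)) =
        gib L β h (Polynomial.aeval (CM b) P)) ∧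
      ∀ K κ q : ℝ, 1 ≤ K → 0 < κ → 0 ≤ q → q ≤ 1 / 4 →
        (∃ᶠ N : ℕ in atTop, κ ≤ kap L β N h K b) →
        (∑ x ∈ b, rho L β h x) / b.card ≤ (∑ i, μ i * (r i : ℝ)) / b.card +
          C * (K / κ) * ((∑ i, μ i * (r i : ℝ)) / b.card +
            (1 / K) * Real.log (C * ((∑ i, if (r i : ℝ) < q * b.card then μ i else 0) +
              Real.exp (-(K * q)))))

/-- The step for one state. -/
theorem one_state {V : Type} [Fintype V] [DecidableEq V] {L : List (V × V)} {β : ℝ} {h : V → ℝ}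
    {b : Finset V} (hbne : b.Nonempty) {C c3 K δ δ' q dd : ℝ} (hD : DirAt C L β h b) (hC : 0 < C)
    (hc3 : 0 < c3) (hK1 : 1 ≤ K) (hδ0 : 0 < δ) (hδ1 : δ ≤ 1 / 4) (hdd0 : 0 < dd)
    (hb6 : 4 * dd ≤ δ) (hq1 : (1 - δ) * dd ≤ q) (hq2 : q ≤ dd) (hδ'1 : δ' ≤ δ)
    (hδ'2 : δ' ≤ Real.exp (-(K * dd)))
    (hkap : ∃ᶠ N : ℕ in atTop, c3 * K ≤ kap L β N h K b)
    (hM : yb L β h b ≤ (1 + δ) * dd)
    (hT : ∀ P : Polynomial ℝ, (∀ r : ℕ, 2 * r ≤ b.card →
        P.eval ((r : ℝ) * ((b.card : ℝ) - r + 1)) ≤ if (r : ℝ) < q * b.card then 1 else 0) →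
      gib L β h (Polynomial.aeval (CM b) P) ≤ δ') :
    (∑ y ∈ b, rho L β h y) / b.card ≤
      dd * (1 + 20 * δ + C * (1 / c3) * (21 * δ)) + C * (1 / c3) * (2 * C / K) := by
  have hbc : 0 < b.card := Finset.card_pos.2 hbne
  have hbc' : (0 : ℝ) < b.card := by exact_mod_cast hbc
  have hq0 : 0 ≤ q := le_trans (mul_nonneg (by linarith) hdd0.le) hq1
  obtain ⟨ι, hι, μ, r, hμ0, hr, hμ1, hpoly, hsharp⟩ := hD
  have hR := hsharp K (c3 * K) q hK1 (by positivity) hq0 (by linarith) hkap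
  have hKκ : C * (K / (c3 * K)) = C * (1 / c3) := by
    have : K ≠ 0 := by linarith
    field_simp
  rw [hKκ] at hR
  have hMm : ∑ i, μ i * ((r i : ℝ) * ((b.card : ℝ) - r i + 1)) ≤
      (1 + δ) * dd * (b.card : ℝ) ^ 2 := by
    have h1 := hpoly Polynomial.X
    simp only [Polynomial.eval_X, Polynomial.aeval_X] at h1
    rw [h1]
    unfold yb at hM
    rwa [div_le_iff₀ (by positivity)] at hM
  have hTt : ∑ i, (if (r i : ℝ) < q * b.card then μ i else 0) ≤ δ' := by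
    obtain ⟨P, hP⟩ := exists_poly' b.card fun s => if (s : ℝ) < q * b.card then 1 else 0
    have h1 := hT P (fun s hs => (hP s hs).le)
    rw [← hpoly P] at h1
    refine le_trans (le_of_eq ?_) h1
    refine sum_congr rfl fun i _ => ?_
    rw [hP (r i) (hr i)]
    split_ifs <;> simp
  exact sharp_scalar μ r hbc hμ0 hμ1 hr (K := K) (δ := δ) (d := dd) (q := q) (C := C)
    (c := C * (1 / c3)) (by linarith) hC (by positivity) hδ0 hδ1 hdd0 hb6 hq1 hq2 hMm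
    (hTt.trans hδ'1) (hTt.trans hδ'2) hR

theorem fam_const {n : ℕ} [NeZero n] {g0 lam : ℝ} (hg0 : 0 ≤ g0) (hg1 : g0 ≤ 1) (hlam : 0 ≤ lam) :
    Fam n g0 lam (fun _ => g0) := by
  refine ⟨fun y => ⟨le_rfl, hg1⟩, fun y i => ?_⟩
  have h1 : 1 ≤ Real.exp lam := Real.one_le_exp hlam
  constructor <;> nlinarith

/-- The choice of the parameters. -/
theorem params {d c2 Lam δ : ℝ} (hd0 : 0 < d) (hd1 : d ≤ 1 / 100) (hc2 : 0 < c2) (hLam : 0 < Lam)
    (hδ0 : 0 < δ) : ∀ᶠ β : ℝ in atTop, 1 ≤ β ∧ 4 * (BC * β ^ (-(3 / 2) : ℝ)) ≤ δ ∧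
      1 ≤ Lam * β ^ (3 / 2 : ℝ) ∧ ∃ a : ℕ, β ^ (1 / 2 + d) ≤ (3 : ℝ) ^ a ∧
      (3 : ℝ) ^ a ≤ 3 * β ^ (1 / 2 + d) ∧ Real.sqrt β ≤ (3 : ℝ) ^ a ∧
      (3 : ℝ) ^ a ≤ β ^ (3 / 4 : ℝ) ∧ Lam * β ^ (3 / 2 : ℝ) ≤ c2 * β * 3 ^ a := by
  have hlim1 : Tendsto (fun β : ℝ => β ^ (-(3 / 2) : ℝ)) atTop (𝓝 0) :=
    tendsto_rpow_neg_atTop (by norm_num)
  have hlim2 : Tendsto (fun β : ℝ => β ^ d) atTop atTop := tendsto_rpow_atTop hd0
  have hlim3 : Tendsto (fun β : ℝ => β ^ (1 / 4 - d)) atTop atTop :=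
    tendsto_rpow_atTop (by linarith)
  have hlim4 : Tendsto (fun β : ℝ => β ^ (3 / 2 : ℝ)) atTop atTop :=
    tendsto_rpow_atTop (by norm_num)
  have h1 : ∀ᶠ β : ℝ in atTop, 4 * (BC * β ^ (-(3 / 2) : ℝ)) ≤ δ := by
    have h2 : Tendsto (fun β : ℝ => 4 * (BC * β ^ (-(3 / 2) : ℝ))) atTop (𝓝 (4 * (BC * 0))) :=
      (hlim1.const_mul BC).const_mul 4
    rw [mul_zero, mul_zero] at h2
    exact h2.eventually_le_const hδ0
  filter_upwards [eventually_ge_atTop 1, h1, hlim2.eventually_ge_atTop (Lam / c2),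
    hlim3.eventually_ge_atTop 3, hlim4.eventually_ge_atTop (1 / Lam)] with β hb1 hb6 hb7 hb8 hb9
  have hβ' : 0 < β := by linarith
  obtain ⟨a, ha1, ha2⟩ := exists_pow3 (x := β ^ (1 / 2 + d)) (Real.one_le_rpow hb1 (by linarith))
  refine ⟨hb1, hb6, ?_, a, ha1, ha2, ?_, ?_, ?_⟩
  · have := mul_le_mul_of_nonneg_left hb9 hLam.le
    rwa [mul_one_div_cancel hLam.ne'] at this
  · refine le_trans ?_ ha1
    rw [Real.sqrt_eq_rpow]
    exact Real.rpow_le_rpow_of_exponent_le hb1 (by linarith)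
  · refine ha2.trans ?_
    have h1 : β ^ (3 / 4 : ℝ) = β ^ (1 / 4 - d) * β ^ (1 / 2 + d) := by
      rw [← Real.rpow_add hβ']
      congr 1
      ring
    rw [h1]
    exact mul_le_mul_of_nonneg_right hb8 (Real.rpow_nonneg hβ'.le _)
  · have h1 : β ^ (3 / 2 : ℝ) * β ^ d = β * β ^ (1 / 2 + d) := by
      rw [← Real.rpow_add hβ']
      nth_rewrite 2 [← Real.rpow_one β]
      rw [← Real.rpow_add hβ']
      congr 1
      ring
    have h2 : Lam ≤ c2 * β ^ d := by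
      rwa [div_le_iff₀' hc2] at hb7
    calc Lam * β ^ (3 / 2 : ℝ)
      _ ≤ c2 * β ^ d * β ^ (3 / 2 : ℝ) := mul_le_mul_of_nonneg_right h2 (Real.rpow_nonneg hβ'.le _)
      _ = c2 * (β ^ (3 / 2 : ℝ) * β ^ d) := by ring
      _ = c2 * β * β ^ (1 / 2 + d) := by rw [h1]; ring
      _ ≤ c2 * β * 3 ^ a := mul_le_mul_of_nonneg_left ha1 (by positivity)

/-- The bound on one torus. -/
theorem one_torus {n : ℕ} [NeZero n] {β h : ℝ} (hβ : 0 < β) {a : ℕ} (x : Tor n)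
    {C c3 Lam δ δ' ε : ℝ}
    (hD : DirAt C (edges n) β (fun _ => h) (cube n x (3 ^ a))) (hC : 0 < C) (hc3 : 0 < c3)
    (hLam : 0 < Lam) (hK1 : 1 ≤ Lam * β ^ (3 / 2 : ℝ)) (hδ1 : δ ≤ 1 / 4)
    (hb6 : 4 * (BC * β ^ (-(3 / 2) : ℝ)) ≤ δ) (hδ'0 : 0 < δ') (hδ'1 : δ' ≤ δ)
    (hδ'2 : δ' ≤ Real.exp (-(Lam * BC)))
    (hε1 : 20 * δ + C * (1 / c3) * (21 * δ) ≤ ε / 2)
    (hε2 : C * (1 / c3) * (2 * C / Lam) = ε / 2 * BC)
    (hkap : ∃ᶠ N : ℕ in atTop, c3 * (Lam * β ^ (3 / 2 : ℝ)) ≤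
      kap (edges n) β N (fun _ => h) (Lam * β ^ (3 / 2 : ℝ)) (cube n x (3 ^ a)))
    (hM : yb (edges n) β (fun _ => h) (cube n x (3 ^ a)) ≤ (1 + δ') * BC * β ^ (-(3 / 2) : ℝ))
    (hT : ∀ P : Polynomial ℝ, (∀ r : ℕ, 2 * r ≤ (cube n x (3 ^ a)).card →
        P.eval ((r : ℝ) * (((cube n x (3 ^ a)).card : ℝ) - r + 1)) ≤
          if (r : ℝ) < (1 - δ') * BC * β ^ (-(3 / 2) : ℝ) * (cube n x (3 ^ a)).card
            then 1 else 0) →
      gib (edges n) β (fun _ => h) (Polynomial.aeval (CM (cube n x (3 ^ a))) P) ≤ δ') :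
    rho (edges n) β (fun _ => h) x ≤ (1 + ε) * BC * β ^ (-(3 / 2) : ℝ) := by
  have hBC := BC_pos
  set K : ℝ := Lam * β ^ (3 / 2 : ℝ) with hKdef
  set dd : ℝ := BC * β ^ (-(3 / 2) : ℝ) with hdd
  have hdd0 : 0 < dd := mul_pos hBC (Real.rpow_pos_of_pos hβ _)
  have hKd : K * dd = Lam * BC := by
    rw [hKdef, hdd]
    have : β ^ (3 / 2 : ℝ) * β ^ (-(3 / 2) : ℝ) = 1 := by
      rw [← Real.rpow_add hβ]
      norm_num
    calc Lam * β ^ (3 / 2 : ℝ) * (BC * β ^ (-(3 / 2) : ℝ)) =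
          Lam * BC * (β ^ (3 / 2 : ℝ) * β ^ (-(3 / 2) : ℝ)) := by ring
      _ = Lam * BC := by rw [this, mul_one]
  set q : ℝ := (1 - δ') * BC * β ^ (-(3 / 2) : ℝ) with hq
  have hq' : q = (1 - δ') * dd := by rw [hq, hdd]; ring
  have hq1 : (1 - δ) * dd ≤ q := by
    rw [hq']
    exact mul_le_mul_of_nonneg_right (by linarith) hdd0.le
  have hq2 : q ≤ dd := by
    rw [hq']
    nlinarith
  have hbne : (cube n x (3 ^ a)).Nonempty := cube_nonempty x (by positivity)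
  have hbc' : (0 : ℝ) < (cube n x (3 ^ a)).card := by exact_mod_cast Finset.card_pos.2 hbne
  have hM' : yb (edges n) β (fun _ => h) (cube n x (3 ^ a)) ≤ (1 + δ) * dd := by
    refine hM.trans ?_
    rw [mul_assoc, ← hdd]
    exact mul_le_mul_of_nonneg_right (by linarith) hdd0.le
  have hfin := one_state hbne hD hC hc3 hK1 (lt_of_lt_of_le hδ'0 hδ'1) hδ1 hdd0 hb6 hq1 hq2 hδ'1
    (by rw [hKd]; exact hδ'2) hkap hM' hT
  have havg : (∑ y ∈ cube n x (3 ^ a), rho (edges n) β (fun _ => h) y) / (cube n x (3 ^ a)).card =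
      rho (edges n) β (fun _ => h) x := by
    rw [Finset.sum_congr rfl fun y _ => rho_const (h := h) (β := β) y x, Finset.sum_const,
      nsmul_eq_mul]
    field_simp
  rw [havg] at hfin
  refine hfin.trans ?_
  have h5 : C * (1 / c3) * (2 * C / K) = ε / 2 * dd := by
    have h6 : 1 / K = β ^ (-(3 / 2) : ℝ) / Lam := by
      rw [hKdef, Real.rpow_neg hβ.le]
      field_simp
    calc C * (1 / c3) * (2 * C / K) = C * (1 / c3) * (2 * C) * (1 / K) := by ring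
      _ = C * (1 / c3) * (2 * C / Lam) * β ^ (-(3 / 2) : ℝ) := by rw [h6]; ring
      _ = ε / 2 * dd := by rw [hε2, hdd]; ring
  rw [h5]
  have h6 : (1 + ε) * BC * β ^ (-(3 / 2) : ℝ) = (1 + ε) * dd := by rw [hdd]; ring
  rw [h6]
  have h7 := mul_le_mul_of_nonneg_left hε1 hdd0.le
  nlinarith

/-- **Block (F).** -/
theorem finalStmt3_of (hK : KappaStmt3) (hD : DirSharpStmt3) (hB : BootStmt3) (hM : MeanStmt3)
    (hT : TailStmt3) : FinalStmt3 := by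
  obtain ⟨c2, c3, hc2, hc3, hK⟩ := hK
  obtain ⟨C, hC, hD⟩ := hD
  obtain ⟨C7, β1, hC7, hB⟩ := hB
  obtain ⟨d, hd0, hd1, hM⟩ := hM
  have hBC := BC_pos
  intro ε hε
  have hc0 : 0 < C * (1 / c3) := by positivity
  obtain ⟨δ, hδ0, hδ1, hδ2⟩ : ∃ δ : ℝ, 0 < δ ∧ δ ≤ 1 / 4 ∧
      20 * δ + C * (1 / c3) * (21 * δ) ≤ ε / 2 := by
    refine ⟨min (1 / 4) (ε / (2 * (20 + 21 * (C * (1 / c3))))), lt_min (by norm_num)
      (by positivity), min_le_left _ _, ?_⟩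
    have h1 : min (1 / 4) (ε / (2 * (20 + 21 * (C * (1 / c3))))) ≤
      ε / (2 * (20 + 21 * (C * (1 / c3)))) := min_le_right _ _
    rw [le_div_iff₀ (by positivity)] at h1
    linarith
  obtain ⟨Lam, hLam0, hLam1⟩ : ∃ Lam : ℝ, 0 < Lam ∧
      C * (1 / c3) * (2 * C / Lam) = ε / 2 * BC :=
    ⟨4 * (C * (1 / c3)) * C / (ε * BC), by positivity, by field_simp; ring⟩
  obtain ⟨δ', hδ'0, hδ'1, hδ'2⟩ : ∃ δ' : ℝ, 0 < δ' ∧ δ' ≤ δ ∧ δ' ≤ Real.exp (-(Lam * BC)) :=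
    ⟨min δ (Real.exp (-(Lam * BC))), lt_min hδ0 (Real.exp_pos _), min_le_left _ _,
      min_le_right _ _⟩
  obtain ⟨β2, hM⟩ := hM δ' hδ'0
  obtain ⟨β3, hT⟩ := hT d hd0 hd1 δ' hδ'0
  obtain ⟨β4, hK⟩ := hK C7 Lam hC7 hLam0
  obtain ⟨β0, hβ0⟩ := eventually_atTop.1 ((params hd0 hd1 hc2 hLam0 hδ0).and
    ((eventually_ge_atTop β1).and ((eventually_ge_atTop β2).and ((eventually_ge_atTop β3).and
      (eventually_ge_atTop β4)))))
  refine ⟨β0, fun β hβ h hh0 hh1 => ?_⟩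
  obtain ⟨⟨hb1, hb6, hK1, a, ha1, ha2, ha3, ha4, hK2⟩, hb2, hb3, hb4, hb5⟩ := hβ0 β hβ
  have hβ' : 0 < β := by linarith
  obtain ⟨n1, hB⟩ := hB β hb2
  obtain ⟨n2, hM⟩ := hM β hb3 a ha1 ha2 h hh0 hh1
  obtain ⟨n3, hT⟩ := hT β hb4 a ha1 ha2 h hh0 hh1
  obtain ⟨n4, hK⟩ := hK β hb5
  have hg0 : 0 < β * h := mul_pos hβ' hh0
  have hg1 : β * h ≤ 1 := by
    have h1 : β * h ≤ β * β ^ (-(10 : ℝ)) := mul_le_mul_of_nonneg_left hh1 hβ'.le
    have h2 : β * β ^ (-(10 : ℝ)) = β ^ (-(9 : ℝ)) := by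
      nth_rewrite 1 [← Real.rpow_one β]
      rw [← Real.rpow_add hβ']
      norm_num
    rw [h2] at h1
    exact h1.trans (Real.rpow_le_one_of_one_le_of_nonpos hb1 (by norm_num))
  obtain ⟨n5, hn5⟩ : ∃ n5 : ℕ, ∀ n : ℕ, n5 ≤ n → (n : ℝ) ^ (-(1 / 4) : ℝ) ≤ β * h := by
    have h1 : Tendsto (fun n : ℕ => (n : ℝ) ^ (-(1 / 4) : ℝ)) atTop (𝓝 0) :=
      (tendsto_rpow_neg_atTop (by norm_num : (0 : ℝ) < 1 / 4)).comp tendsto_natCast_atTop_atTop
    exact eventually_atTop.1 (h1.eventually_le_const hg0)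
  refine ⟨max n1 (max n2 (max n3 (max n4 n5))), fun n _ hn hodd x => ?_⟩
  simp only [max_le_iff] at hn
  obtain ⟨hn1, hn2, hn3, hn4, hn5'⟩ := hn
  have hgn := hn5 n hn5'
  have hfield : (fun y : Tor n => (fun _ : Tor n => β * h) y / β) = fun _ => h := by
    funext y
    field_simp
  have hFam : Fam n (β * h) (β ^ (-(9 / 2) : ℝ)) (fun _ => β * h) :=
    fam_const hg0.le hg1 (Real.rpow_nonneg hβ'.le _)
  have hkap := hK n hn4 hodd a ha3 ha4 _ hK1 le_rfl hK2 (β * h) hgn hg1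
    (hB n hn1 hodd (β * h) hgn hg1) (fun _ => β * h) hFam x
  rw [hfield] at hkap
  exact one_torus hβ' x
    (hD (Tor n) (edges n) β (fun _ => h) _ hβ' (fun _ => hh0.le) (cube_nonempty x (by positivity)))
    hC hc3 hLam0 hK1 hδ1 hb6 hδ'0 hδ'1 hδ'2 hδ2 hLam1 hkap (hM n hn2 hodd x) (hT n hn3 hodd x)

end Vale.Agent.P361.LRO.S3F
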