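import Vale.Agent.P361.LRO.S3.Iface
import Vale.Agent.P361.LRO.Top.Trans

/-!
P361, stage 3, final assembly (F), hedge version: `FinalStmt3` from the statements of `Iface`.
-/

namespace Vale.Agent.P361.LRO.S3H

open Finset Matrix Filter Topology Vale.Agent.P361.LRO Vale.Agent.P361.LRO.S3

noncomputable section

theorem BC_pos : 0 < BC := by
  have h1 : riemannZeta (3 / 2) = ((∑' n : ℕ, 1 / (n : ℝ) ^ (3 / 2 : ℝ) : ℝ) : ℂ) := by
    rw [zeta_eq_tsum_one_div_nat_cpow (by norm_num), Complex.ofReal_tsum]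
    refine tsum_congr fun n => ?_
    rw [Complex.ofReal_div, Complex.ofReal_one, Complex.ofReal_cpow (Nat.cast_nonneg n)]
    norm_num
  have h2 : 0 < ∑' n : ℕ, 1 / (n : ℝ) ^ (3 / 2 : ℝ) := by
    have hs : Summable fun n : ℕ => 1 / (n : ℝ) ^ (3 / 2 : ℝ) :=
      Real.summable_one_div_nat_rpow.2 (by norm_num)
    exact hs.tsum_pos (fun n => by positivity) 1 (by norm_num)
  unfold BC
  rw [h1, Complex.ofReal_re]
  positivity

/-- The mean of `D` from the mean of `D (1 - D)` and the lower tail. -/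
theorem mean_le {ι : Type*} [Fintype ι] (μ : ι → ℝ) (r : ι → ℕ) {nb : ℕ} (hnb : 0 < nb)
    (h0 : ∀ i, 0 ≤ μ i) (hr : ∀ i, 2 * r i ≤ nb) (h1 : ∑ i, μ i = 1) {q δ y : ℝ}
    (hq0 : 0 ≤ q) (hq1 : q ≤ 1 / 4)
    (hM : (∑ i, μ i * ((r i : ℝ) * ((nb : ℝ) - r i + 1))) / (nb : ℝ) ^ 2 ≤ y)
    (hT : ∑ i, (if (r i : ℝ) < q * nb then μ i else 0) ≤ δ) :
    (∑ i, μ i * (r i : ℝ)) / nb ≤ q + 4 * (y - (1 - δ) * (q * (1 - q))) := by
  have hn : (0 : ℝ) < nb := by exact_mod_cast hnb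
  have key : ∀ i, μ i * (r i : ℝ) / nb ≤ μ i * q +
      4 * (μ i * ((r i : ℝ) * ((nb : ℝ) - r i + 1)) / (nb : ℝ) ^ 2 -
        (μ i - (if (r i : ℝ) < q * nb then μ i else 0)) * (q * (1 - q))) := by
    intro i
    obtain ⟨D, hD⟩ : ∃ D : ℝ, D = (r i : ℝ) / nb := ⟨_, rfl⟩
    have hD0 : 0 ≤ D := by rw [hD]; positivity
    have hD1 : D ≤ 1 / 2 := by
      rw [hD, div_le_iff₀ hn]
      have : (2 * (r i : ℝ)) ≤ nb := by exact_mod_cast hr i
      linarith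
    have hri : (r i : ℝ) = D * nb := by rw [hD]; field_simp
    have e1 : μ i * (r i : ℝ) / nb = μ i * D := by rw [hD]; ring
    have e2 : μ i * (D * (1 - D)) ≤
        μ i * ((r i : ℝ) * ((nb : ℝ) - r i + 1)) / (nb : ℝ) ^ 2 := by
      rw [le_div_iff₀ (by positivity), hri, mul_assoc]
      refine mul_le_mul_of_nonneg_left ?_ (h0 i)
      have : 0 ≤ D * nb := by positivity
      nlinarith
    rw [e1]
    have hμ := h0 i
    split_ifs with h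
    · have h3 : D ≤ q := by
        rw [hri] at h
        exact (lt_of_mul_lt_mul_right h hn.le).le
      have h4 : 0 ≤ μ i * (D * (1 - D)) := mul_nonneg hμ (mul_nonneg hD0 (by linarith))
      have h5 := mul_le_mul_of_nonneg_left h3 hμ
      linarith
    · have h3 : q ≤ D := by
        rw [hri] at h
        exact le_of_mul_le_mul_right (not_lt.1 h) hn
      have h4 : D - q ≤ 4 * (D * (1 - D) - q * (1 - q)) := by
        have h5 : D * (1 - D) - q * (1 - q) = (D - q) * (1 - D - q) := by ring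
        rw [h5]
        nlinarith [mul_nonneg (sub_nonneg.2 h3) (by linarith : (0 : ℝ) ≤ 1 - D - q - 1 / 4)]
      have h6 := mul_le_mul_of_nonneg_left h4 hμ
      rw [sub_zero]
      linarith
  have hs := Finset.sum_le_sum fun i (_ : i ∈ (univ : Finset ι)) => key i
  rw [← Finset.sum_div, Finset.sum_add_distrib, ← Finset.sum_mul, h1, one_mul, ← Finset.mul_sum,
    Finset.sum_sub_distrib, ← Finset.sum_div, ← Finset.sum_mul, Finset.sum_sub_distrib, h1] at hs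
  refine hs.trans ?_
  have h7 : (1 - δ) * (q * (1 - q)) ≤
      (1 - ∑ i, (if (r i : ℝ) < q * nb then μ i else 0)) * (q * (1 - q)) :=
    mul_le_mul_of_nonneg_right (by linarith) (mul_nonneg hq0 (by linarith))
  linarith

/-- A polynomial which is the indicator of `r < t` on the spectrum. -/
theorem exists_poly (nb : ℕ) (t : ℝ) : ∃ P : Polynomial ℝ, ∀ r : ℕ, 2 * r ≤ nb →
    P.eval ((r : ℝ) * ((nb : ℝ) - r + 1)) = if (r : ℝ) < t then 1 else 0 := by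
  have hinj : Set.InjOn (fun r : ℕ => (r : ℝ) * ((nb : ℝ) - r + 1))
      ((range (nb / 2 + 1) : Finset ℕ) : Set ℕ) := by
    intro r hr s hs h
    simp only [Finset.coe_range, Set.mem_Iio] at hr hs
    have hr' : 2 * r ≤ nb := by omega
    have hs' : 2 * s ≤ nb := by omega
    have e1 : ((r : ℝ) - s) * ((nb : ℝ) + 1 - r - s) = 0 := by
      have h' : (r : ℝ) * ((nb : ℝ) - r + 1) = (s : ℝ) * ((nb : ℝ) - s + 1) := h
      linear_combination h'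
    have e2 : (0 : ℝ) < (nb : ℝ) + 1 - r - s := by
      have h3 : (2 * r : ℝ) ≤ nb := by exact_mod_cast hr'
      have h4 : (2 * s : ℝ) ≤ nb := by exact_mod_cast hs'
      linarith
    rcases mul_eq_zero.1 e1 with h5 | h5
    · exact_mod_cast sub_eq_zero.1 h5
    · exact absurd h5 e2.ne'
  refine ⟨Lagrange.interpolate (range (nb / 2 + 1)) (fun r : ℕ => (r : ℝ) * ((nb : ℝ) - r + 1))
    (fun r : ℕ => if (r : ℝ) < t then 1 else 0), fun r hr => ?_⟩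
  exact Lagrange.eval_interpolate_at_node (fun r : ℕ => if (r : ℝ) < t then (1 : ℝ) else 0) hinj
    (Finset.mem_range.2 (by omega))

/-- The scalar part. -/
theorem scalar {ι : Type*} [Fintype ι] (μ : ι → ℝ) (r : ι → ℕ) {nb : ℕ} (hnb : 0 < nb)
    (h0 : ∀ i, 0 ≤ μ i) (hr : ∀ i, 2 * r i ≤ nb) (h1 : ∑ i, μ i = 1)
    {C c3 B Lam δ ε K ρ : ℝ} (hC : 0 < C) (hc3 : 0 < c3) (hB0 : 0 < B) (hB1 : B ≤ 1 / 4)
    (hδ0 : 0 < δ) (hδ1 : δ ≤ 1 / 2) (hK : 0 < K) (hKB : K * B = Lam)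
    (hδL : δ ≤ Real.exp (-Lam))
    (hε1 : 4 * (3 * δ + B) * (1 + C / c3) ≤ ε / 2)
    (hε2 : C / c3 * |Real.log (2 * C)| ≤ ε / 2 * Lam)
    (hM : (∑ i, μ i * ((r i : ℝ) * ((nb : ℝ) - r i + 1))) / (nb : ℝ) ^ 2 ≤ (1 + δ) * B)
    (hT : ∑ i, (if (r i : ℝ) < (1 - δ) * B * nb then μ i else 0) ≤ δ)
    (hD : ρ ≤ (∑ i, μ i * (r i : ℝ)) / nb + C * (K / (c3 * K)) * ((∑ i, μ i * (r i : ℝ)) / nb +
            (1 / K) * Real.log (C * ((∑ i, if (r i : ℝ) < (1 - δ) * B * nb then μ i else 0) +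
              Real.exp (-(K * ((1 - δ) * B))))))) :
    ρ ≤ (1 + ε) * B := by
  obtain ⟨q, hq⟩ : ∃ q : ℝ, q = (1 - δ) * B := ⟨_, rfl⟩
  rw [← hq] at hT hD
  have hq0 : 0 ≤ q := by rw [hq]; exact mul_nonneg (by linarith) hB0.le
  have hqB : q ≤ B := by rw [hq]; nlinarith
  have hm := mean_le μ r hnb h0 hr h1 hq0 (hqB.trans hB1) hM hT
  obtain ⟨m, hmdef⟩ : ∃ m : ℝ, m = (∑ i, μ i * (r i : ℝ)) / nb := ⟨_, rfl⟩
  rw [← hmdef] at hm hD
  have hm2 : m - q ≤ 4 * (3 * δ + B) * B := by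
    have e1 : (1 + δ) * B - (1 - δ) * (q * (1 - q)) ≤ (3 * δ + B) * B := by
      have e2 : (1 - δ) * (q * (1 - q)) = (1 - δ) ^ 2 * (1 - q) * B := by rw [hq]; ring
      rw [e2]
      have e3 : 1 - 2 * δ - B ≤ (1 - δ) ^ 2 * (1 - q) := by
        have e4 : 1 - 2 * δ ≤ (1 - δ) ^ 2 := by nlinarith
        have e5 : (1 - 2 * δ) * (1 - q) ≤ (1 - δ) ^ 2 * (1 - q) :=
          mul_le_mul_of_nonneg_right e4 (by linarith)
        have e6 : 0 ≤ 2 * δ * q := by positivity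
        nlinarith
      nlinarith [mul_le_mul_of_nonneg_right e3 hB0.le]
    linarith
  obtain ⟨P, hP⟩ : ∃ P : ℝ, P = ∑ i, (if (r i : ℝ) < q * nb then μ i else 0) := ⟨_, rfl⟩
  rw [← hP] at hT hD
  have hP0 : 0 ≤ P := by
    rw [hP]
    exact Finset.sum_nonneg fun i _ => by split_ifs <;> [exact h0 i; exact le_rfl]
  have hexp : P ≤ Real.exp (-(K * q)) := by
    refine (hT.trans hδL).trans (Real.exp_le_exp.2 ?_)
    have : K * q ≤ K * B := mul_le_mul_of_nonneg_left hqB hK.le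
    linarith
  have hlog : Real.log (C * (P + Real.exp (-(K * q)))) ≤ |Real.log (2 * C)| - K * q := by
    have e1 : Real.log (C * (P + Real.exp (-(K * q)))) ≤
        Real.log ((2 * C) * Real.exp (-(K * q))) := by
      refine Real.log_le_log (by positivity) ?_
      nlinarith [mul_le_mul_of_nonneg_left hexp hC.le]
    rw [Real.log_mul (by positivity) (Real.exp_pos _).ne', Real.log_exp] at e1
    have := le_abs_self (Real.log (2 * C))
    linarith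
  have hlog2 : (1 / K) * Real.log (C * (P + Real.exp (-(K * q)))) ≤
      |Real.log (2 * C)| / K - q := by
    have := mul_le_mul_of_nonneg_left hlog (by positivity : 0 ≤ 1 / K)
    refine this.trans (le_of_eq ?_)
    field_simp
  have hKc : K / (c3 * K) = 1 / c3 := by field_simp
  rw [hKc] at hD
  have hCc : 0 < C * (1 / c3) := by positivity
  have hD2 := mul_le_mul_of_nonneg_left (add_le_add (le_refl m) hlog2) hCc.le
  have e5 : C * (1 / c3) * (m + (|Real.log (2 * C)| / K - q)) =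
      C / c3 * (m - q) + C / c3 * |Real.log (2 * C)| / K := by ring
  rw [e5] at hD2
  have e6 : C / c3 * |Real.log (2 * C)| / K ≤ ε / 2 * B := by
    rw [div_le_iff₀ hK]
    refine hε2.trans (le_of_eq ?_)
    rw [← hKB]; ring
  have e7 : C / c3 * (m - q) ≤ C / c3 * (4 * (3 * δ + B) * B) :=
    mul_le_mul_of_nonneg_left hm2 (by positivity)
  have e8 := mul_le_mul_of_nonneg_right hε1 hB0.le
  nlinarith

/-- constants -/
theorem exists_const {C c3 ε BC : ℝ} (hC : 0 < C) (hc3 : 0 < c3) (hε : 0 < ε) (hBC : 0 < BC) :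
    ∃ Lam δ : ℝ, 1 ≤ Lam ∧ C / c3 * |Real.log (2 * C)| ≤ ε / 2 * (Lam * BC) ∧
      0 < δ ∧ δ ≤ 1 / 2 ∧ δ ≤ Real.exp (-(Lam * BC)) ∧ 12 * δ * (1 + C / c3) ≤ ε / 4 := by
  obtain ⟨Lam, hLam1, hLam2⟩ : ∃ Lam : ℝ, 1 ≤ Lam ∧
      C / c3 * |Real.log (2 * C)| ≤ ε / 2 * (Lam * BC) := by
    refine ⟨max 1 (C / c3 * |Real.log (2 * C)| / (ε / 2 * BC)), le_max_left _ _, ?_⟩
    have h := le_max_right 1 (C / c3 * |Real.log (2 * C)| / (ε / 2 * BC))
    rw [div_le_iff₀ (by positivity)] at h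
    refine h.trans (le_of_eq ?_)
    ring
  refine ⟨Lam, min (1 / 2) (min (Real.exp (-(Lam * BC))) (ε / 4 / (12 * (1 + C / c3)))),
    hLam1, hLam2, ?_, min_le_left _ _, (min_le_right _ _).trans (min_le_left _ _), ?_⟩
  · exact lt_min (by norm_num) (lt_min (Real.exp_pos _) (by positivity))
  · have h := (min_le_right (1 / 2) (min (Real.exp (-(Lam * BC)))
      (ε / 4 / (12 * (1 + C / c3))))).trans (min_le_right _ _)
    rw [le_div_iff₀ (by positivity)] at h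
    linarith

/-- large inverse temperatures -/
theorem large {C c2 c3 ε Lam d BC : ℝ} (hC : 0 < C) (hc2 : 0 < c2) (hc3 : 0 < c3) (hε : 0 < ε)
    (hd0 : 0 < d) (hd1 : d ≤ 1 / 100) :
    ∀ᶠ β : ℝ in atTop,
      (BC * β ^ (-(3 / 2) : ℝ) ≤ 1 / 4 ∧ 4 * (BC * β ^ (-(3 / 2) : ℝ)) * (1 + C / c3) ≤ ε / 4) ∧
      (Lam ≤ c2 * β ^ d ∧ 3 ≤ β ^ (1 / 4 - d)) := by
  have t1 : Tendsto (fun β : ℝ => BC * β ^ (-(3 / 2) : ℝ)) atTop (𝓝 0) := by
    have := (tendsto_rpow_neg_atTop (y := 3 / 2) (by norm_num)).const_mul BC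
    simpa using this
  have t2 : Tendsto (fun β : ℝ => 4 * (BC * β ^ (-(3 / 2) : ℝ)) * (1 + C / c3)) atTop (𝓝 0) := by
    have := (t1.const_mul 4).mul_const (1 + C / c3)
    simpa using this
  have t3 : Tendsto (fun β : ℝ => c2 * β ^ d) atTop atTop :=
    (tendsto_rpow_atTop hd0).const_mul_atTop hc2
  have t4 : Tendsto (fun β : ℝ => β ^ (1 / 4 - d)) atTop atTop :=
    tendsto_rpow_atTop (by linarith)
  filter_upwards [t1.eventually_le_const (by norm_num : (0 : ℝ) < 1 / 4),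
    t2.eventually_le_const (by positivity : (0 : ℝ) < ε / 4),
    t3.eventually_ge_atTop Lam, t4.eventually_ge_atTop 3] with β a6 a7 a8 a9
  exact ⟨⟨a6, a7⟩, a8, a9⟩

/-- the size of the blocks -/
theorem block_size {β d : ℝ} (a5 : 1 ≤ β) (hd0 : 0 < d) (a9 : 3 ≤ β ^ (1 / 4 - d)) :
    ∃ a : ℕ, β ^ (1 / 2 + d) ≤ (3 : ℝ) ^ a ∧ (3 : ℝ) ^ a ≤ 3 * β ^ (1 / 2 + d) ∧
      Real.sqrt β ≤ (3 : ℝ) ^ a ∧ (3 : ℝ) ^ a ≤ β ^ (3 / 4 : ℝ) := by
  have hβp : 0 < β := by linarith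
  obtain ⟨a, ha1, ha2⟩ : ∃ a : ℕ, β ^ (1 / 2 + d) ≤ (3 : ℝ) ^ a ∧
      (3 : ℝ) ^ a ≤ 3 * β ^ (1 / 2 + d) := by
    obtain ⟨k, hk1, hk2⟩ := exists_nat_pow_near (Real.one_le_rpow a5 (by linarith : 0 ≤ 1 / 2 + d))
      (by norm_num : (1 : ℝ) < 3)
    refine ⟨k + 1, hk2.le, ?_⟩
    rw [pow_succ]
    linarith
  refine ⟨a, ha1, ha2, ?_, ?_⟩
  · refine le_trans ?_ ha1
    rw [Real.sqrt_eq_rpow]
    exact Real.rpow_le_rpow_of_exponent_le a5 (by linarith)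
  · refine ha2.trans ?_
    calc 3 * β ^ (1 / 2 + d) ≤ β ^ (1 / 4 - d) * β ^ (1 / 2 + d) :=
          mul_le_mul_of_nonneg_right a9 (by positivity)
      _ = β ^ (3 / 4 : ℝ) := by
          rw [← Real.rpow_add hβp]; norm_num

theorem K_le {β d Lam c2 : ℝ} {a : ℕ} (a5 : 1 ≤ β) (hc2 : 0 < c2) (a8 : Lam ≤ c2 * β ^ d)
    (ha1 : β ^ (1 / 2 + d) ≤ (3 : ℝ) ^ a) : Lam * β ^ (3 / 2 : ℝ) ≤ c2 * β * 3 ^ a := by
  have hβp : 0 < β := by linarith
  have e1 : β ^ (3 / 2 : ℝ) = β * β ^ (1 / 2 : ℝ) := by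
    rw [← Real.rpow_one_add' hβp.le (by norm_num)]; norm_num
  have e2 : β ^ (1 / 2 + d) = β ^ (1 / 2 : ℝ) * β ^ d := Real.rpow_add hβp _ _
  calc Lam * β ^ (3 / 2 : ℝ) = Lam * (β * β ^ (1 / 2 : ℝ)) := by rw [e1]
    _ ≤ (c2 * β ^ d) * (β * β ^ (1 / 2 : ℝ)) :=
        mul_le_mul_of_nonneg_right a8 (by positivity)
    _ = c2 * β * β ^ (1 / 2 + d) := by rw [e2]; ring
    _ ≤ c2 * β * 3 ^ a := mul_le_mul_of_nonneg_left ha1 (by positivity)

theorem g_le {β h : ℝ} (a5 : 1 ≤ β) (hh1 : h ≤ β ^ (-(10 : ℝ))) : β * h ≤ 1 := by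
  have hβp : 0 < β := by linarith
  have e1 : β * h ≤ β * β ^ (-(10 : ℝ)) := mul_le_mul_of_nonneg_left hh1 hβp.le
  have e2 : β * β ^ (-(10 : ℝ)) ≤ 1 := by
    have e3 : β * β ^ (-(10 : ℝ)) = β ^ (-(9 : ℝ)) := by
      rw [← Real.rpow_one_add' hβp.le (by norm_num)]; norm_num
    rw [e3]
    exact Real.rpow_le_one_of_one_le_of_nonpos a5 (by norm_num)
  linarith

theorem n_le {g : ℝ} (hg0 : 0 < g) {n : ℕ} (e1 : g ^ (-(4 : ℝ)) ≤ (n : ℝ)) :
    (n : ℝ) ^ (-(1 / 4) : ℝ) ≤ g := by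
  have e2 : (n : ℝ) ^ (-(1 / 4) : ℝ) ≤ (g ^ (-(4 : ℝ))) ^ (-(1 / 4) : ℝ) :=
    Real.rpow_le_rpow_of_nonpos (by positivity) e1 (by norm_num)
  rw [← Real.rpow_mul hg0.le] at e2
  norm_num at e2 ⊢
  exact e2

theorem fam_const (n : ℕ) {g lam : ℝ} (hg0 : 0 < g) (hg1 : g ≤ 1) (hl : 0 ≤ lam) :
    Fam n g lam (fun _ => g) := by
  refine ⟨fun _ => ⟨le_rfl, hg1⟩, fun _ _ => ?_⟩
  have e1 : 1 ≤ Real.exp lam := Real.one_le_exp hl
  constructor <;> nlinarith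

theorem rho_avg (n : ℕ) [NeZero n] (β h : ℝ) (x : Tor n) {b : Finset (Tor n)} (hb : b.Nonempty) :
    (∑ y ∈ b, rho (edges n) β (fun _ => h) y) / b.card =
      rho (edges n) β (fun _ => h) x := by
  have e1 : ∀ y ∈ b, rho (edges n) β (fun _ => h) y = rho (edges n) β (fun _ => h) x := by
    intro y _
    have := transStmt n β (fun _ => h) x (y - x)
    rw [add_sub_cancel] at this
    exact this.symm
  rw [Finset.sum_congr rfl e1, Finset.sum_const, nsmul_eq_mul]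
  have : (b.card : ℝ) ≠ 0 := by exact_mod_cast hb.card_pos.ne'
  field_simp

/-- one block -/
theorem block {C : ℝ} (hC : 0 < C)
    (hD : ∀ (V : Type) [Fintype V] [DecidableEq V] (L : List (V × V)) (β : ℝ) (h : V → ℝ)
    (b : Finset V), 0 < β → (∀ x, 0 ≤ h x) → b.Nonempty →
    ∃ (ι : Type) (_ : Fintype ι) (μ : ι → ℝ) (r : ι → ℕ), (∀ i, 0 ≤ μ i) ∧
      (∀ i, 2 * r i ≤ b.card) ∧ ∑ i, μ i = 1 ∧
      (∀ P : Polynomial ℝ, ∑ i, μ i * P.eval ((r i : ℝ) * ((b.card : ℝ) - r i + 1)) =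
        gib L β h (Polynomial.aeval (CM b) P)) ∧
      ∀ K κ q : ℝ, 1 ≤ K → 0 < κ → 0 ≤ q → q ≤ 1 / 4 →
        (∃ᶠ N : ℕ in atTop, κ ≤ kap L β N h K b) →
        (∑ x ∈ b, rho L β h x) / b.card ≤ (∑ i, μ i * (r i : ℝ)) / b.card +
          C * (K / κ) * ((∑ i, μ i * (r i : ℝ)) / b.card +
            (1 / K) * Real.log (C * ((∑ i, if (r i : ℝ) < q * b.card then μ i else 0) +
              Real.exp (-(K * q))))))
    {V : Type} [Fintype V] [DecidableEq V] (L : List (V × V)) {β h : ℝ} {b : Finset V}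
    (hβp : 0 < β) (hh0 : 0 < h) (hbne : b.Nonempty)
    {c3 B Lam δ ε K : ℝ} (hc3 : 0 < c3) (hB0 : 0 < B) (hB1 : B ≤ 1 / 4)
    (hδ0 : 0 < δ) (hδ1 : δ ≤ 1 / 2) (hK1 : 1 ≤ K) (hKB : K * B = Lam)
    (hδL : δ ≤ Real.exp (-Lam))
    (hε1 : 4 * (3 * δ + B) * (1 + C / c3) ≤ ε / 2)
    (hε2 : C / c3 * |Real.log (2 * C)| ≤ ε / 2 * Lam)
    (hkap : ∃ᶠ N : ℕ in atTop, c3 * K ≤ kap L β N (fun _ => h) K b)
    (hy : yb L β (fun _ => h) b ≤ (1 + δ) * B)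
    (hTa : ∀ P : Polynomial ℝ, (∀ r : ℕ, 2 * r ≤ b.card →
        P.eval ((r : ℝ) * ((b.card : ℝ) - r + 1)) ≤
          if (r : ℝ) < (1 - δ) * B * b.card then 1 else 0) →
      gib L β (fun _ => h) (Polynomial.aeval (CM b) P) ≤ δ) :
    (∑ x ∈ b, rho L β (fun _ => h) x) / b.card ≤ (1 + ε) * B := by
  have hbc : 0 < b.card := hbne.card_pos
  obtain ⟨ι, hι, μ, r, h0, hr, h1, hmom, hbound⟩ :=
    hD V L β (fun _ => h) b hβp (fun _ => hh0.le) hbne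
  have hbd := hbound K (c3 * K) ((1 - δ) * B) hK1 (by positivity)
    (mul_nonneg (by linarith) hB0.le) (by nlinarith) hkap
  have hM : (∑ i, μ i * ((r i : ℝ) * ((b.card : ℝ) - r i + 1))) / (b.card : ℝ) ^ 2 ≤
      (1 + δ) * B := by
    have e1 := hmom Polynomial.X
    simp only [Polynomial.eval_X, Polynomial.aeval_X] at e1
    unfold yb at hy
    rw [← e1] at hy
    exact hy
  have hT : ∑ i, (if (r i : ℝ) < (1 - δ) * B * b.card then μ i else 0) ≤ δ := by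
    obtain ⟨P, hP⟩ := exists_poly b.card ((1 - δ) * B * b.card)
    have e1 := hTa P (fun s hs => (hP s hs).le)
    rw [← hmom P] at e1
    refine le_trans (le_of_eq ?_) e1
    refine Finset.sum_congr rfl fun i _ => ?_
    rw [hP (r i) (hr i)]
    split_ifs <;> ring
  exact scalar μ r hbc h0 hr h1 hC hc3 hB0 hB1 hδ0 hδ1 (by linarith) hKB hδL hε1 hε2 hM hT hbd

theorem finalStmt3_of (hK : KappaStmt3) (hD : DirSharpStmt3) (hBo : BootStmt3)
    (hMe : MeanStmt3) (hTa : TailStmt3) : FinalStmt3 := by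
  obtain ⟨c2, c3, hc2, hc3, hK⟩ := hK
  obtain ⟨C, hC, hD⟩ := hD
  obtain ⟨C7, βB, hC7, hBo⟩ := hBo
  obtain ⟨d, hd0, hd1, hMe⟩ := hMe
  have hBC := BC_pos
  intro ε hε
  obtain ⟨Lam, δ, hLam1, hLam2, hδ0, hδ1, hδ2, hδ3⟩ := exists_const hC hc3 hε hBC
  obtain ⟨β1, hK⟩ := hK C7 Lam hC7 (by linarith)
  obtain ⟨β2, hMe⟩ := hMe δ hδ0
  obtain ⟨β3, hTa⟩ := hTa d hd0 hd1 δ hδ0
  obtain ⟨β0, hβ0⟩ := eventually_atTop.1
    (large (BC := BC) (Lam := Lam) hC hc2 hc3 hε hd0 hd1)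
  refine ⟨max (max (max β1 β2) (max β3 βB)) (max β0 1), fun β hβ h hh0 hh1 => ?_⟩
  have a0 : max (max β1 β2) (max β3 βB) ≤ β := (le_max_left _ _).trans hβ
  have a0' : max β0 1 ≤ β := (le_max_right _ _).trans hβ
  have a1 : β1 ≤ β := ((le_max_left _ _).trans (le_max_left _ _)).trans a0
  have a2 : β2 ≤ β := ((le_max_right _ _).trans (le_max_left _ _)).trans a0
  have a3 : β3 ≤ β := ((le_max_left _ _).trans (le_max_right _ _)).trans a0
  have a4 : βB ≤ β := ((le_max_right _ _).trans (le_max_right _ _)).trans a0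
  have a5 : 1 ≤ β := (le_max_right _ _).trans a0'
  obtain ⟨⟨a6, a7⟩, a8, a9⟩ := hβ0 β ((le_max_left _ _).trans a0')
  have hβp : 0 < β := by linarith
  obtain ⟨a, ha1, ha2, ha3, ha4⟩ := block_size a5 hd0 a9
  obtain ⟨K, hKdef⟩ : ∃ K : ℝ, K = Lam * β ^ (3 / 2 : ℝ) := ⟨_, rfl⟩
  have hb32 : 1 ≤ β ^ (3 / 2 : ℝ) := Real.one_le_rpow a5 (by norm_num)
  have hK1 : 1 ≤ K := by rw [hKdef]; nlinarith
  have hK2 : K ≤ c2 * β * 3 ^ a := by rw [hKdef]; exact K_le a5 hc2 a8 ha1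
  obtain ⟨B, hB⟩ : ∃ B : ℝ, B = BC * β ^ (-(3 / 2) : ℝ) := ⟨_, rfl⟩
  have hB0 : 0 < B := by rw [hB]; positivity
  rw [← hB] at a6 a7
  have hKB : K * B = Lam * BC := by
    have e1 : β ^ (3 / 2 : ℝ) * β ^ (-(3 / 2) : ℝ) = 1 := by
      rw [← Real.rpow_add hβp]; norm_num
    rw [hKdef, hB]
    linear_combination (Lam * BC) * e1
  have hg0 : 0 < β * h := by positivity
  have hg1 : β * h ≤ 1 := g_le a5 hh1
  obtain ⟨n1, hK⟩ := hK β a1
  obtain ⟨n2, hBo⟩ := hBo β a4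
  obtain ⟨n3, hMe⟩ := hMe β a2 a ha1 ha2 h hh0 hh1
  obtain ⟨n4, hTa⟩ := hTa β a3 a ha1 ha2 h hh0 hh1
  obtain ⟨n5, hn5⟩ := exists_nat_ge ((β * h) ^ (-(4 : ℝ)))
  refine ⟨max (max n1 n2) (max (max n3 n4) n5), fun n _ hn hodd x => ?_⟩
  have hn1 : n1 ≤ n := by omega
  have hn2 : n2 ≤ n := by omega
  have hn3 : n3 ≤ n := by omega
  have hn4 : n4 ≤ n := by omega
  have hn5' : n5 ≤ n := by omega
  have hg2 : (n : ℝ) ^ (-(1 / 4) : ℝ) ≤ β * h :=
    n_le hg0 (hn5.trans (by exact_mod_cast hn5'))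
  have hBH : BH3 n β (C7 * β ^ (-(3 / 2) : ℝ)) (β * h) := hBo n hn2 hodd (β * h) hg2 hg1
  have hkap := hK n hn1 hodd a ha3 ha4 K hK1 (by rw [hKdef]) hK2 (β * h) hg2 hg1 hBH _
    (fam_const n hg0 hg1 (by positivity)) x
  have hfield : (fun y : Tor n => (fun _ : Tor n => β * h) y / β) = fun _ => h := by
    funext y
    exact mul_div_cancel_left₀ h hβp.ne'
  rw [hfield] at hkap
  have hbne : (cube n x (3 ^ a)).Nonempty := by
    unfold cube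
    exact ⟨_, Finset.mem_image.2 ⟨fun _ => ⟨0, by positivity⟩, Finset.mem_univ _, rfl⟩⟩
  have hy := hMe n hn3 hodd x
  rw [mul_assoc, ← hB] at hy
  have hta := hTa n hn4 hodd x
  have e2 : (1 - δ) * BC * β ^ (-(3 / 2) : ℝ) = (1 - δ) * B := by rw [hB]; ring
  rw [e2] at hta
  have hres := block hC hD (edges n) hβp hh0 hbne hc3 hB0 a6 hδ0 hδ1 hK1 hKB hδ2 (ε := ε)
    (by linarith) hLam2 hkap hy hta
  rw [rho_avg n β h x hbne] at hres
  rw [mul_assoc, ← hB]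
  exact hres

end

end Vale.Agent.P361.LRO.S3H
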