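import Vale.Agent.P361.LRO.S3.Iface
import Vale.Agent.P361.LRO.Fin.Main
import Vale.Agent.P361.BridgeC

/-!
P361, stage 3, LIM: from the densities on the torus at small uniform fields (`FinalStmt3`) and
Bloch's law as a lower bound (`main_bloch`) to the limit
`β^{3/2} (1/2 - spontMag 1 β) → BC`.
-/

namespace Vale.Agent.P361.LRO.S3

open Finset Matrix Filter Topology

/-- As `spontMag_ge`, pointwise in the field: for every small field `h` the torus magnetization
per site is at least `m₀` for all large `N` (depending on `h`). -/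
theorem spontMag_ge_ptwise (n : ℕ) {β : ℝ} (hβ : 0 < β) {m₀ h₀ : ℝ} (hh₀ : 0 < h₀)
    (H : ∀ h : ℝ, 0 < h → h ≤ h₀ → ∀ᶠ N : ℕ in atTop,
      m₀ ≤ gibbsMagV n (torusAdj (2 * N + 1)) β h / (2 * N + 1) ^ 3) :
    m₀ ≤ Model.spontMag n β := by
  have key : ∀ h₁ h₂ : ℝ, 0 < h₁ → h₁ ≤ h₂ → h₂ ≤ h₀ →
      Model.pressure n β h₁ + (h₂ - h₁) * m₀ ≤ Model.pressure n β h₂ := by
    intro h₁ h₂ h0 h12 h21
    have t1 := (pressTorus_tendsto n hβ h₁).add_const ((h₂ - h₁) * m₀)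
    have t2 := pressTorus_tendsto n hβ h₂
    refine le_of_tendsto_of_tendsto t1 t2 ?_
    filter_upwards [H h₁ h0 (h12.trans h21), eventually_ge_atTop 1] with N h4 hN1
    have h3 := pressTorus_support n N hN1 hβ h₁ h₂
    have h5 := mul_le_mul_of_nonneg_left h4 (by linarith : (0 : ℝ) ≤ h₂ - h₁)
    linarith
  have hconv : ConvexOn ℝ Set.univ (Model.pressure n β) := pressure_convex n hβ
  have hcont : Continuous (Model.pressure n β) := by
    have := hconv.continuousOn isOpen_univ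
    rwa [continuousOn_univ] at this
  have key0 : ∀ h₂ : ℝ, 0 < h₂ → h₂ ≤ h₀ →
      Model.pressure n β 0 + h₂ * m₀ ≤ Model.pressure n β h₂ := by
    intro h₂ h20 h21
    have t1 : Tendsto (fun h₁ => Model.pressure n β h₁ + (h₂ - h₁) * m₀) (𝓝[>] 0)
        (𝓝 (Model.pressure n β 0 + (h₂ - 0) * m₀)) := by
      have : Continuous fun h₁ => Model.pressure n β h₁ + (h₂ - h₁) * m₀ := by fun_prop
      exact this.continuousWithinAt.tendsto
    rw [sub_zero] at t1
    refine le_of_tendsto t1 ?_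
    filter_upwards [Ioc_mem_nhdsGT h20] with h₁ hh
    exact key h₁ h₂ hh.1 hh.2 h21
  have hder : HasDerivWithinAt (Model.pressure n β) (Model.spontMag n β) (Set.Ioi 0) 0 :=
    spontMag_hasDeriv n hβ
  rw [hasDerivWithinAt_iff_tendsto_slope' (by simp)] at hder
  refine ge_of_tendsto hder ?_
  filter_upwards [Ioc_mem_nhdsGT hh₀] with h hh
  rw [slope_def_field, sub_zero, le_div_iff₀ hh.1]
  linarith [key0 h hh.1 hh.2]

/-- Small densities on large tori at every field `0 < h ≤ h₀` (the size of the torus may depend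
on the field). -/
theorem spontMag_ge_of_rho_ptwise {β η h₀ : ℝ} (hβ : 0 < β) (hh₀ : 0 < h₀)
    (H : ∀ h : ℝ, 0 < h → h ≤ h₀ → ∃ n0 : ℕ, ∀ (n : ℕ) [NeZero n], n0 ≤ n → Odd n →
      ∀ x : Tor n, rho (edges n) β (fun _ => h) x ≤ η) :
    1 / 2 - η ≤ Model.spontMag 1 β := by
  refine spontMag_ge_ptwise 1 hβ hh₀ fun h hh hh1 => ?_
  obtain ⟨n0, hn0⟩ := H h hh hh1
  filter_upwards [eventually_ge_atTop (max n0 1)] with N hN
  have hN1 : 1 ≤ N := le_trans (le_max_right _ _) hN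
  have hN0 : n0 ≤ 2 * N + 1 := by
    have := le_trans (le_max_left _ _) hN
    omega
  have hodd : Odd (2 * N + 1) := ⟨N, rfl⟩
  have h2 := hn0 (2 * N + 1) hN0 hodd
  rw [gibbsMagV_eq (by omega) β h]
  have hcard : (Fintype.card (Tor (2 * N + 1)) : ℝ) = (2 * (N : ℝ) + 1) ^ 3 := by
    rw [Fintype.card_fun, ZMod.card, Fintype.card_fin]
    push_cast
    ring
  rw [le_div_iff₀ (by positivity), ← hcard, mul_comm, ← nsmul_eq_mul, ← Finset.card_univ]
  refine Finset.card_nsmul_le_sum _ _ _ fun x _ => ?_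
  linarith [h2 x]

/-- The upper bound of Bloch's law. -/
theorem bloch_upper_of_final (hF : FinalStmt3) (ε : ℝ) (hε : 0 < ε) :
    ∀ᶠ β : ℝ in atTop,
      β ^ (3 / 2 : ℝ) * (1 / 2 - Model.spontMag 1 β) ≤ (1 + ε) * BC := by
  obtain ⟨β0, H⟩ := hF ε hε
  filter_upwards [eventually_ge_atTop β0, eventually_gt_atTop (0 : ℝ)] with β hβ hβp
  have h1 : 1 / 2 - (1 + ε) * BC * β ^ (-(3 / 2) : ℝ) ≤ Model.spontMag 1 β :=
    spontMag_ge_of_rho_ptwise hβp (Real.rpow_pos_of_pos hβp (-(10 : ℝ)))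
      fun h hh hh1 => H β hβ h hh hh1
  have h2 : 1 / 2 - Model.spontMag 1 β ≤ (1 + ε) * BC * β ^ (-(3 / 2) : ℝ) := by linarith
  have h3 := mul_le_mul_of_nonneg_left h2 (Real.rpow_pos_of_pos hβp (3 / 2 : ℝ)).le
  refine h3.trans (le_of_eq ?_)
  have h4 : β ^ (3 / 2 : ℝ) * β ^ (-(3 / 2) : ℝ) = 1 := by
    rw [← Real.rpow_add hβp]
    norm_num
  calc β ^ (3 / 2 : ℝ) * ((1 + ε) * BC * β ^ (-(3 / 2) : ℝ))
      = (1 + ε) * BC * (β ^ (3 / 2 : ℝ) * β ^ (-(3 / 2) : ℝ)) := by ring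
    _ = (1 + ε) * BC := by rw [h4, mul_one]

/-- **LIM**: Bloch's law for spin `1/2` from `FinalStmt3`. -/
theorem bloch_of_final (hF : FinalStmt3) :
    Tendsto (fun β : ℝ => β ^ (3 / 2 : ℝ) * (1 / 2 - Model.spontMag 1 β)) atTop (𝓝 BC) := by
  refine tendsto_order.2 ⟨fun c hc => ?_, fun c hc => ?_⟩
  · have h1 := Bridge.main_bloch 1 le_rfl c (by
      simpa only [BC, Nat.cast_one] using hc)
    simpa only [Nat.cast_one] using h1
  · have hd : 0 < c - BC := sub_pos.2 hc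
    have hp : 0 < 2 * (|BC| + 1) := by positivity
    have hε : 0 < (c - BC) / (2 * (|BC| + 1)) := div_pos hd hp
    filter_upwards [bloch_upper_of_final hF _ hε] with β hβ
    refine hβ.trans_lt ?_
    have h1 : (c - BC) / (2 * (|BC| + 1)) * BC ≤ (c - BC) / 2 := by
      have h2 : BC ≤ |BC| + 1 := (le_abs_self _).trans (by linarith)
      calc (c - BC) / (2 * (|BC| + 1)) * BC ≤ (c - BC) / (2 * (|BC| + 1)) * (|BC| + 1) :=
            mul_le_mul_of_nonneg_left h2 hε.le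
        _ = (c - BC) / 2 := by
            have : |BC| + 1 ≠ 0 := by positivity
            field_simp
    linarith

/-- Everything about the zero-field limit for spin `1/2`, given `FinalStmt3`. -/
theorem result_of_final (hF : FinalStmt3) :
    Tendsto (fun β : ℝ => β ^ (3 / 2 : ℝ) * (1 / 2 - Model.spontMag 1 β)) atTop
      (𝓝 ((riemannZeta (3 / 2)).re / (8 * Real.pi ^ (3 / 2 : ℝ) * (1 / 2 : ℝ) ^ (3 / 2 : ℝ)))) :=
  bloch_of_final hF

end Vale.Agent.P361.LRO.S3
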