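import Vale.Agent.P361.LRO.S3.Hc
import Vale.Agent.P361.B.LowPart
import Vale.Agent.P361.B.Diag

/-!
P361 stage 3, block (M), (V1): trace of `exp (- hcM a)` against free bosons.
-/

set_option linter.unusedSectionVars false

namespace Vale.Agent.P361.LRO.S3.Fock

open Finset Matrix Vale.Agent.P361.B

noncomputable section

variable {V : Type} [Fintype V] [DecidableEq V]

/-- Extension by zero. -/
def ext (f : (V → Fin 2) → ℝ) (ζ : V → ℕ) : ℝ :=
  if h : ∀ x, ζ x ≤ 1 then f (fun x => ⟨ζ x, Nat.lt_succ_of_le (h x)⟩) else 0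

/-- Occupation numbers. -/
def val (σ : V → Fin 2) (x : V) : ℕ := (σ x : ℕ)

theorem ext_val (f : (V → Fin 2) → ℝ) (σ : V → Fin 2) : ext f (val σ) = f σ := by
  unfold ext
  have h : ∀ x, val σ x ≤ 1 := fun x => Nat.lt_succ_iff.1 (σ x).2
  rw [dif_pos h]
  rfl

theorem ext_out (f : (V → Fin 2) → ℝ) (ζ : V → ℕ) (h : ζ ∉ occBox V 1) : ext f ζ = 0 := by
  unfold ext
  rw [mem_occBox] at h
  rw [dif_neg h]

theorem sum_occBox (G : (V → ℕ) → ℝ) :
    ∑ ζ ∈ occBox V 1, G ζ = ∑ σ : V → Fin 2, G (val σ) := by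
  symm
  refine Finset.sum_bij' (fun σ _ => val σ)
    (fun ζ hζ => fun x => ⟨ζ x, Nat.lt_succ_of_le (mem_occBox.1 hζ x)⟩) ?_ ?_ ?_ ?_ ?_
  · intro σ _
    rw [mem_occBox]
    exact fun x => Nat.lt_succ_iff.1 (σ x).2
  · intro ζ _; exact Finset.mem_univ _
  · intro σ _; rfl
  · intro ζ _; rfl
  · intro σ _; rfl

theorem aM_ext (x : V) (f : (V → Fin 2) → ℝ) (σ : V → Fin 2) :
    (aM x *ᵥ f) σ = Real.sqrt ((val σ x : ℝ) + 1) * ext f (val σ + Pi.single x 1) := by
  rw [aM_mulVec]
  by_cases h : σ x = 0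
  · rw [if_pos h]
    have h1 : val σ x = 0 := by rw [val, h]; rfl
    have h2 : val σ + Pi.single x 1 = val (Function.update σ x 1) := by
      funext z
      by_cases hz : z = x
      · subst hz
        rw [Pi.add_apply, Pi.single_eq_same, h1, val, Function.update_self]
        rfl
      · rw [Pi.add_apply, Pi.single_eq_of_ne hz, add_zero, val, val, Function.update_of_ne hz]
    rw [h2, ext_val, h1]
    simp
  · rw [if_neg h, ext_out, mul_zero]
    rw [mem_occBox]
    push Not
    refine ⟨x, ?_⟩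
    have h1 : val σ x = 1 := by rw [val, fin2_ne h]; rfl
    rw [Pi.add_apply, Pi.single_eq_same, h1]
    norm_num

/-- Bilinear version of `hop_sum`. -/
theorem hop_bil {n N : ℕ} (ψ : (V → ℕ) → ℝ) (h1 : ∀ ζ, ζ ∉ occBox V n → ψ ζ = 0)
    (h2 : ∀ ζ, ∑ v, ζ v ≠ N + 1 → ψ ζ = 0) (v w : V) :
    ∑ σ ∈ occBox V n, (Real.sqrt ((σ v : ℝ) + 1) * ψ (σ + Pi.single v 1)) *
      (Real.sqrt ((σ w : ℝ) + 1) * ψ (σ + Pi.single w 1)) =
    (N + 1 : ℝ) * ∑ x : Fin N → V, wf (N + 1) ψ (Fin.cons v x) *
      wf (N + 1) ψ (Fin.cons w x) := by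
  have hout : ∀ ζ : V → ℕ, ζ ∉ occBox V n → ∀ v, ψ (ζ + Pi.single v 1) = 0 := by
    intro ζ hζ v
    apply h1
    rw [mem_occBox] at hζ ⊢
    push Not at hζ ⊢
    obtain ⟨x, hx⟩ := hζ
    refine ⟨x, ?_⟩
    rw [Pi.add_apply]; omega
  have hsec : ∀ ζ : V → ℕ, ∑ u, ζ u ≠ N → ∀ v, ψ (ζ + Pi.single v 1) = 0 := by
    intro ζ hζ v
    apply h2
    simp only [Pi.add_apply, Finset.sum_add_distrib]
    rw [Finset.sum_pi_single']
    simp [hζ]
  refine (fiber_sum n N (fun σ => (Real.sqrt ((σ v : ℝ) + 1) * ψ (σ + Pi.single v 1)) *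
      (Real.sqrt ((σ w : ℝ) + 1) * ψ (σ + Pi.single w 1)))
      (fun ζ hζ => by simp only [hout ζ hζ]; simp)
      (fun ζ hζ => by simp only [hsec ζ hζ]; simp)).symm.trans ?_
  rw [Finset.mul_sum]
  refine Finset.sum_congr rfl fun x _ => ?_
  have hc := cnt_occ_pos x
  have hwf : ∀ u, Real.sqrt (N + 1 : ℝ) * wf (N + 1) ψ (Fin.cons u x) =
      Real.sqrt ((occ x u : ℝ) + 1) * ψ (occ x + Pi.single u 1) / Real.sqrt (cnt N (occ x)) := by
    intro u
    rw [wf, occ_cons]
    have hc2 : (0 : ℝ) < cnt (N + 1) (occ x + Pi.single u 1) := by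
      rw [← occ_cons]; exact cnt_occ_pos _
    have h3 : (cnt (N + 1) (occ x + Pi.single u 1) : ℝ) * ((occ x u : ℝ) + 1) =
        ((N : ℝ) + 1) * cnt N (occ x) := by exact_mod_cast cnt_succ N (occ x) u
    have h4 : Real.sqrt (cnt (N + 1) (occ x + Pi.single u 1)) * Real.sqrt ((occ x u : ℝ) + 1) =
        Real.sqrt ((N : ℝ) + 1) * Real.sqrt (cnt N (occ x)) := by
      rw [← Real.sqrt_mul hc2.le, h3, Real.sqrt_mul (by positivity)]
    have h5 : 0 < Real.sqrt (cnt (N + 1) (occ x + Pi.single u 1)) := Real.sqrt_pos.2 hc2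
    have h6 : 0 < Real.sqrt (cnt N (occ x)) := Real.sqrt_pos.2 hc
    rw [mul_div_assoc', div_eq_div_iff h5.ne' h6.ne']
    calc _ = (Real.sqrt ((N : ℝ) + 1) * Real.sqrt (cnt N (occ x))) * ψ (occ x + Pi.single u 1) := by
          ring
      _ = _ := by rw [← h4]; ring
  have h7 : (N + 1 : ℝ) * (wf (N + 1) ψ (Fin.cons v x) * wf (N + 1) ψ (Fin.cons w x)) =
      (Real.sqrt (N + 1 : ℝ) * wf (N + 1) ψ (Fin.cons v x)) *
        (Real.sqrt (N + 1 : ℝ) * wf (N + 1) ψ (Fin.cons w x)) := by
    have := Real.mul_self_sqrt (show (0 : ℝ) ≤ N + 1 by positivity)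
    calc _ = (Real.sqrt (N + 1 : ℝ) * Real.sqrt (N + 1 : ℝ)) *
          (wf (N + 1) ψ (Fin.cons v x) * wf (N + 1) ψ (Fin.cons w x)) := by rw [this]
      _ = _ := by ring
  rw [h7, hwf, hwf, div_mul_div_comm, Real.mul_self_sqrt hc.le]

/-- The one-particle data: orthonormal basis `e`, eigenvalues `al`. -/
structure Orth (e : V → V → ℝ) : Prop where
  compl : ∀ x y, ∑ k, e k x * e k y = if x = y then 1 else 0
  orth : ∀ k l, ∑ x, e k x * e l x = if k = l then 1 else 0

/-- A graph without edges has every orthonormal basis as a spectral basis. -/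
theorem Orth.spec {e : V → V → ℝ} (h : Orth e) : Spec (fun _ _ : V => False) e (fun _ => 0) where
  eig := by intro k x; simp
  compl := h.compl
  orth := h.orth

/-- Sum of the one-particle energies. -/
def boE (al : V → ℝ) (m : V → ℕ) : ℝ := ∑ v, al v * m v

theorem boE_occ {N : ℕ} (al : V → ℝ) (k : Fin N → V) : boE al (occ k) = ∑ i, al (k i) :=
  sum_lam_occ k

theorem form_eq {N : ℕ} {e : V → V → ℝ} (he : Orth e) (al : V → ℝ) {f : (V → Fin 2) → ℝ}
    (h2 : ∀ ζ, ∑ v, ζ v ≠ N → ext f ζ = 0) :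
    f ⬝ᵥ (hcM (fun u v => ∑ k, al k * (e k u * e k v)) *ᵥ f) =
      ∑ k : Fin N → V, boE al (occ k) * four e (wf N (ext f)) k ^ 2 := by
  have h1 : ∀ ζ, ζ ∉ occBox V 1 → ext f ζ = 0 := fun ζ hζ => ext_out f ζ hζ
  rw [hcM_form]
  have h3 : ∀ x y, ∑ σ, (aM x *ᵥ f) σ * (aM y *ᵥ f) σ =
      ∑ σ ∈ occBox V 1, (Real.sqrt ((σ x : ℝ) + 1) * ext f (σ + Pi.single x 1)) *
        (Real.sqrt ((σ y : ℝ) + 1) * ext f (σ + Pi.single y 1)) := by
    intro x y
    rw [sum_occBox]
    exact Finset.sum_congr rfl fun σ _ => by rw [aM_ext, aM_ext]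
  simp only [h3]
  rcases N with _ | N
  · have h4 : ∀ (σ : V → ℕ) v, ext f (σ + Pi.single v 1) = 0 := by
      intro σ v
      apply h2
      simp only [Pi.add_apply, Finset.sum_add_distrib]
      rw [Finset.sum_pi_single']
      simp
    simp only [h4, mul_zero, Finset.sum_const_zero]
    symm
    refine Finset.sum_eq_zero fun k _ => ?_
    rw [boE_occ]; simp
  · simp only [hop_bil (ext f) h1 h2]
    set F := wf (N + 1) (ext f) with hF
    have h4 : ∑ x, ∑ y, (∑ k, al k * (e k x * e k y)) * ((N + 1 : ℝ) *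
        ∑ z : Fin N → V, F (Fin.cons x z) * F (Fin.cons y z)) =
        (N + 1 : ℝ) * ∑ k, al k * ∑ z : Fin N → V, (∑ v, e k v * F (Fin.cons v z)) ^ 2 := by
      have h5 : ∀ (k : V) (z : Fin N → V), (∑ v, e k v * F (Fin.cons v z)) ^ 2 =
          ∑ x, ∑ y, (e k x * e k y) * (F (Fin.cons x z) * F (Fin.cons y z)) := by
        intro k z
        rw [sq, Finset.sum_mul_sum]
        exact Finset.sum_congr rfl fun x _ => Finset.sum_congr rfl fun y _ => by ring
      simp only [h5]
      calc _ = ∑ x, ∑ y, ∑ k, ∑ z : Fin N → V, (N + 1 : ℝ) * (al k * ((e k x * e k y) *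
            (F (Fin.cons x z) * F (Fin.cons y z)))) := by
            refine Finset.sum_congr rfl fun x _ => Finset.sum_congr rfl fun y _ => ?_
            rw [Finset.sum_mul]
            refine Finset.sum_congr rfl fun k _ => ?_
            rw [Finset.mul_sum, Finset.mul_sum]
            exact Finset.sum_congr rfl fun z _ => by ring
        _ = ∑ k, ∑ z : Fin N → V, ∑ x, ∑ y, (N + 1 : ℝ) * (al k * ((e k x * e k y) *
            (F (Fin.cons x z) * F (Fin.cons y z)))) := by
            have s1 : ∀ x, ∑ y, ∑ k, ∑ z : Fin N → V, (N + 1 : ℝ) * (al k * ((e k x * e k y) *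
                (F (Fin.cons x z) * F (Fin.cons y z)))) = ∑ k, ∑ z : Fin N → V, ∑ y,
                (N + 1 : ℝ) * (al k * ((e k x * e k y) *
                (F (Fin.cons x z) * F (Fin.cons y z)))) := by
              intro x
              rw [Finset.sum_comm]
              exact Finset.sum_congr rfl fun k _ => Finset.sum_comm
            simp only [s1]
            rw [Finset.sum_comm]
            exact Finset.sum_congr rfl fun k _ => Finset.sum_comm
        _ = _ := by
            rw [Finset.mul_sum]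
            refine Finset.sum_congr rfl fun k _ => ?_
            rw [Finset.mul_sum, Finset.mul_sum]
            refine Finset.sum_congr rfl fun z _ => ?_
            rw [Finset.mul_sum, Finset.mul_sum]
            refine Finset.sum_congr rfl fun x _ => ?_
            rw [Finset.mul_sum, Finset.mul_sum]
    rw [h4]
    have h7 : ∑ k, al k * ∑ z : Fin N → V, (∑ v, e k v * F (Fin.cons v z)) ^ 2 =
        ∑ k : Fin (N + 1) → V, al (k 0) * four e F k ^ 2 := by
      rw [← (Fin.consEquiv fun _ => V).sum_comp, Fintype.sum_prod_type]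
      refine Finset.sum_congr rfl fun k0 _ => ?_
      have h8 := parseval he.spec (fun x : Fin N → V => ∑ v, e k0 v * F (Fin.cons v x))
      rw [← h8, Finset.mul_sum]
      refine Finset.sum_congr rfl fun k _ => ?_
      change _ = al ((Fin.cons k0 k : Fin (N + 1) → V) 0) *
        four e F (Fin.cons k0 k) ^ 2
      rw [four_cons, Fin.cons_zero]
    rw [h7]
    have h9 : ∀ i : Fin (N + 1), ∑ k : Fin (N + 1) → V, al (k i) * four e F k ^ 2 =
        ∑ k : Fin (N + 1) → V, al (k 0) * four e F k ^ 2 := by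
      intro i
      rw [← (Equiv.arrowCongr (Equiv.swap 0 i) (Equiv.refl V)).sum_comp]
      refine Finset.sum_congr rfl fun k _ => ?_
      have e1 : (Equiv.arrowCongr (Equiv.swap 0 i) (Equiv.refl V)) k = k ∘ Equiv.swap 0 i := by
        ext j; simp [Equiv.arrowCongr]
      rw [e1, hF, four_perm he.spec _ (wf_perm (ext f))]
      simp
    have h10 : ∑ k : Fin (N + 1) → V, boE al (occ k) * four e F k ^ 2 =
        ∑ i : Fin (N + 1), ∑ k : Fin (N + 1) → V, al (k i) * four e F k ^ 2 := by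
      rw [Finset.sum_comm]
      refine Finset.sum_congr rfl fun k _ => ?_
      rw [boE_occ, ← Finset.sum_mul]
    rw [h10]
    simp only [h9]
    rw [Finset.sum_const, Finset.card_univ, Fintype.card_fin, nsmul_eq_mul]
    push_cast
    ring

theorem inner_ext (f g : (V → Fin 2) → ℝ) :
    ∑ ζ ∈ occBox V 1, ext f ζ * ext g ζ = ∑ σ, f σ * g σ := by
  rw [sum_occBox]
  exact Finset.sum_congr rfl fun σ _ => by rw [ext_val, ext_val]

/-- Peierls' inequality against free bosons, one sector. -/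
theorem peierls_gen {ι : Type*} {N : ℕ} {e : V → V → ℝ} (he : Orth e) (al : V → ℝ)
    (I : Finset ι) (E : ι → ℝ) (f : ι → (V → Fin 2) → ℝ)
    (hsec : ∀ i ∈ I, ∀ ζ, ∑ v, ζ v ≠ N → ext (f i) ζ = 0)
    (hnorm : ∀ i ∈ I, ∑ σ, f i σ * f i σ = 1)
    (horth : ∀ i ∈ I, ∀ j ∈ I, i ≠ j → ∑ σ, f i σ * f j σ = 0)
    (hE : ∀ i ∈ I, f i ⬝ᵥ (hcM (fun u v => ∑ k, al k * (e k u * e k v)) *ᵥ f i) = E i) :
    ∑ i ∈ I, Real.exp (-(E i)) ≤ ∑ m ∈ occImg V N, Real.exp (-(boE al m)) := by
  classical
  set w : ι → (V → ℕ) → ℝ := fun i m =>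
    ∑ k : Fin N → V, if occ k = m then four e (wf N (ext (f i))) k ^ 2 else 0 with hw
  have hw0 : ∀ i m, 0 ≤ w i m := fun i m =>
    Finset.sum_nonneg fun k _ => by split_ifs <;> positivity
  have hfib : ∀ (i : ι) (g : (V → ℕ) → ℝ), ∑ m ∈ occImg V N, g m * w i m =
      ∑ k : Fin N → V, g (occ k) * four e (wf N (ext (f i))) k ^ 2 := by
    intro i g
    simp only [hw, Finset.mul_sum]
    rw [Finset.sum_comm]
    refine Finset.sum_congr rfl fun k _ => ?_
    rw [Finset.sum_eq_single (occ k)]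
    · rw [if_pos rfl]
    · intro m _ hm
      rw [if_neg (Ne.symm hm), mul_zero]
    · intro hk
      exact absurd (Finset.mem_image_of_mem _ (Finset.mem_univ k)) hk
  have hsq : ∀ i ∈ I, ∑ x, wf N (ext (f i)) x ^ 2 = 1 := by
    intro i hi
    have h2 := wf_inner (n := 1) (ψ₁ := ext (f i)) (ψ₂ := ext (f i)) (N := N)
      (fun ζ hζ => ext_out _ ζ hζ) (hsec i hi)
    have h3 : ∑ x, wf N (ext (f i)) x ^ 2 = ∑ x, wf N (ext (f i)) x * wf N (ext (f i)) x :=
      Finset.sum_congr rfl fun x _ => by ring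
    rw [h3, h2, inner_ext, hnorm i hi]
  have hone : ∀ i ∈ I, ∑ m ∈ occImg V N, w i m = 1 := by
    intro i hi
    have h1 := hfib i (fun _ => 1)
    simp only [one_mul] at h1
    rw [h1, parseval he.spec, hsq i hi]
  have hle : ∀ m ∈ occImg V N, ∑ i ∈ I, w i m ≤ 1 := by
    intro m hm
    obtain ⟨k0, _, hk0⟩ := Finset.mem_image.1 hm
    have hc : (0 : ℝ) < cnt N m := by rw [← hk0]; exact cnt_occ_pos k0
    have hwm : ∀ i, w i m = cnt N m * four e (wf N (ext (f i))) k0 ^ 2 := by
      intro i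
      simp only [hw]
      rw [cnt_eq_sum]
      push_cast
      rw [Finset.sum_mul]
      refine Finset.sum_congr rfl fun k _ => ?_
      split_ifs with hk
      · rw [one_mul, four_occ he.spec _ (wf_perm (ext (f i))) (hk.trans hk0.symm)]
      · rw [zero_mul]
    set Φ : (Fin N → V) → ℝ := fun x => ∑ k : Fin N → V, if occ k = m then tens e k x else 0 with hΦ
    have hΦF : ∀ i, ∑ x, Φ x * wf N (ext (f i)) x = cnt N m * four e (wf N (ext (f i))) k0 := by
      intro i
      simp only [hΦ, Finset.sum_mul]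
      rw [Finset.sum_comm, cnt_eq_sum]
      push_cast
      rw [Finset.sum_mul]
      refine Finset.sum_congr rfl fun k _ => ?_
      by_cases hk : occ k = m
      · simp only [if_pos hk, one_mul]
        rw [four_occ he.spec _ (wf_perm (ext (f i))) (hk0.trans hk.symm)]
        rfl
      · simp only [if_neg hk, zero_mul, Finset.sum_const_zero]
    have hΦ2 : ∑ x, Φ x ^ 2 = cnt N m := by
      have h1 : ∀ x, Φ x ^ 2 = ∑ k : Fin N → V, ∑ l : Fin N → V,
          (if occ k = m then (1 : ℝ) else 0) * (if occ l = m then (1 : ℝ) else 0) *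
            (tens e k x * tens e l x) := by
        intro x
        rw [sq]
        simp only [hΦ]
        rw [Finset.sum_mul_sum]
        refine Finset.sum_congr rfl fun k _ => Finset.sum_congr rfl fun l _ => ?_
        by_cases hk : occ k = m <;> by_cases hl : occ l = m <;> simp [hk, hl]
      simp only [h1]
      rw [Finset.sum_comm, cnt_eq_sum]
      push_cast
      refine Finset.sum_congr rfl fun k _ => ?_
      rw [Finset.sum_comm]
      simp only [← Finset.mul_sum, tens_orth he.spec]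
      rw [Finset.sum_eq_single k]
      · by_cases hk : occ k = m <;> simp [hk]
      · intro l _ hl
        rw [if_neg (Ne.symm hl), mul_zero]
      · simp
    have hb := bessel I (fun i => wf N (ext (f i))) Φ hsq
      (fun i hi j hj hij => by
        rw [wf_inner (n := 1) (ψ₁ := ext (f i)) (ψ₂ := ext (f j)) (N := N)
          (fun ζ hζ => ext_out _ ζ hζ) (hsec i hi), inner_ext]
        exact horth i hi j hj hij)
    rw [hΦ2] at hb
    simp only [hΦF] at hb
    have h4 : ∑ i ∈ I, ((cnt N m : ℝ) * four e (wf N (ext (f i))) k0) ^ 2 =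
        cnt N m * ∑ i ∈ I, w i m := by
      rw [Finset.mul_sum]
      exact Finset.sum_congr rfl fun i _ => by rw [hwm]; ring
    rw [h4] at hb
    by_contra hcon
    push Not at hcon
    have : (cnt N m : ℝ) * 1 < cnt N m * ∑ i ∈ I, w i m := mul_lt_mul_of_pos_left hcon hc
    linarith
  have hterm : ∀ i ∈ I, Real.exp (-(E i)) ≤
      ∑ m ∈ occImg V N, w i m * Real.exp (-(boE al m)) := by
    intro i hi
    have h1 : E i = ∑ m ∈ occImg V N, boE al m * w i m := by
      rw [hfib, ← hE i hi, form_eq he al (hsec i hi)]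
    have h2 : Real.exp (∑ m ∈ occImg V N, w i m * (-(boE al m))) ≤
        ∑ m ∈ occImg V N, w i m * Real.exp (-(boE al m)) := by
      have := convexOn_exp.map_sum_le (t := occImg V N) (w := w i)
        (p := fun m => -(boE al m)) (fun m _ => hw0 i m) (hone i hi)
        (fun m _ => Set.mem_univ _)
      simpa [smul_eq_mul] using this
    have h3 : ∑ m ∈ occImg V N, w i m * (-(boE al m)) = -(E i) := by
      rw [h1, ← Finset.sum_neg_distrib]
      exact Finset.sum_congr rfl fun m _ => by ring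
    rwa [h3] at h2
  calc ∑ i ∈ I, Real.exp (-(E i))
      ≤ ∑ i ∈ I, ∑ m ∈ occImg V N, w i m * Real.exp (-(boE al m)) :=
        Finset.sum_le_sum hterm
    _ = ∑ m ∈ occImg V N, (∑ i ∈ I, w i m) * Real.exp (-(boE al m)) := by
        rw [Finset.sum_comm]
        exact Finset.sum_congr rfl fun m _ => by rw [Finset.sum_mul]
    _ ≤ _ := by
        refine Finset.sum_le_sum fun m hm => ?_
        calc (∑ i ∈ I, w i m) * Real.exp (-(boE al m))
            ≤ 1 * Real.exp (-(boE al m)) :=
              mul_le_mul_of_nonneg_right (hle m hm) (Real.exp_pos _).le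
          _ = _ := one_mul _

/-- Sum over all occupation numbers of the free bosons. -/
theorem boson_sum_le (al : V → ℝ) (hal : ∀ k, 0 < al k) (N1 : ℕ) :
    ∑ N ∈ Finset.range (N1 + 1), ∑ m ∈ occImg V N, Real.exp (-(boE al m)) ≤
      ∏ k, (1 - Real.exp (-(al k)))⁻¹ := by
  classical
  set q : V → ℝ := fun v => Real.exp (-(al v)) with hq
  have hq0 : ∀ v, 0 ≤ q v := fun v => (Real.exp_pos _).le
  have hq1 : ∀ v, q v < 1 := by
    intro v
    simp only [hq]
    rw [Real.exp_lt_one_iff]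
    linarith [hal v]
  have hterm : ∀ m : V → ℕ, Real.exp (-(boE al m)) = ∏ v, q v ^ m v := by
    intro m
    have : ∏ v, q v ^ (m v) = Real.exp (∑ v, (m v : ℝ) * (-(al v))) := by
      rw [Real.exp_sum]
      exact Finset.prod_congr rfl fun v _ => by rw [← Real.exp_nat_mul]
    rw [this, boE, ← Finset.sum_neg_distrib]
    congr 1
    exact Finset.sum_congr rfl fun v _ => by ring
  simp only [hterm]
  have hdisj : ∀ a ∈ Finset.range (N1 + 1), ∀ c ∈ Finset.range (N1 + 1), a ≠ c →
      Disjoint (occImg V a) (occImg V c) := by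
    intro a _ c _ hac
    rw [Finset.disjoint_left]
    intro m hma hmc
    obtain ⟨k, _, hk⟩ := Finset.mem_image.1 hma
    obtain ⟨l, _, hl⟩ := Finset.mem_image.1 hmc
    apply hac
    rw [← sum_occ k, ← sum_occ l, hk, hl]
  rw [← Finset.sum_biUnion hdisj]
  calc ∑ m ∈ (Finset.range (N1 + 1)).biUnion (fun N => occImg V N), ∏ v, q v ^ m v
      ≤ ∑ m ∈ Fintype.piFinset (fun _ : V => Finset.range (N1 + 1)), ∏ v, q v ^ m v := by
        refine Finset.sum_le_sum_of_subset_of_nonneg ?_ fun m _ _ =>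
          Finset.prod_nonneg fun v _ => pow_nonneg (hq0 v) _
        intro m hm
        obtain ⟨N, hN, hm2⟩ := Finset.mem_biUnion.1 hm
        obtain ⟨k, _, hk⟩ := Finset.mem_image.1 hm2
        rw [Fintype.mem_piFinset]
        intro v
        have h1 : m v ≤ ∑ w, m w := Finset.single_le_sum (fun _ _ => Nat.zero_le _) (Finset.mem_univ v)
        have h2 : ∑ w, m w = N := by rw [← hk]; exact sum_occ k
        have h3 := Finset.mem_range.1 hN
        rw [Finset.mem_range]; omega
    _ = ∏ v, ∑ j ∈ Finset.range (N1 + 1), q v ^ j := by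
        rw [Finset.prod_univ_sum]
    _ ≤ ∏ v, (1 - q v)⁻¹ := by
        refine Finset.prod_le_prod (fun v _ => Finset.sum_nonneg fun j _ => pow_nonneg (hq0 v) _)
          fun v _ => ?_
        rw [← tsum_geometric_of_lt_one (hq0 v) (hq1 v)]
        exact (summable_geometric_of_lt_one (hq0 v) (hq1 v)).sum_le_tsum _
          fun j _ => pow_nonneg (hq0 v) _

theorem trace_exp_conj {κ : Type*} [Fintype κ] [DecidableEq κ] (U : Matrix κ κ ℝ)
    (h2 : U * Uᵀ = 1) (d : κ → ℝ) :
    trace (NormedSpace.exp (U * diagonal d * Uᵀ)) = ∑ i, Real.exp (d i) := by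
  have hinv : U⁻¹ = Uᵀ := Matrix.inv_eq_right_inv h2
  have hunit : IsUnit U := IsUnit.of_mul_eq_one _ h2
  rw [← hinv, Matrix.exp_conj _ _ hunit, Matrix.exp_diagonal, Matrix.trace_mul_comm,
    ← Matrix.mul_assoc, Matrix.nonsing_inv_mul _ ((Matrix.isUnit_iff_isUnit_det _).1 hunit),
    Matrix.one_mul, Matrix.trace_diagonal]
  refine Finset.sum_congr rfl fun i _ => ?_
  rw [Pi.exp_def]
  simp [Real.exp_eq_exp_ℝ]

theorem totN_le (σ : V → Fin 2) : totN σ ≤ Fintype.card V := by
  unfold totN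
  calc ∑ x, (σ x : ℕ) ≤ ∑ _x : V, 1 := Finset.sum_le_sum fun x _ => Nat.lt_succ_iff.1 (σ x).2
    _ = _ := by simp

theorem totN_eq (σ : V → Fin 2) : totN σ = ∑ x, val σ x := rfl

/-- **(V1)** The trace of `exp (- hcM a)` is at most the partition function of free bosons. -/
theorem trace_exp_hcM_le {e : V → V → ℝ} (he : Orth e) {al : V → ℝ} (hal : ∀ k, 0 < al k) :
    trace (NormedSpace.exp (-(hcM fun u v => ∑ k, al k * (e k u * e k v)))) ≤
      ∏ k, (1 - Real.exp (-(al k)))⁻¹ := by
  classical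
  set A : Matrix (V → Fin 2) (V → Fin 2) ℝ := hcM fun u v => ∑ k, al k * (e k u * e k v) with hA
  have hsymm : Aᵀ = A := hcM_symm fun x y => Finset.sum_congr rfl fun k _ => by ring
  obtain ⟨U, E, Nn, h1, h2, h3, h4⟩ := joint_diag A hsymm totN
    (fun i j hij => hcM_comm _ i j hij)
  have htr : trace (NormedSpace.exp (-A)) = ∑ i, Real.exp (-(E i)) := by
    have h5 : -A = U * diagonal (fun i => -(E i)) * Uᵀ := by
      rw [h3, ← Matrix.neg_mul, ← Matrix.mul_neg, ← Matrix.diagonal_neg]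
    rw [h5, trace_exp_conj U h2]
  rw [htr]
  set f : (V → Fin 2) → (V → Fin 2) → ℝ := fun i σ => U σ i with hf
  have horth : ∀ i j, ∑ σ, f i σ * f j σ = if i = j then 1 else 0 := by
    intro i j
    have := congrFun (congrFun h1 i) j
    rw [Matrix.mul_apply] at this
    simp only [Matrix.transpose_apply, Matrix.one_apply] at this
    exact this
  have heig : ∀ i, A *ᵥ (f i) = fun σ => E i * f i σ := by
    intro i
    have h5 : A * U = U * diagonal E := by
      conv_lhs => rw [h3]
      rw [Matrix.mul_assoc, h1, Matrix.mul_one]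
    ext σ
    have h6 := congrFun (congrFun h5 σ) i
    rw [Matrix.mul_diagonal, Matrix.mul_apply] at h6
    rw [Matrix.mulVec, dotProduct, h6]; ring
  have hsec : ∀ i, ∀ ζ, ∑ v, ζ v ≠ Nn i → ext (f i) ζ = 0 := by
    intro i ζ hζ
    unfold ext
    split_ifs with hb
    · exact h4 _ i hζ
    · rfl
  have hEf : ∀ i, f i ⬝ᵥ (A *ᵥ f i) = E i := by
    intro i
    rw [heig, dotProduct]
    have h5 := horth i i
    rw [if_pos rfl] at h5
    calc ∑ σ, f i σ * (E i * f i σ) = E i * ∑ σ, f i σ * f i σ := by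
          rw [Finset.mul_sum]
          exact Finset.sum_congr rfl fun σ _ => by ring
      _ = E i := by rw [h5, mul_one]
  set N1 : ℕ := Finset.univ.sup Nn with hN1
  have hNN : ∀ i, Nn i ≤ N1 := fun i => Finset.le_sup (Finset.mem_univ i)
  have hsplit : ∑ i, Real.exp (-(E i)) = ∑ N ∈ Finset.range (N1 + 1),
      ∑ i ∈ Finset.univ.filter (fun i => Nn i = N), Real.exp (-(E i)) := by
    rw [← Finset.sum_fiberwise_of_maps_to (s := (Finset.univ : Finset (V → Fin 2)))
      (t := Finset.range (N1 + 1)) (g := Nn)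
      (fun i _ => Finset.mem_range.2 (Nat.lt_succ_of_le (hNN i)))]
  rw [hsplit]
  refine le_trans (Finset.sum_le_sum fun N _ => ?_) (boson_sum_le al hal N1)
  refine peierls_gen he al _ E f ?_ ?_ ?_ ?_
  · intro i hi ζ hζ
    refine hsec i ζ ?_
    rwa [(Finset.mem_filter.1 hi).2]
  · intro i _
    have h5 := horth i i
    rwa [if_pos rfl] at h5
  · intro i _ j _ hij
    have h5 := horth i j
    rwa [if_neg hij] at h5
  · intro i _
    exact hEf i

/-- Spectral decomposition of a symmetric kernel. -/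
theorem exists_spectral (a : V → V → ℝ) (ha : ∀ x y, a x y = a y x) :
    ∃ (e : V → V → ℝ) (al : V → ℝ), Orth e ∧
      (∀ u v, a u v = ∑ k, al k * (e k u * e k v)) ∧
      ∀ (k : V) (u : V), ∑ v, a u v * e k v = al k * e k u := by
  obtain ⟨U, E, _, h1, h2, h3, _⟩ := joint_diag (Matrix.of a) (by
    ext x y
    exact ha y x) (fun _ => 0) (fun i j hij => absurd rfl hij)
  have hval : ∀ u v, a u v = ∑ k, E k * (U u k * U v k) := by
    intro u v
    have h4 := congrFun (congrFun h3 u) v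
    rw [Matrix.mul_apply] at h4
    rw [show a u v = Matrix.of a u v from rfl, h4]
    refine Finset.sum_congr rfl fun k _ => ?_
    rw [Matrix.mul_diagonal, Matrix.transpose_apply]
    ring
  have horth : ∀ k l, ∑ x, U x k * U x l = if k = l then 1 else 0 := by
    intro k l
    have := congrFun (congrFun h1 k) l
    rw [Matrix.mul_apply] at this
    simp only [Matrix.transpose_apply, Matrix.one_apply] at this
    exact this
  refine ⟨fun k x => U x k, E, ⟨?_, horth⟩, hval, ?_⟩
  · intro x y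
    have := congrFun (congrFun h2 x) y
    rw [Matrix.mul_apply] at this
    simp only [Matrix.transpose_apply, Matrix.one_apply] at this
    exact this
  · intro k u
    simp only [hval, Finset.sum_mul]
    rw [Finset.sum_comm]
    calc ∑ l, ∑ v, E l * (U u l * U v l) * U v k = ∑ l, E l * U u l * ∑ v, U v l * U v k := by
          refine Finset.sum_congr rfl fun l _ => ?_
          rw [Finset.mul_sum]
          exact Finset.sum_congr rfl fun v _ => by ring
      _ = _ := by
          simp only [horth]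
          simp

/-- **(V1)**, logarithmic form. -/
theorem log_trace_exp_hcM_le {e : V → V → ℝ} (he : Orth e) {al : V → ℝ} (hal : ∀ k, 0 < al k)
    (hpos : 0 < trace (NormedSpace.exp (-(hcM fun u v => ∑ k, al k * (e k u * e k v))))) :
    Real.log (trace (NormedSpace.exp (-(hcM fun u v => ∑ k, al k * (e k u * e k v))))) ≤
      ∑ k, -Real.log (1 - Real.exp (-(al k))) := by
  have h1 := Real.log_le_log hpos (trace_exp_hcM_le he hal)
  have h2 : ∀ k, 1 - Real.exp (-(al k)) ≠ 0 := by
    intro k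
    have : Real.exp (-(al k)) < 1 := by
      rw [Real.exp_lt_one_iff]
      linarith [hal k]
    linarith
  rw [Real.log_prod (fun k _ => inv_ne_zero (h2 k))] at h1
  refine h1.trans (le_of_eq ?_)
  exact Finset.sum_congr rfl fun k _ => Real.log_inv _

end

end Vale.Agent.P361.LRO.S3.Fock
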