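import Vale.Agent.P361.B.LowPart

set_option linter.unusedSectionVars false

/-!
P361, stage 3, (V) of note 10606: the Berezin-Lieb inequality for hard-core (occupation at most
`n`) bosons and a general one-particle matrix.
-/

namespace Vale.Agent.P361.LRO.S3.HC

open Finset Matrix Vale.Agent.P361.B

variable {V : Type*} [Fintype V] [DecidableEq V] {n : ℕ}

/-- Occupation numbers of a configuration. -/
def valC (σ : V → Fin (n + 1)) (x : V) : ℕ := (σ x : ℕ)

/-- The annihilation operator at `y` (occupation at most `n`). -/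
noncomputable def bM (n : ℕ) (y : V) : Matrix (V → Fin (n + 1)) (V → Fin (n + 1)) ℝ :=
  Matrix.of fun ρ σ => if valC σ = valC ρ + Pi.single y 1 then Real.sqrt ((valC ρ y : ℝ) + 1) else 0

/-- Second quantisation of the one-particle matrix `M`. -/
noncomputable def GamM (n : ℕ) (M : Matrix V V ℝ) : Matrix (V → Fin (n + 1)) (V → Fin (n + 1)) ℝ :=
  ∑ x, ∑ y, M x y • ((bM n x)ᵀ * bM n y)

lemma valC_inj {σ τ : V → Fin (n + 1)} (h : valC σ = valC τ) : σ = τ := by
  funext x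
  exact Fin.ext (congrFun h x)

/-- Extension by zero of the `N`-particle part. -/
noncomputable def extN (N : ℕ) (f : (V → Fin (n + 1)) → ℝ) (ζ : V → ℕ) : ℝ :=
  if h : (∀ x, ζ x ≤ n) ∧ ∑ x, ζ x = N then f (fun x => ⟨ζ x, Nat.lt_succ_of_le (h.1 x)⟩) else 0

lemma extN_out (N : ℕ) (f : (V → Fin (n + 1)) → ℝ) (ζ : V → ℕ) (h : ζ ∉ occBox V n) :
    extN N f ζ = 0 := by
  unfold extN
  rw [mem_occBox] at h
  rw [dif_neg fun h' => h h'.1]

lemma extN_sect (N : ℕ) (f : (V → Fin (n + 1)) → ℝ) (ζ : V → ℕ) (h : ∑ x, ζ x ≠ N) :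
    extN N f ζ = 0 := by
  unfold extN
  rw [dif_neg fun h' => h h'.2]

lemma extN_valC (N : ℕ) (f : (V → Fin (n + 1)) → ℝ) (σ : V → Fin (n + 1)) :
    extN N f (valC σ) = if ∑ x, valC σ x = N then f σ else 0 := by
  unfold extN
  by_cases h : ∑ x, valC σ x = N
  · have h1 : ∀ x, valC σ x ≤ n := fun x => Nat.lt_succ_iff.1 (σ x).2
    rw [dif_pos ⟨h1, h⟩, if_pos h]
    rfl
  · rw [dif_neg fun h' => h h'.2, if_neg h]

lemma sum_occBoxC (G : (V → ℕ) → ℝ) :
    ∑ ζ ∈ occBox V n, G ζ = ∑ σ : V → Fin (n + 1), G (valC σ) := by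
  symm
  refine Finset.sum_bij' (fun σ _ => valC σ)
    (fun ζ hζ => fun x => ⟨ζ x, Nat.lt_succ_of_le (mem_occBox.1 hζ x)⟩) ?_ ?_ ?_ ?_ ?_
  · intro σ _
    rw [mem_occBox]
    exact fun x => Nat.lt_succ_iff.1 (σ x).2
  · intro ζ _; exact Finset.mem_univ _
  · intro σ _; rfl
  · intro ζ _; rfl
  · intro σ _; rfl

lemma sum_valC_le (σ : V → Fin (n + 1)) : ∑ x, valC σ x ≤ n * Fintype.card V := by
  calc ∑ x, valC σ x ≤ ∑ _x : V, n := Finset.sum_le_sum fun x _ => Nat.lt_succ_iff.1 (σ x).2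
    _ = n * Fintype.card V := by rw [Finset.sum_const, Finset.card_univ, smul_eq_mul, mul_comm]

/-- inner product of the `N`-particle parts -/
lemma wf_extN (N : ℕ) (f g : (V → Fin (n + 1)) → ℝ) :
    ∑ x, wf N (extN N f) x * wf N (extN N g) x =
      ∑ σ, if ∑ x, valC σ x = N then f σ * g σ else 0 := by
  rw [wf_inner (n := n) (extN_out N f) (extN_sect N f), sum_occBoxC]
  refine Finset.sum_congr rfl fun σ _ => ?_
  rw [extN_valC, extN_valC]
  split_ifs <;> simp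

lemma sum_wf_extN (f g : (V → Fin (n + 1)) → ℝ) :
    ∑ N ∈ range (n * Fintype.card V + 1), ∑ x, wf N (extN N f) x * wf N (extN N g) x =
      ∑ σ, f σ * g σ := by
  simp only [wf_extN]
  rw [Finset.sum_comm]
  refine Finset.sum_congr rfl fun σ _ => ?_
  rw [Finset.sum_ite_eq, if_pos]
  rw [Finset.mem_range]
  exact Nat.lt_succ_of_le (sum_valC_le σ)

/-- The form of one hop in labelled particles. -/
lemma hop_prod (N : ℕ) (ψ : (V → ℕ) → ℝ) (h1 : ∀ ζ, ζ ∉ occBox V n → ψ ζ = 0)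
    (h2 : ∀ ζ, ∑ v, ζ v ≠ N + 1 → ψ ζ = 0) (v w : V) :
    ∑ σ ∈ occBox V n, (Real.sqrt ((σ v : ℝ) + 1) * ψ (σ + Pi.single v 1)) *
      (Real.sqrt ((σ w : ℝ) + 1) * ψ (σ + Pi.single w 1)) =
    (N + 1 : ℝ) * ∑ x : Fin N → V, wf (N + 1) ψ (Fin.cons v x) *
      wf (N + 1) ψ (Fin.cons w x) := by
  have hout : ∀ ζ : V → ℕ, ζ ∉ occBox V n → ∀ v, ψ (ζ + Pi.single v 1) = 0 := by
    intro ζ hζ v
    apply h1
    rw [mem_occBox] at hζ ⊢
    push Not at hζ ⊢
    obtain ⟨x, hx⟩ := hζ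
    refine ⟨x, ?_⟩
    rw [Pi.add_apply]; omega
  have hsec : ∀ ζ : V → ℕ, ∑ u, ζ u ≠ N → ∀ v, ψ (ζ + Pi.single v 1) = 0 := by
    intro ζ hζ v
    apply h2
    simp only [Pi.add_apply, Finset.sum_add_distrib]
    rw [Finset.sum_pi_single']
    simp [hζ]
  refine (fiber_sum n N (fun σ => (Real.sqrt ((σ v : ℝ) + 1) * ψ (σ + Pi.single v 1)) *
      (Real.sqrt ((σ w : ℝ) + 1) * ψ (σ + Pi.single w 1)))
      (fun ζ hζ => by simp only [hout ζ hζ]; simp)
      (fun ζ hζ => by simp only [hsec ζ hζ]; simp)).symm.trans ?_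
  rw [Finset.mul_sum]
  refine Finset.sum_congr rfl fun x _ => ?_
  have hc := cnt_occ_pos x
  have hwf : ∀ u, Real.sqrt (N + 1 : ℝ) * wf (N + 1) ψ (Fin.cons u x) =
      Real.sqrt ((occ x u : ℝ) + 1) * ψ (occ x + Pi.single u 1) / Real.sqrt (cnt N (occ x)) := by
    intro u
    rw [wf, occ_cons]
    have hc2 : (0 : ℝ) < cnt (N + 1) (occ x + Pi.single u 1) := by
      rw [← occ_cons]; exact cnt_occ_pos _
    have h3 : (cnt (N + 1) (occ x + Pi.single u 1) : ℝ) * ((occ x u : ℝ) + 1) =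
        ((N : ℝ) + 1) * cnt N (occ x) := by exact_mod_cast cnt_succ N (occ x) u
    have h4 : Real.sqrt (cnt (N + 1) (occ x + Pi.single u 1)) * Real.sqrt ((occ x u : ℝ) + 1) =
        Real.sqrt ((N : ℝ) + 1) * Real.sqrt (cnt N (occ x)) := by
      rw [← Real.sqrt_mul hc2.le, h3, Real.sqrt_mul (by positivity)]
    have h5 : 0 < Real.sqrt (cnt (N + 1) (occ x + Pi.single u 1)) := Real.sqrt_pos.2 hc2
    have h6 : 0 < Real.sqrt (cnt N (occ x)) := Real.sqrt_pos.2 hc
    rw [mul_div_assoc', div_eq_div_iff h5.ne' h6.ne']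
    calc _ = (Real.sqrt ((N : ℝ) + 1) * Real.sqrt (cnt N (occ x))) * ψ (occ x + Pi.single u 1) := by
          ring
      _ = _ := by rw [← h4]; ring
  have h7 : (N + 1 : ℝ) * (wf (N + 1) ψ (Fin.cons v x) * wf (N + 1) ψ (Fin.cons w x)) =
      (Real.sqrt (N + 1 : ℝ) * wf (N + 1) ψ (Fin.cons v x)) *
        (Real.sqrt (N + 1 : ℝ) * wf (N + 1) ψ (Fin.cons w x)) := by
    have h8 : Real.sqrt (N + 1 : ℝ) * Real.sqrt (N + 1 : ℝ) = N + 1 :=
      Real.mul_self_sqrt (by positivity)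
    calc _ = (Real.sqrt (N + 1 : ℝ) * Real.sqrt (N + 1 : ℝ)) *
          (wf (N + 1) ψ (Fin.cons v x) * wf (N + 1) ψ (Fin.cons w x)) := by rw [h8]
      _ = _ := by ring
  rw [h7, hwf, hwf]
  have h9 : Real.sqrt (cnt N (occ x)) * Real.sqrt (cnt N (occ x)) = cnt N (occ x) :=
    Real.mul_self_sqrt hc.le
  rw [div_mul_div_comm, h9]

/-- An orthonormal basis is a `Spec` for the empty graph. -/
lemma spec_of {e : V → V → ℝ} (hc : ∀ x y, ∑ k, e k x * e k y = if x = y then 1 else 0)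
    (ho : ∀ k l, ∑ x, e k x * e l x = if k = l then 1 else 0) :
    Spec (fun _ _ : V => False) e 0 where
  eig := fun k x => by simp
  compl := hc
  orth := ho

/-- The one-particle form on labelled particles. -/
lemma form_succ {e : V → V → ℝ} (hc : ∀ x y, ∑ k, e k x * e k y = if x = y then 1 else 0)
    (ho : ∀ k l, ∑ x, e k x * e l x = if k = l then 1 else 0) {xe : V → ℝ} {M : Matrix V V ℝ}
    (hM : ∀ a b, M a b = ∑ k, xe k * e k a * e k b) (N : ℕ) (ψ : (V → ℕ) → ℝ) :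
    (N + 1 : ℝ) * ∑ v, ∑ w, M v w * ∑ x : Fin N → V, wf (N + 1) ψ (Fin.cons v x) *
      wf (N + 1) ψ (Fin.cons w x) =
    ∑ k : Fin (N + 1) → V, (∑ i, xe (k i)) * four e (wf (N + 1) ψ) k ^ 2 := by
  have hS := spec_of hc ho
  have h1 : ∑ v, ∑ w, M v w * ∑ x : Fin N → V, wf (N + 1) ψ (Fin.cons v x) *
      wf (N + 1) ψ (Fin.cons w x) =
      ∑ k, xe k * ∑ x : Fin N → V, (∑ v, e k v * wf (N + 1) ψ (Fin.cons v x)) ^ 2 := by
    have e1 : ∀ v w, M v w * ∑ x : Fin N → V, wf (N + 1) ψ (Fin.cons v x) *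
        wf (N + 1) ψ (Fin.cons w x) = ∑ k, ∑ x : Fin N → V, xe k *
          ((e k v * wf (N + 1) ψ (Fin.cons v x)) * (e k w * wf (N + 1) ψ (Fin.cons w x))) := by
      intro v w
      rw [hM, Finset.sum_mul]
      refine Finset.sum_congr rfl fun k _ => ?_
      rw [Finset.mul_sum]
      exact Finset.sum_congr rfl fun x _ => by ring
    simp only [e1]
    rw [Finset.sum_congr rfl fun v _ => Finset.sum_comm]
    rw [Finset.sum_comm]
    refine Finset.sum_congr rfl fun k _ => ?_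
    rw [Finset.mul_sum]
    rw [Finset.sum_congr rfl fun v _ => Finset.sum_comm]
    rw [Finset.sum_comm]
    refine Finset.sum_congr rfl fun x _ => ?_
    rw [sq, Finset.sum_mul_sum, Finset.mul_sum]
    refine Finset.sum_congr rfl fun v _ => ?_
    rw [Finset.mul_sum]
  have h2 : ∀ k : V, ∑ x : Fin N → V, (∑ v, e k v * wf (N + 1) ψ (Fin.cons v x)) ^ 2 =
      ∑ l : Fin N → V, four e (wf (N + 1) ψ) (Fin.cons k l) ^ 2 := by
    intro k
    rw [← parseval hS (fun x : Fin N → V => ∑ v, e k v * wf (N + 1) ψ (Fin.cons v x))]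
    exact Finset.sum_congr rfl fun l _ => by rw [four_cons]
  rw [h1]
  simp only [h2]
  have h3 : ∑ k, xe k * ∑ l : Fin N → V, four e (wf (N + 1) ψ) (Fin.cons k l) ^ 2 =
      ∑ k : Fin (N + 1) → V, xe (k 0) * four e (wf (N + 1) ψ) k ^ 2 := by
    rw [← (Fin.consEquiv fun _ => V).sum_comp, Fintype.sum_prod_type]
    refine Finset.sum_congr rfl fun k _ => ?_
    rw [Finset.mul_sum]
    rfl
  rw [h3]
  have h4 : ∀ i : Fin (N + 1), ∑ k : Fin (N + 1) → V, xe (k i) * four e (wf (N + 1) ψ) k ^ 2 =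
      ∑ k : Fin (N + 1) → V, xe (k 0) * four e (wf (N + 1) ψ) k ^ 2 := by
    intro i
    rw [← (Equiv.arrowCongr (Equiv.swap 0 i) (Equiv.refl V)).sum_comp]
    refine Finset.sum_congr rfl fun k _ => ?_
    have e1 : (Equiv.arrowCongr (Equiv.swap 0 i) (Equiv.refl V)) k = k ∘ Equiv.swap 0 i := by
      ext j; simp [Equiv.arrowCongr]
    rw [e1, four_perm hS _ (wf_perm ψ)]
    simp
  have h5 : ∑ k : Fin (N + 1) → V, (∑ i, xe (k i)) * four e (wf (N + 1) ψ) k ^ 2 =
      ∑ i : Fin (N + 1), ∑ k : Fin (N + 1) → V, xe (k i) * four e (wf (N + 1) ψ) k ^ 2 := by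
    rw [Finset.sum_comm]
    exact Finset.sum_congr rfl fun k _ => by rw [Finset.sum_mul]
  rw [h5]
  simp only [h4]
  rw [Finset.sum_const, Finset.card_univ, Fintype.card_fin, nsmul_eq_mul]
  push_cast
  ring

lemma extN_eq_sum (N : ℕ) (f : (V → Fin (n + 1)) → ℝ) (ζ : V → ℕ) (hζ : ∑ x, ζ x = N) :
    extN N f ζ = ∑ σ, if valC σ = ζ then f σ else 0 := by
  by_cases h : ∀ x, ζ x ≤ n
  · set σ0 : V → Fin (n + 1) := fun x => ⟨ζ x, Nat.lt_succ_of_le (h x)⟩ with hσ0
    have hv : valC σ0 = ζ := rfl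
    rw [Finset.sum_eq_single σ0]
    · rw [if_pos hv, ← hv, extN_valC, if_pos (by rw [hv]; exact hζ)]
    · intro σ _ hσ
      rw [if_neg fun h' => hσ (valC_inj (h'.trans hv.symm))]
    · intro h'; exact absurd (Finset.mem_univ _) h'
  · rw [extN_out N f ζ (by rw [mem_occBox]; exact h)]
    symm
    refine Finset.sum_eq_zero fun σ _ => ?_
    rw [if_neg]
    intro h'
    apply h
    intro x
    rw [← h']
    exact Nat.lt_succ_iff.1 (σ x).2

lemma sum_add_single (ζ : V → ℕ) (y : V) : ∑ x, (ζ + Pi.single y 1 : V → ℕ) x = ∑ x, ζ x + 1 := by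
  simp only [Pi.add_apply, Finset.sum_add_distrib]
  rw [Finset.sum_pi_single']
  simp

lemma bM_mulVec (y : V) (ψ : (V → Fin (n + 1)) → ℝ) (ρ : V → Fin (n + 1)) :
    (bM n y *ᵥ ψ) ρ = Real.sqrt ((valC ρ y : ℝ) + 1) *
      extN (∑ x, valC ρ x + 1) ψ (valC ρ + Pi.single y 1) := by
  rw [extN_eq_sum _ _ _ (sum_add_single _ _), Matrix.mulVec, dotProduct, Finset.mul_sum]
  refine Finset.sum_congr rfl fun σ _ => ?_
  simp only [bM, Matrix.of_apply]
  split_ifs <;> ring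

lemma form_GamM (M : Matrix V V ℝ) (ψ : (V → Fin (n + 1)) → ℝ) :
    ψ ⬝ᵥ (GamM n M *ᵥ ψ) = ∑ x, ∑ y, M x y * ∑ ρ, (bM n x *ᵥ ψ) ρ * (bM n y *ᵥ ψ) ρ := by
  unfold GamM
  rw [Matrix.sum_mulVec, dotProduct_sum]
  refine Finset.sum_congr rfl fun x _ => ?_
  rw [Matrix.sum_mulVec, dotProduct_sum]
  refine Finset.sum_congr rfl fun y _ => ?_
  rw [Matrix.smul_mulVec, dotProduct_smul, smul_eq_mul]
  congr 1
  rw [← Matrix.mulVec_mulVec, Matrix.dotProduct_mulVec, Matrix.vecMul_transpose]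
  rfl

/-- The form of `dΓ(M)` in the eigenbasis of `M`. -/
theorem form_eq {e : V → V → ℝ} (hc : ∀ x y, ∑ k, e k x * e k y = if x = y then 1 else 0)
    (ho : ∀ k l, ∑ x, e k x * e l x = if k = l then 1 else 0) {xe : V → ℝ} {M : Matrix V V ℝ}
    (hM : ∀ a b, M a b = ∑ k, xe k * e k a * e k b) (ψ : (V → Fin (n + 1)) → ℝ) {R : ℕ}
    (hR : n * Fintype.card V < R) :
    ψ ⬝ᵥ (GamM n M *ᵥ ψ) = ∑ N ∈ range (R + 1), ∑ k : Fin N → V,
      (∑ i, xe (k i)) * four e (wf N (extN N ψ)) k ^ 2 := by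
  rw [Finset.sum_range_succ', form_GamM]
  have h0 : ∑ k : Fin 0 → V, (∑ i, xe (k i)) * four e (wf 0 (extN 0 ψ)) k ^ 2 = 0 := by
    refine Finset.sum_eq_zero fun k _ => ?_
    simp
  rw [h0, add_zero]
  have h1 : ∀ N : ℕ, ∑ k : Fin (N + 1) → V,
      (∑ i, xe (k i)) * four e (wf (N + 1) (extN (N + 1) ψ)) k ^ 2 =
      ∑ x, ∑ y, M x y * ∑ ρ : V → Fin (n + 1), if ∑ v, valC ρ v = N then
        (bM n x *ᵥ ψ) ρ * (bM n y *ᵥ ψ) ρ else 0 := by
    intro N
    rw [← form_succ hc ho hM N (extN (N + 1) ψ), Finset.mul_sum]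
    refine Finset.sum_congr rfl fun x _ => ?_
    rw [Finset.mul_sum]
    refine Finset.sum_congr rfl fun y _ => ?_
    have h2 := hop_prod (n := n) N (extN (N + 1) ψ) (extN_out _ ψ) (extN_sect _ ψ) x y
    rw [mul_left_comm, ← h2, sum_occBoxC]
    congr 1
    refine Finset.sum_congr rfl fun ρ _ => ?_
    split_ifs with h
    · rw [bM_mulVec, bM_mulVec, h]
    · rw [extN_sect (N + 1) ψ (valC ρ + Pi.single x 1)]
      · ring
      · rw [sum_add_single]; omega
  simp only [h1]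
  symm
  rw [Finset.sum_comm]
  refine Finset.sum_congr rfl fun x _ => ?_
  rw [Finset.sum_comm]
  refine Finset.sum_congr rfl fun y _ => ?_
  rw [← Finset.mul_sum, Finset.sum_comm]
  congr 1
  refine Finset.sum_congr rfl fun ρ _ => ?_
  rw [Finset.sum_ite_eq, if_pos]
  rw [Finset.mem_range]
  exact lt_of_le_of_lt (sum_valC_le ρ) hR

/-- Total norm in the labelled picture. -/
theorem norm_eq {e : V → V → ℝ} (hc : ∀ x y, ∑ k, e k x * e k y = if x = y then 1 else 0)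
    (ho : ∀ k l, ∑ x, e k x * e l x = if k = l then 1 else 0) (ψ : (V → Fin (n + 1)) → ℝ) {R : ℕ}
    (hR : n * Fintype.card V < R) :
    ∑ N ∈ range R, ∑ k : Fin N → V, four e (wf N (extN N ψ)) k ^ 2 = ∑ σ, ψ σ ^ 2 := by
  have hS := spec_of hc ho
  have h1 : ∀ N : ℕ, ∑ k : Fin N → V, four e (wf N (extN N ψ)) k ^ 2 =
      ∑ σ, if ∑ x, valC σ x = N then ψ σ * ψ σ else 0 := by
    intro N
    rw [parseval hS, ← wf_extN]
    exact Finset.sum_congr rfl fun x _ => by ring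
  rw [Finset.sum_congr rfl fun N _ => h1 N, Finset.sum_comm]
  refine Finset.sum_congr rfl fun σ _ => ?_
  rw [Finset.sum_ite_eq, if_pos]
  · ring
  · rw [Finset.mem_range]
    exact lt_of_le_of_lt (sum_valC_le σ) hR

/-- Bessel's inequality for the embedding of the hard-core space. -/
lemma bessel_emb {ι : Type*} (I : Finset ι) (ψ : ι → (V → Fin (n + 1)) → ℝ)
    (h1 : ∀ i ∈ I, ∑ σ, ψ i σ ^ 2 = 1)
    (h2 : ∀ i ∈ I, ∀ j ∈ I, i ≠ j → ∑ σ, ψ i σ * ψ j σ = 0) (N : ℕ) (Φ : (Fin N → V) → ℝ) :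
    ∑ i ∈ I, (∑ x, Φ x * wf N (extN N (ψ i)) x) ^ 2 ≤ ∑ x, Φ x ^ 2 := by
  classical
  set χ : (V → Fin (n + 1)) → ℝ := fun σ =>
    ∑ x : Fin N → V, if valC σ = occ x then Φ x / Real.sqrt (cnt N (occ x)) else 0 with hχ
  have hL : ∀ f : (V → Fin (n + 1)) → ℝ, ∑ x, Φ x * wf N (extN N f) x = ∑ σ, χ σ * f σ := by
    intro f
    simp only [hχ, Finset.sum_mul]
    rw [Finset.sum_comm]
    refine Finset.sum_congr rfl fun x _ => ?_
    rw [wf, extN_eq_sum N f (occ x) (sum_occ x), Finset.sum_div, Finset.mul_sum]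
    refine Finset.sum_congr rfl fun σ _ => ?_
    split_ifs
    · ring
    · ring
  have hb := bessel I ψ χ h1 h2
  simp only [hL]
  refine hb.trans ?_
  set X := ∑ σ, χ σ ^ 2 with hX
  have hX0 : 0 ≤ X := Finset.sum_nonneg fun _ _ => sq_nonneg _
  have e1 : X = ∑ x, Φ x * wf N (extN N χ) x := by
    rw [hL, hX]
    exact Finset.sum_congr rfl fun σ _ => by ring
  have e2 : X ^ 2 ≤ (∑ x, Φ x ^ 2) * ∑ x, wf N (extN N χ) x ^ 2 := by
    rw [e1]
    exact Finset.sum_mul_sq_le_sq_mul_sq _ _ _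
  have e3 : ∑ x, wf N (extN N χ) x ^ 2 ≤ X := by
    have : ∑ x, wf N (extN N χ) x ^ 2 = ∑ x, wf N (extN N χ) x * wf N (extN N χ) x :=
      Finset.sum_congr rfl fun x _ => by ring
    rw [this, wf_extN, hX]
    refine Finset.sum_le_sum fun σ _ => ?_
    split_ifs
    · exact le_of_eq (by ring)
    · positivity
  have hΦ0 : 0 ≤ ∑ x, Φ x ^ 2 := Finset.sum_nonneg fun _ _ => sq_nonneg _
  by_contra hcon
  push Not at hcon
  have hXpos : 0 < X := lt_of_le_of_lt hΦ0 hcon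
  have : X ^ 2 ≤ (∑ x, Φ x ^ 2) * X := e2.trans (mul_le_mul_of_nonneg_left e3 hΦ0)
  nlinarith

/-- `∑_m e^{-x·m} ≤ ∏ (1 - e^{-x_k})⁻¹`. -/
lemma sum_occ_le {xe : V → ℝ} (hx : ∀ k, 0 < xe k) (R : ℕ) :
    ∑ N ∈ range R, ∑ m ∈ occImg V N, Real.exp (-∑ k, xe k * (m k : ℝ)) ≤
      ∏ k, (1 - Real.exp (-xe k))⁻¹ := by
  classical
  have hdisj : Set.PairwiseDisjoint (↑(range R)) (fun N => occImg V N) := by
    intro N _ N' _ hne
    rw [Function.onFun, Finset.disjoint_left]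
    intro m hm hm'
    obtain ⟨k, _, hk⟩ := Finset.mem_image.1 hm
    obtain ⟨k', _, hk'⟩ := Finset.mem_image.1 hm'
    apply hne
    rw [← sum_occ k, ← sum_occ k', hk, hk']
  rw [← Finset.sum_biUnion hdisj]
  have hsub : (range R).biUnion (fun N => occImg V N) ⊆
      Fintype.piFinset fun _ : V => range (R + 1) := by
    intro m hm
    obtain ⟨N, hN, hm⟩ := Finset.mem_biUnion.1 hm
    obtain ⟨k, _, hk⟩ := Finset.mem_image.1 hm
    rw [Fintype.mem_piFinset]
    intro v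
    rw [Finset.mem_range]
    have h1 : m v ≤ ∑ w, m w := Finset.single_le_sum (fun _ _ => Nat.zero_le _) (Finset.mem_univ v)
    have h2 : ∑ w, m w = N := by rw [← hk, sum_occ]
    have h3 := Finset.mem_range.1 hN
    omega
  calc ∑ m ∈ (range R).biUnion (fun N => occImg V N), Real.exp (-∑ k, xe k * (m k : ℝ))
      ≤ ∑ m ∈ Fintype.piFinset fun _ : V => range (R + 1), Real.exp (-∑ k, xe k * (m k : ℝ)) :=
        Finset.sum_le_sum_of_subset_of_nonneg hsub fun _ _ _ => (Real.exp_pos _).le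
    _ = ∑ m ∈ Fintype.piFinset fun _ : V => range (R + 1), ∏ k, Real.exp (-xe k) ^ (m k) := by
        refine Finset.sum_congr rfl fun m _ => ?_
        rw [← Finset.sum_neg_distrib, Real.exp_sum]
        refine Finset.prod_congr rfl fun k _ => ?_
        rw [← Real.exp_nat_mul]
        congr 1; ring
    _ = ∏ k, ∑ j ∈ range (R + 1), Real.exp (-xe k) ^ j :=
        (Finset.prod_univ_sum (fun _ : V => range (R + 1))
          (fun k j => Real.exp (-xe k) ^ j)).symm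
    _ ≤ ∏ k, (1 - Real.exp (-xe k))⁻¹ := by
        refine Finset.prod_le_prod (fun k _ => Finset.sum_nonneg fun _ _ => by positivity)
          fun k _ => ?_
        have h1 : Real.exp (-xe k) < 1 := by
          rw [Real.exp_lt_one_iff]; linarith [hx k]
        have h2 := geom_sum_eq h1.ne (R + 1)
        rw [h2, ← neg_sub 1 (Real.exp (-xe k)), ← neg_sub 1 (Real.exp (-xe k) ^ (R + 1)), neg_div_neg_eq,
          div_eq_mul_inv]
        have h3 : 0 < 1 - Real.exp (-xe k) := by linarith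
        have h4 : 1 - Real.exp (-xe k) ^ (R + 1) ≤ 1 := by
          have : 0 ≤ Real.exp (-xe k) ^ (R + 1) := by positivity
          linarith
        calc (1 - Real.exp (-xe k) ^ (R + 1)) * (1 - Real.exp (-xe k))⁻¹
            ≤ 1 * (1 - Real.exp (-xe k))⁻¹ :=
              mul_le_mul_of_nonneg_right h4 (inv_nonneg.2 h3.le)
          _ = _ := one_mul _

/-- Berezin-Lieb for a family of orthonormal vectors. -/
theorem sum_exp_le {ι : Type*} (I : Finset ι) (E : ι → ℝ) (ψ : ι → (V → Fin (n + 1)) → ℝ)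
    (h1 : ∀ i ∈ I, ∑ σ, ψ i σ ^ 2 = 1)
    (h2 : ∀ i ∈ I, ∀ j ∈ I, i ≠ j → ∑ σ, ψ i σ * ψ j σ = 0)
    {e : V → V → ℝ} (hc : ∀ x y, ∑ k, e k x * e k y = if x = y then 1 else 0)
    (ho : ∀ k l, ∑ x, e k x * e l x = if k = l then 1 else 0) {xe : V → ℝ} (hx : ∀ k, 0 < xe k)
    {M : Matrix V V ℝ} (hM : ∀ a b, M a b = ∑ k, xe k * e k a * e k b)
    (hE : ∀ i ∈ I, ψ i ⬝ᵥ (GamM n M *ᵥ ψ i) ≤ E i) :
    ∑ i ∈ I, Real.exp (-E i) ≤ ∏ k, (1 - Real.exp (-xe k))⁻¹ := by
  classical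
  have hS := spec_of hc ho
  set R : ℕ := n * Fintype.card V + 1 with hR
  set w : ι → (N : ℕ) → (V → ℕ) → ℝ := fun i N m =>
    ∑ k : Fin N → V, if occ k = m then four e (wf N (extN N (ψ i))) k ^ 2 else 0 with hw
  have hw0 : ∀ i N m, 0 ≤ w i N m := fun i N m =>
    Finset.sum_nonneg fun k _ => by split_ifs <;> positivity
  have hfib : ∀ (i : ι) (N : ℕ) (g : (V → ℕ) → ℝ), ∑ m ∈ occImg V N, g m * w i N m =
      ∑ k : Fin N → V, g (occ k) * four e (wf N (extN N (ψ i))) k ^ 2 := by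
    intro i N g
    simp only [hw, Finset.mul_sum]
    rw [Finset.sum_comm]
    refine Finset.sum_congr rfl fun k _ => ?_
    rw [Finset.sum_eq_single (occ k)]
    · rw [if_pos rfl]
    · intro m _ hm
      rw [if_neg (Ne.symm hm), mul_zero]
    · intro hk
      exact absurd (Finset.mem_image_of_mem _ (Finset.mem_univ k)) hk
  set T : Finset (Σ _ : ℕ, V → ℕ) := (range (R + 1)).sigma fun N => occImg V N with hT
  have hone : ∀ i ∈ I, ∑ p ∈ T, w i p.1 p.2 = 1 := by
    intro i hi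
    rw [hT, Finset.sum_sigma]
    have h3 : ∀ N : ℕ, ∑ m ∈ occImg V N, w i N m =
        ∑ k : Fin N → V, four e (wf N (extN N (ψ i))) k ^ 2 := by
      intro N
      have := hfib i N (fun _ => 1)
      simpa using this
    rw [Finset.sum_congr rfl fun N _ => h3 N, norm_eq hc ho (ψ i) (R := R + 1) (by omega), h1 i hi]
  have hform : ∀ i ∈ I, ψ i ⬝ᵥ (GamM n M *ᵥ ψ i) =
      ∑ p ∈ T, w i p.1 p.2 * ∑ k, xe k * (p.2 k : ℝ) := by
    intro i hi
    rw [form_eq hc ho hM (ψ i) (R := R) (by omega), hT, Finset.sum_sigma]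
    refine Finset.sum_congr rfl fun N _ => ?_
    have h3 := hfib i N (fun m => ∑ k, xe k * (m k : ℝ))
    rw [Finset.sum_congr rfl fun m _ => mul_comm (w i N m) _, h3]
    refine Finset.sum_congr rfl fun k _ => ?_
    rw [sum_lam_occ]
  have hle : ∀ p ∈ T, ∑ i ∈ I, w i p.1 p.2 ≤ 1 := by
    rintro ⟨N, m⟩ hp
    rw [hT, Finset.mem_sigma] at hp
    obtain ⟨k0, _, hk0⟩ := Finset.mem_image.1 hp.2
    change occ k0 = m at hk0
    change ∑ i ∈ I, w i N m ≤ 1
    have hcn : (0 : ℝ) < cnt N m := by rw [← hk0]; exact cnt_occ_pos k0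
    have hwm : ∀ i, w i N m = cnt N m * four e (wf N (extN N (ψ i))) k0 ^ 2 := by
      intro i
      simp only [hw]
      rw [cnt_eq_sum]
      push_cast
      rw [Finset.sum_mul]
      refine Finset.sum_congr rfl fun k _ => ?_
      split_ifs with hk
      · rw [one_mul, four_occ hS _ (wf_perm _) (hk.trans hk0.symm)]
      · rw [zero_mul]
    set Φ : (Fin N → V) → ℝ := fun x => ∑ k : Fin N → V, if occ k = m then tens e k x else 0 with hΦ
    have hΦF : ∀ i, ∑ x, Φ x * wf N (extN N (ψ i)) x = cnt N m * four e (wf N (extN N (ψ i))) k0 := by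
      intro i
      simp only [hΦ, Finset.sum_mul]
      rw [Finset.sum_comm, cnt_eq_sum]
      push_cast
      rw [Finset.sum_mul]
      refine Finset.sum_congr rfl fun k _ => ?_
      by_cases hk : occ k = m
      · simp only [if_pos hk, one_mul]
        rw [four_occ hS _ (wf_perm _) (hk0.trans hk.symm)]
        rfl
      · simp only [if_neg hk, zero_mul, Finset.sum_const_zero]
    have hΦ2 : ∑ x, Φ x ^ 2 = cnt N m := by
      have h1 : ∀ x, Φ x ^ 2 = ∑ k : Fin N → V, ∑ l : Fin N → V,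
          (if occ k = m then (1 : ℝ) else 0) * (if occ l = m then (1 : ℝ) else 0) *
            (tens e k x * tens e l x) := by
        intro x
        rw [sq]
        simp only [hΦ]
        rw [Finset.sum_mul_sum]
        refine Finset.sum_congr rfl fun k _ => Finset.sum_congr rfl fun l _ => ?_
        by_cases hk : occ k = m <;> by_cases hl : occ l = m <;> simp [hk, hl]
      simp only [h1]
      rw [Finset.sum_comm, cnt_eq_sum]
      push_cast
      refine Finset.sum_congr rfl fun k _ => ?_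
      rw [Finset.sum_comm]
      simp only [← Finset.mul_sum, tens_orth hS]
      rw [Finset.sum_eq_single k]
      · by_cases hk : occ k = m <;> simp [hk]
      · intro l _ hl
        rw [if_neg (Ne.symm hl), mul_zero]
      · simp
    have hb := bessel_emb I ψ h1 h2 N Φ
    rw [hΦ2] at hb
    simp only [hΦF] at hb
    have h4 : ∑ i ∈ I, ((cnt N m : ℝ) * four e (wf N (extN N (ψ i))) k0) ^ 2 =
        cnt N m * ∑ i ∈ I, w i N m := by
      rw [Finset.mul_sum]
      exact Finset.sum_congr rfl fun i _ => by rw [hwm]; ring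
    rw [h4] at hb
    by_contra hcon
    push Not at hcon
    have : (cnt N m : ℝ) * 1 < cnt N m * ∑ i ∈ I, w i N m := mul_lt_mul_of_pos_left hcon hcn
    linarith
  have hterm : ∀ i ∈ I, Real.exp (-E i) ≤
      ∑ p ∈ T, w i p.1 p.2 * Real.exp (-∑ k, xe k * (p.2 k : ℝ)) := by
    intro i hi
    have h3 : Real.exp (∑ p ∈ T, w i p.1 p.2 * (-∑ k, xe k * (p.2 k : ℝ))) ≤
        ∑ p ∈ T, w i p.1 p.2 * Real.exp (-∑ k, xe k * (p.2 k : ℝ)) := by
      have := convexOn_exp.map_sum_le (t := T) (w := fun p => w i p.1 p.2)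
        (p := fun p => -∑ k, xe k * (p.2 k : ℝ)) (fun p _ => hw0 i p.1 p.2) (hone i hi)
        (fun p _ => Set.mem_univ _)
      simpa [smul_eq_mul] using this
    have h5 : ∑ p ∈ T, w i p.1 p.2 * (-∑ k, xe k * (p.2 k : ℝ)) =
        -(ψ i ⬝ᵥ (GamM n M *ᵥ ψ i)) := by
      rw [hform i hi, ← Finset.sum_neg_distrib]
      exact Finset.sum_congr rfl fun p _ => by ring
    rw [h5] at h3
    exact (Real.exp_le_exp.2 (neg_le_neg (hE i hi))).trans h3
  calc ∑ i ∈ I, Real.exp (-E i)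
      ≤ ∑ i ∈ I, ∑ p ∈ T, w i p.1 p.2 * Real.exp (-∑ k, xe k * (p.2 k : ℝ)) :=
        Finset.sum_le_sum hterm
    _ = ∑ p ∈ T, (∑ i ∈ I, w i p.1 p.2) * Real.exp (-∑ k, xe k * (p.2 k : ℝ)) := by
        rw [Finset.sum_comm]
        exact Finset.sum_congr rfl fun p _ => by rw [Finset.sum_mul]
    _ ≤ ∑ p ∈ T, Real.exp (-∑ k, xe k * (p.2 k : ℝ)) := by
        refine Finset.sum_le_sum fun p hp => ?_
        calc (∑ i ∈ I, w i p.1 p.2) * Real.exp (-∑ k, xe k * (p.2 k : ℝ))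
            ≤ 1 * Real.exp (-∑ k, xe k * (p.2 k : ℝ)) :=
              mul_le_mul_of_nonneg_right (hle p hp) (Real.exp_pos _).le
          _ = _ := one_mul _
    _ = ∑ N ∈ range (R + 1), ∑ m ∈ occImg V N, Real.exp (-∑ k, xe k * (m k : ℝ)) := by
        rw [hT, Finset.sum_sigma]
    _ ≤ _ := sum_occ_le hx (R + 1)

/-- Spectral decomposition of the trace of the exponential. -/
lemma trace_exp_neg_spec {κ : Type*} [Fintype κ] [DecidableEq κ] {A : Matrix κ κ ℝ}
    (hA : A.IsHermitian) :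
    ∃ (E : κ → ℝ) (ψ : κ → κ → ℝ), (∀ i, ∑ σ, ψ i σ ^ 2 = 1) ∧
      (∀ i j, i ≠ j → ∑ σ, ψ i σ * ψ j σ = 0) ∧ (∀ i, ψ i ⬝ᵥ (A *ᵥ ψ i) = E i) ∧
      trace (NormedSpace.exp (-A)) = ∑ i, Real.exp (-E i) := by
  set U : Matrix κ κ ℝ := (hA.eigenvectorUnitary : Matrix κ κ ℝ) with hU
  have hstar : star U = Uᵀ := by
    ext i j
    rw [Matrix.star_apply, Matrix.transpose_apply]; simp
  have hUU : Uᵀ * U = 1 := by rw [← hstar]; exact Unitary.coe_star_mul_self _
  have hUU' : U * Uᵀ = 1 := by rw [← hstar]; exact Unitary.coe_mul_star_self _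
  set b : κ → ℝ := hA.eigenvalues with hb
  have hspec : A = U * diagonal b * Uᵀ := by
    have h := hA.spectral_theorem
    rw [Unitary.conjStarAlgAut_apply] at h
    rw [← hstar]
    exact h
  have hort : ∀ i j, ∑ σ, U σ i * U σ j = if i = j then 1 else 0 := by
    intro i j
    have h := congrFun (congrFun hUU i) j
    rw [Matrix.mul_apply, Matrix.one_apply] at h
    exact h
  have hcol : A * U = U * diagonal b := by
    calc A * U = U * diagonal b * Uᵀ * U := by rw [← hspec]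
      _ = U * diagonal b := by rw [Matrix.mul_assoc, hUU, Matrix.mul_one]
  refine ⟨b, fun i σ => U σ i, ?_, ?_, ?_, ?_⟩
  · intro i
    have h := hort i i
    rw [if_pos rfl] at h
    rw [← h]
    exact Finset.sum_congr rfl fun σ _ => by ring
  · intro i j hij
    have h := hort i j
    rw [if_neg hij] at h
    exact h
  · intro i
    have h : A *ᵥ (fun σ => U σ i) = fun σ => b i * U σ i := by
      funext σ
      have h2 := congrFun (congrFun hcol σ) i
      rw [Matrix.mul_diagonal, Matrix.mul_apply] at h2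
      rw [Matrix.mulVec, dotProduct, h2]
      ring
    rw [h]
    have h3 := hort i i
    rw [if_pos rfl] at h3
    calc (fun σ => U σ i) ⬝ᵥ (fun σ => b i * U σ i) = b i * ∑ σ, U σ i * U σ i := by
          rw [dotProduct, Finset.mul_sum]
          exact Finset.sum_congr rfl fun σ _ => by ring
      _ = b i := by rw [h3, mul_one]
  · have hUinv : U⁻¹ = Uᵀ := Matrix.inv_eq_right_inv hUU'
    have hunit : IsUnit U := IsUnit.of_mul_eq_one _ hUU'
    have h1 : -A = U * diagonal (fun i => -b i) * U⁻¹ := by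
      rw [hUinv]
      conv_lhs => rw [hspec]
      have : diagonal (fun i => -b i) = -diagonal b := by
        rw [← Matrix.diagonal_neg]
      rw [this, Matrix.mul_neg, Matrix.neg_mul]
    rw [h1, Matrix.exp_conj _ _ hunit, Matrix.exp_diagonal, Matrix.trace_mul_comm,
      ← Matrix.mul_assoc, hUinv, hUU, Matrix.one_mul, Matrix.trace_diagonal]
    refine Finset.sum_congr rfl fun i _ => ?_
    rw [Pi.coe_exp, Real.exp_eq_exp_ℝ]

/-- **Berezin-Lieb**: if `A ≥ dΓ(M)` as forms on the space of occupations at most `n`, and `M` has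
eigenvalues `xe k > 0`, then `Tr e^{-A} ≤ ∏ (1 - e^{-xe k})⁻¹`. -/
theorem trace_exp_le {A : Matrix (V → Fin (n + 1)) (V → Fin (n + 1)) ℝ} (hA : A.IsHermitian)
    {e : V → V → ℝ} (hc : ∀ x y, ∑ k, e k x * e k y = if x = y then 1 else 0)
    (ho : ∀ k l, ∑ x, e k x * e l x = if k = l then 1 else 0) {xe : V → ℝ} (hx : ∀ k, 0 < xe k)
    {M : Matrix V V ℝ} (hM : ∀ a b, M a b = ∑ k, xe k * e k a * e k b)
    (hle : ∀ ψ : (V → Fin (n + 1)) → ℝ, ψ ⬝ᵥ (GamM n M *ᵥ ψ) ≤ ψ ⬝ᵥ (A *ᵥ ψ)) :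
    trace (NormedSpace.exp (-A)) ≤ ∏ k, (1 - Real.exp (-xe k))⁻¹ := by
  obtain ⟨E, ψ, h1, h2, h3, h4⟩ := trace_exp_neg_spec hA
  rw [h4]
  exact sum_exp_le Finset.univ E ψ (fun i _ => h1 i) (fun i _ j _ hij => h2 i j hij) hc ho hx hM
    fun i _ => (hle (ψ i)).trans (h3 i).le

theorem log_trace_exp_le {A : Matrix (V → Fin (n + 1)) (V → Fin (n + 1)) ℝ} (hA : A.IsHermitian)
    {e : V → V → ℝ} (hc : ∀ x y, ∑ k, e k x * e k y = if x = y then 1 else 0)
    (ho : ∀ k l, ∑ x, e k x * e l x = if k = l then 1 else 0) {xe : V → ℝ} (hx : ∀ k, 0 < xe k)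
    {M : Matrix V V ℝ} (hM : ∀ a b, M a b = ∑ k, xe k * e k a * e k b)
    (hle : ∀ ψ : (V → Fin (n + 1)) → ℝ, ψ ⬝ᵥ (GamM n M *ᵥ ψ) ≤ ψ ⬝ᵥ (A *ᵥ ψ)) :
    Real.log (trace (NormedSpace.exp (-A))) ≤ ∑ k, -Real.log (1 - Real.exp (-xe k)) := by
  have h1 := trace_exp_le hA hc ho hx hM hle
  have hpos : ∀ k, 0 < 1 - Real.exp (-xe k) := fun k => by
    have : Real.exp (-xe k) < 1 := by rw [Real.exp_lt_one_iff]; linarith [hx k]
    linarith
  have h0 : 0 < trace (NormedSpace.exp (-A)) := by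
    obtain ⟨E, ψ, -, -, -, h4⟩ := trace_exp_neg_spec hA
    rw [h4]
    exact Finset.sum_pos (fun i _ => Real.exp_pos _) Finset.univ_nonempty
  refine (Real.log_le_log h0 h1).trans ?_
  rw [Real.log_prod fun k _ => (inv_pos.2 (hpos k)).ne']
  exact le_of_eq (Finset.sum_congr rfl fun k _ => Real.log_inv _)

lemma GamM_isHermitian {M : Matrix V V ℝ} (hM : M.IsHermitian) : (GamM n M).IsHermitian := by
  have hs : ∀ x y, M x y = M y x := fun x y => by
    have := hM.apply x y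
    simpa using this.symm
  unfold Matrix.IsHermitian GamM
  rw [Matrix.conjTranspose_sum]
  have h1 : ∀ x y, (M x y • ((bM n x)ᵀ * bM n y))ᴴ = M y x • ((bM n y)ᵀ * bM n x) := by
    intro x y
    ext i j
    rw [Matrix.conjTranspose_apply, star_trivial, Matrix.smul_apply, Matrix.smul_apply, hs x y,
      Matrix.mul_apply, Matrix.mul_apply]
    congr 1
    exact Finset.sum_congr rfl fun k _ => mul_comm _ _
  have h2 : ∀ x, (∑ y, M x y • ((bM n x)ᵀ * bM n y))ᴴ = ∑ y, M y x • ((bM n y)ᵀ * bM n x) := by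
    intro x
    rw [Matrix.conjTranspose_sum]
    exact Finset.sum_congr rfl fun y _ => h1 x y
  rw [Finset.sum_congr rfl fun x _ => h2 x, Finset.sum_comm]

/-- The eigenbasis of a real symmetric matrix. -/
lemma eig_data {M : Matrix V V ℝ} (hM : M.IsHermitian) :
    (∀ x y, ∑ k, (hM.eigenvectorUnitary : Matrix V V ℝ) x k *
      (hM.eigenvectorUnitary : Matrix V V ℝ) y k = if x = y then 1 else 0) ∧
    (∀ k l, ∑ x, (hM.eigenvectorUnitary : Matrix V V ℝ) x k *
      (hM.eigenvectorUnitary : Matrix V V ℝ) x l = if k = l then 1 else 0) ∧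
    (∀ a b, M a b = ∑ k, hM.eigenvalues k * (hM.eigenvectorUnitary : Matrix V V ℝ) a k *
      (hM.eigenvectorUnitary : Matrix V V ℝ) b k) := by
  set U : Matrix V V ℝ := (hM.eigenvectorUnitary : Matrix V V ℝ) with hU
  have hstar : star U = Uᵀ := by
    ext i j
    rw [Matrix.star_apply, Matrix.transpose_apply]; simp
  have hUU : Uᵀ * U = 1 := by rw [← hstar]; exact Unitary.coe_star_mul_self _
  have hUU' : U * Uᵀ = 1 := by rw [← hstar]; exact Unitary.coe_mul_star_self _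
  have hspec : M = U * diagonal hM.eigenvalues * Uᵀ := by
    have h := hM.spectral_theorem
    rw [Unitary.conjStarAlgAut_apply] at h
    rw [← hstar]
    exact h
  refine ⟨fun x y => ?_, fun k l => ?_, fun a b => ?_⟩
  · have h := congrFun (congrFun hUU' x) y
    rw [Matrix.mul_apply, Matrix.one_apply] at h
    exact h
  · have h := congrFun (congrFun hUU k) l
    rw [Matrix.mul_apply, Matrix.one_apply] at h
    exact h
  · have h := congrFun (congrFun hspec a) b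
    rw [Matrix.mul_apply] at h
    rw [h]
    refine Finset.sum_congr rfl fun k _ => ?_
    rw [Matrix.mul_diagonal, Matrix.transpose_apply]
    ring

/-- Hard-core trace bound for a positive definite one-particle matrix. -/
theorem hc_trace_le {M : Matrix V V ℝ} (hM : M.PosDef) :
    trace (NormedSpace.exp (-GamM n M)) ≤
      ∏ k, (1 - Real.exp (-hM.isHermitian.eigenvalues k))⁻¹ := by
  obtain ⟨h1, h2, h3⟩ := eig_data hM.isHermitian
  exact trace_exp_le (GamM_isHermitian hM.isHermitian)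
    (e := fun k x => (hM.isHermitian.eigenvectorUnitary : Matrix V V ℝ) x k) h1 h2
    (fun k => hM.eigenvalues_pos k) h3 fun ψ => le_rfl

theorem log_hc_trace_le {A : Matrix (V → Fin (n + 1)) (V → Fin (n + 1)) ℝ} (hA : A.IsHermitian)
    {M : Matrix V V ℝ} (hM : M.PosDef)
    (hle : ∀ ψ : (V → Fin (n + 1)) → ℝ, ψ ⬝ᵥ (GamM n M *ᵥ ψ) ≤ ψ ⬝ᵥ (A *ᵥ ψ)) :
    Real.log (trace (NormedSpace.exp (-A))) ≤
      ∑ k, -Real.log (1 - Real.exp (-hM.isHermitian.eigenvalues k)) := by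
  obtain ⟨h1, h2, h3⟩ := eig_data hM.isHermitian
  exact log_trace_exp_le hA
    (e := fun k x => (hM.isHermitian.eigenvectorUnitary : Matrix V V ℝ) x k) h1 h2
    (fun k => hM.eigenvalues_pos k) h3 hle

end Vale.Agent.P361.LRO.S3.HC
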