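import Vale.Agent.P361.LRO.S3.Hc
import Vale.Agent.P361.LRO.S3.HardCore

set_option linter.unusedSectionVars false

/-!
P361, stage 3, (V1): the Berezin-Lieb inequality for `hcM`.
-/

namespace Vale.Agent.P361.LRO.S3

open Finset Matrix

variable {V : Type} [Fintype V] [DecidableEq V]

theorem aM_eq_bM (x : V) : aM x = HC.bM 1 x := by
  ext σ τ
  rw [aM_apply, HC.bM, Matrix.of_apply]
  have hiff : (σ x = 0 ∧ τ = Function.update σ x 1) ↔
      (HC.valC (n := 1) τ = HC.valC (n := 1) σ + Pi.single x 1) := by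
    constructor
    · rintro ⟨h0, rfl⟩
      funext v
      rw [Pi.add_apply]
      by_cases hv : v = x
      · subst hv
        simp [HC.valC, h0]
      · simp [HC.valC, hv]
    · intro h
      have hx : (τ x : ℕ) = (σ x : ℕ) + 1 := by
        have := congrFun h x
        simpa [HC.valC] using this
      have hτ := (τ x).2
      have h0 : σ x = 0 := by
        apply Fin.ext
        change (σ x : ℕ) = 0
        omega
      refine ⟨h0, ?_⟩
      funext v
      by_cases hv : v = x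
      · subst hv
        rw [Function.update_self]
        apply Fin.ext
        change (τ v : ℕ) = 1
        rw [hx, h0]; rfl
      · rw [Function.update_of_ne hv]
        apply Fin.ext
        have := congrFun h v
        simpa [HC.valC, hv] using this
  by_cases h : σ x = 0 ∧ τ = Function.update σ x 1
  · rw [if_pos h, if_pos (hiff.1 h)]
    have : (HC.valC (n := 1) σ x : ℝ) = 0 := by
      simp [HC.valC, h.1]
    rw [this]
    simp
  · rw [if_neg h, if_neg fun h' => h (hiff.2 h')]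

theorem hcM_eq_GamM (a : V → V → ℝ) : hcM a = HC.GamM 1 (Matrix.of a) := by
  rw [hcM, HC.GamM]
  refine Finset.sum_congr rfl fun x _ => Finset.sum_congr rfl fun y _ => ?_
  rw [aM_eq_bM, aM_eq_bM, Matrix.of_apply]

/-- (V1), general form: if `A ≥ hcM a` and `a = ∑ al_k e_k e_kᵀ` with `al_k > 0`. -/
theorem trace_exp_le_of_form {A : Matrix (V → Fin 2) (V → Fin 2) ℝ} (hA : A.IsHermitian)
    {a : V → V → ℝ} {e : V → V → ℝ} {al : V → ℝ}
    (hc : ∀ x y, ∑ k, e k x * e k y = if x = y then 1 else 0)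
    (ho : ∀ k l, ∑ x, e k x * e l x = if k = l then 1 else 0) (hal : ∀ k, 0 < al k)
    (ha : ∀ x y, a x y = ∑ k, al k * (e k x * e k y))
    (hle : ∀ ψ : (V → Fin 2) → ℝ, ψ ⬝ᵥ (hcM a *ᵥ ψ) ≤ ψ ⬝ᵥ (A *ᵥ ψ)) :
    trace (NormedSpace.exp (-A)) ≤ ∏ k, (1 - Real.exp (-al k))⁻¹ := by
  refine HC.trace_exp_le (n := 1) (M := Matrix.of a) hA hc ho hal (fun x y => ?_) fun ψ => ?_
  · rw [Matrix.of_apply, ha]
    exact Finset.sum_congr rfl fun k _ => (mul_assoc _ _ _).symm
  · rw [← hcM_eq_GamM]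
    exact hle ψ

theorem log_trace_exp_le_of_form {A : Matrix (V → Fin 2) (V → Fin 2) ℝ} (hA : A.IsHermitian)
    {a : V → V → ℝ} {e : V → V → ℝ} {al : V → ℝ}
    (hc : ∀ x y, ∑ k, e k x * e k y = if x = y then 1 else 0)
    (ho : ∀ k l, ∑ x, e k x * e l x = if k = l then 1 else 0) (hal : ∀ k, 0 < al k)
    (ha : ∀ x y, a x y = ∑ k, al k * (e k x * e k y))
    (hle : ∀ ψ : (V → Fin 2) → ℝ, ψ ⬝ᵥ (hcM a *ᵥ ψ) ≤ ψ ⬝ᵥ (A *ᵥ ψ)) :
    Real.log (trace (NormedSpace.exp (-A))) ≤ ∑ k, -Real.log (1 - Real.exp (-al k)) := by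
  refine HC.log_trace_exp_le (n := 1) (M := Matrix.of a) hA hc ho hal (fun x y => ?_) fun ψ => ?_
  · rw [Matrix.of_apply, ha]
    exact Finset.sum_congr rfl fun k _ => (mul_assoc _ _ _).symm
  · rw [← hcM_eq_GamM]
    exact hle ψ

/-- `a = ∑ al_k e_k e_kᵀ` is symmetric, hence `hcM a` is Hermitian. -/
theorem hcM_isHermitian_of {a : V → V → ℝ} {e : V → V → ℝ} {al : V → ℝ}
    (ha : ∀ x y, a x y = ∑ k, al k * (e k x * e k y)) : (hcM a).IsHermitian := by
  rw [hcM_eq_GamM]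
  apply HC.GamM_isHermitian
  ext x y
  rw [Matrix.conjTranspose_apply, Matrix.of_apply, Matrix.of_apply, star_trivial, ha, ha]
  exact Finset.sum_congr rfl fun k _ => by ring

/-- **(V1)** -/
theorem hcM_trace_le {a : V → V → ℝ} {e : V → V → ℝ} {al : V → ℝ}
    (hc : ∀ x y, ∑ k, e k x * e k y = if x = y then 1 else 0)
    (ho : ∀ k l, ∑ x, e k x * e l x = if k = l then 1 else 0) (hal : ∀ k, 0 < al k)
    (ha : ∀ x y, a x y = ∑ k, al k * (e k x * e k y)) :
    trace (NormedSpace.exp (-(hcM a))) ≤ ∏ k, (1 - Real.exp (-al k))⁻¹ :=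
  trace_exp_le_of_form (hcM_isHermitian_of ha) hc ho hal ha fun _ => le_rfl

/-- **(V1)**, logarithmic form -/
theorem log_hcM_trace_le {a : V → V → ℝ} {e : V → V → ℝ} {al : V → ℝ}
    (hc : ∀ x y, ∑ k, e k x * e k y = if x = y then 1 else 0)
    (ho : ∀ k l, ∑ x, e k x * e l x = if k = l then 1 else 0) (hal : ∀ k, 0 < al k)
    (ha : ∀ x y, a x y = ∑ k, al k * (e k x * e k y)) :
    Real.log (trace (NormedSpace.exp (-(hcM a)))) ≤ ∑ k, -Real.log (1 - Real.exp (-al k)) :=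
  log_trace_exp_le_of_form (hcM_isHermitian_of ha) hc ho hal ha fun _ => le_rfl

end Vale.Agent.P361.LRO.S3
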