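import Vale.Agent.P361.LRO.Defs

/-!
P361 stage 3, block (M): hard core bosons on a finite set. `hcM a` is the compression of the
second quantization of the one-particle matrix `a` to the hard core space.
-/

set_option linter.unusedSectionVars false

namespace Vale.Agent.P361.LRO.S3

open Finset Matrix

noncomputable section

variable {V : Type} [Fintype V] [DecidableEq V]

/-- Annihilation of a down spin (particle) at `x`. -/
def aM (x : V) : Matrix (V → Fin 2) (V → Fin 2) ℝ :=
  Matrix.of fun σ τ => if σ x = 0 ∧ τ = Function.update σ x 1 then 1 else 0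

/-- Number of particles at `x`. -/
def nM (x : V) : Matrix (V → Fin 2) (V → Fin 2) ℝ :=
  Matrix.diagonal fun σ => if σ x = 1 then 1 else 0

/-- Compression of `dΓ(a)` to the hard core space. -/
def hcM (a : V → V → ℝ) : Matrix (V → Fin 2) (V → Fin 2) ℝ :=
  ∑ x, ∑ y, a x y • ((aM x)ᵀ * aM y)

/-- Number of particles of a configuration. -/
def totN (σ : V → Fin 2) : ℕ := ∑ x, (σ x : ℕ)

theorem fin2_ne {a : Fin 2} (h : a ≠ 0) : a = 1 := by omega

theorem nM_eq (x : V) : nM x = (1 / 2 : ℝ) • (1 - szM x) := by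
  ext σ τ
  rw [nM, szM, Matrix.smul_apply, Matrix.sub_apply, Matrix.one_apply, Matrix.diagonal_apply,
    Matrix.diagonal_apply]
  by_cases h : σ = τ
  · rw [if_pos h, if_pos h, if_pos h]
    by_cases h0 : σ x = 0
    · rw [if_pos h0, if_neg (by rw [h0]; decide)]; norm_num
    · rw [if_neg h0, if_pos (fin2_ne h0), smul_eq_mul]; norm_num
  · rw [if_neg h, if_neg h, if_neg h]; simp

theorem aM_apply (x : V) (σ τ : V → Fin 2) :
    aM x σ τ = if σ x = 0 ∧ τ = Function.update σ x 1 then 1 else 0 := rfl

theorem aM_mulVec (x : V) (f : (V → Fin 2) → ℝ) (σ : V → Fin 2) :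
    (aM x *ᵥ f) σ = if σ x = 0 then f (Function.update σ x 1) else 0 := by
  rw [Matrix.mulVec, dotProduct]
  by_cases h : σ x = 0
  · rw [if_pos h, Finset.sum_eq_single (Function.update σ x 1)]
    · rw [aM_apply, if_pos ⟨h, rfl⟩, one_mul]
    · intro τ _ hτ
      rw [aM_apply, if_neg (fun h' => hτ h'.2), zero_mul]
    · intro h'; exact absurd (Finset.mem_univ _) h'
  · rw [if_neg h]
    refine Finset.sum_eq_zero fun τ _ => ?_
    rw [aM_apply, if_neg (fun h' => h h'.1), zero_mul]

theorem hcM_form (a : V → V → ℝ) (f g : (V → Fin 2) → ℝ) :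
    f ⬝ᵥ (hcM a *ᵥ g) = ∑ x, ∑ y, a x y * ∑ σ, (aM x *ᵥ f) σ * (aM y *ᵥ g) σ := by
  rw [hcM, Matrix.sum_mulVec, dotProduct_sum]
  refine Finset.sum_congr rfl fun x _ => ?_
  rw [Matrix.sum_mulVec, dotProduct_sum]
  refine Finset.sum_congr rfl fun y _ => ?_
  rw [Matrix.smul_mulVec, dotProduct_smul, smul_eq_mul, ← Matrix.mulVec_mulVec,
    Matrix.dotProduct_mulVec, Matrix.vecMul_transpose]
  rfl

theorem hcM_add (a b : V → V → ℝ) : hcM (fun x y => a x y + b x y) = hcM a + hcM b := by
  simp only [hcM, add_smul, Finset.sum_add_distrib]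

theorem hcM_smul (c : ℝ) (a : V → V → ℝ) : hcM (fun x y => c * a x y) = c • hcM a := by
  simp only [hcM, mul_smul, Finset.smul_sum]

theorem hcM_sub (a b : V → V → ℝ) : hcM (fun x y => a x y - b x y) = hcM a - hcM b := by
  simp only [hcM, sub_smul, Finset.sum_sub_distrib]

theorem hcM_sum {ι : Type*} (s : Finset ι) (a : ι → V → V → ℝ) :
    hcM (fun x y => ∑ i ∈ s, a i x y) = ∑ i ∈ s, hcM (a i) := by
  simp only [hcM, Finset.sum_smul]
  have h1 : ∀ x : V, ∑ y, ∑ i ∈ s, a i x y • ((aM x)ᵀ * aM y) =
      ∑ i ∈ s, ∑ y, a i x y • ((aM x)ᵀ * aM y) := fun x => Finset.sum_comm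
  simp only [h1]
  exact Finset.sum_comm

theorem aM_transpose_mul_apply (x y : V) (σ τ : V → Fin 2) :
    ((aM x)ᵀ * aM y) σ τ = if σ x = 1 ∧ (Function.update σ x 0) y = 0 ∧
      τ = Function.update (Function.update σ x 0) y 1 then 1 else 0 := by
  rw [Matrix.mul_apply]
  by_cases hσ : σ x = 1
  · rw [Finset.sum_eq_single (Function.update σ x 0)]
    · have h1 : (aM x)ᵀ σ (Function.update σ x 0) = 1 := by
        rw [Matrix.transpose_apply, aM_apply, if_pos]
        refine ⟨by simp, ?_⟩
        rw [Function.update_idem, ← hσ, Function.update_eq_self]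
      rw [h1, one_mul, aM_apply]
      by_cases h2 : (Function.update σ x 0) y = 0
      · by_cases h3 : τ = Function.update (Function.update σ x 0) y 1
        · rw [if_pos ⟨h2, h3⟩, if_pos ⟨hσ, h2, h3⟩]
        · rw [if_neg (fun h => h3 h.2), if_neg (fun h => h3 h.2.2)]
      · rw [if_neg (fun h => h2 h.1), if_neg (fun h => h2 h.2.1)]
    · intro ρ _ hρ
      have h1 : (aM x)ᵀ σ ρ = 0 := by
        rw [Matrix.transpose_apply, aM_apply, if_neg]
        rintro ⟨h2, h3⟩
        apply hρ
        rw [h3, Function.update_idem, ← h2, Function.update_eq_self]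
      rw [h1, zero_mul]
    · intro h; exact absurd (Finset.mem_univ _) h
  · rw [if_neg (fun h => hσ h.1)]
    refine Finset.sum_eq_zero fun ρ _ => ?_
    have h1 : (aM x)ᵀ σ ρ = 0 := by
      rw [Matrix.transpose_apply, aM_apply, if_neg]
      rintro ⟨h2, h3⟩
      exact hσ (by rw [h3]; simp)
    rw [h1, zero_mul]

theorem aM_self (x : V) : (aM x)ᵀ * aM x = nM x := by
  ext σ τ
  rw [aM_transpose_mul_apply, nM, Matrix.diagonal_apply]
  by_cases hσ : σ x = 1
  · have h1 : Function.update (Function.update σ x 0) x 1 = σ := by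
      rw [Function.update_idem, ← hσ, Function.update_eq_self]
    rw [h1]
    by_cases hτ : σ = τ
    · rw [if_pos ⟨hσ, by simp, hτ.symm⟩, if_pos hτ, if_pos hσ]
    · rw [if_neg (fun h => hτ h.2.2.symm), if_neg hτ]
  · rw [if_neg (fun h => hσ h.1)]
    split_ifs <;> rfl

/-- `(a_x - a_y)ᵀ (a_x - a_y) = 2 h_xy + 2 n_x n_y`. -/
theorem hop_eq {x y : V} (hxy : x ≠ y) :
    (aM x - aM y)ᵀ * (aM x - aM y) = (2 : ℝ) • hM x y + (2 : ℝ) • (nM x * nM y) := by
  have h0 : (aM x - aM y)ᵀ * (aM x - aM y) = nM x + nM y -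
      ((aM x)ᵀ * aM y + (aM y)ᵀ * aM x) := by
    rw [Matrix.transpose_sub, Matrix.sub_mul, Matrix.mul_sub, Matrix.mul_sub, aM_self, aM_self]
    abel
  rw [h0, hM, smul_smul]
  ext σ τ
  rw [Matrix.sub_apply, Matrix.add_apply, Matrix.add_apply, aM_transpose_mul_apply,
    aM_transpose_mul_apply, Matrix.add_apply, Matrix.smul_apply, Matrix.smul_apply, nM, nM,
    Matrix.diagonal_mul_diagonal, Matrix.diagonal_apply, Matrix.diagonal_apply,
    Matrix.diagonal_apply, Matrix.sub_apply, Matrix.one_apply, swapM, Matrix.of_apply]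
  have hx1 : (Function.update σ x 0) y = σ y := Function.update_of_ne hxy.symm _ _
  have hy1 : (Function.update σ y 0) x = σ x := Function.update_of_ne hxy _ _
  rw [hx1, hy1]
  -- the exchanged configuration
  have hsw : (σ = τ ∘ Equiv.swap x y) ↔ τ = σ ∘ Equiv.swap x y := by
    constructor
    · rintro rfl; funext z; simp
    · rintro rfl; funext z; simp
  have e1 : (2 : ℝ) * (1 / 2) = 1 := by norm_num
  rw [e1]
  have hval : ∀ z, (σ ∘ Equiv.swap x y) z = if z = x then σ y else if z = y then σ x else σ z := by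
    intro z
    rw [Function.comp_apply, Equiv.swap_apply_def]
    split_ifs <;> rfl
  by_cases hx : σ x = 1
  · by_cases hy : σ y = 1
    · -- both down
      have hs : σ ∘ Equiv.swap x y = σ := by
        funext z
        rw [hval]
        split_ifs with h1 h2
        · rw [h1, hx, hy]
        · rw [h2, hx, hy]
        · rfl
      have c1 : ¬ (σ x = 1 ∧ σ y = 0 ∧ τ = Function.update (Function.update σ x 0) y 1) :=
        fun h => absurd h.2.1 (by rw [hy]; decide)
      have c2 : ¬ (σ y = 1 ∧ σ x = 0 ∧ τ = Function.update (Function.update σ y 0) x 1) :=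
        fun h => absurd h.2.1 (by rw [hx]; decide)
      rw [if_neg c1, if_neg c2]
      simp only [hsw, hs]
      by_cases hτ : σ = τ
      · subst hτ
        simp [hx, hy]
        norm_num
      · have hτ' : ¬ τ = σ := fun h => hτ h.symm
        simp [hτ, hτ']
    · -- x down, y up
      have hy0 : σ y = 0 := by
        by_contra h
        exact hy (fin2_ne h)
      have c2 : ¬ (σ y = 1 ∧ σ x = 0 ∧ τ = Function.update (Function.update σ y 0) x 1) :=
        fun h => absurd h.1 hy
      have hs : σ ∘ Equiv.swap x y = Function.update (Function.update σ x 0) y 1 := by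
        funext z
        rw [hval]
        by_cases h1 : z = x
        · rw [if_pos h1, h1, Function.update_of_ne hxy, Function.update_self, hy0]
        · rw [if_neg h1]
          by_cases h2 : z = y
          · rw [if_pos h2, h2, Function.update_self, hx]
          · rw [if_neg h2, Function.update_of_ne h2, Function.update_of_ne h1]
      rw [if_neg c2]
      simp only [hsw, ← hs]
      have hne : σ ≠ σ ∘ Equiv.swap x y := by
        intro h
        have := congrFun h x
        rw [hval, if_pos rfl, hx, hy0] at this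
        exact absurd this (by decide)
      by_cases hτ : σ = τ
      · subst hτ
        simp [hx, hy0, hne]
      · by_cases hτ2 : τ = σ ∘ Equiv.swap x y
        · subst hτ2
          simp [hx, hy0, hne]
        · simp [hx, hy0, hτ, hτ2]
  · have hx0 : σ x = 0 := by
      by_contra h
      exact hx (fin2_ne h)
    have c1 : ¬ (σ x = 1 ∧ σ y = 0 ∧ τ = Function.update (Function.update σ x 0) y 1) :=
      fun h => absurd h.1 hx
    rw [if_neg c1]
    by_cases hy : σ y = 1
    · have hs : σ ∘ Equiv.swap x y = Function.update (Function.update σ y 0) x 1 := by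
        funext z
        rw [hval]
        by_cases h1 : z = x
        · rw [if_pos h1, h1, Function.update_self, hy]
        · rw [if_neg h1, Function.update_of_ne h1]
          by_cases h2 : z = y
          · rw [if_pos h2, h2, Function.update_self, hx0]
          · rw [if_neg h2, Function.update_of_ne h2]
      simp only [hsw, ← hs]
      have hne : σ ≠ σ ∘ Equiv.swap x y := by
        intro h
        have := congrFun h x
        rw [hval, if_pos rfl, hx0, hy] at this
        exact absurd this (by decide)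
      by_cases hτ : σ = τ
      · subst hτ
        simp [hx0, hy, hne]
      · by_cases hτ2 : τ = σ ∘ Equiv.swap x y
        · subst hτ2
          simp [hx0, hy, hne]
        · simp [hx0, hy, hτ, hτ2]
    · have hy0 : σ y = 0 := by
        by_contra h
        exact hy (fin2_ne h)
      have hs : σ ∘ Equiv.swap x y = σ := by
        funext z
        rw [hval]
        split_ifs with h1 h2
        · rw [h1, hx0, hy0]
        · rw [h2, hx0, hy0]
        · rfl
      have c2 : ¬ (σ y = 1 ∧ σ x = 0 ∧ τ = Function.update (Function.update σ y 0) x 1) :=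
        fun h => absurd h.1 hy
      rw [if_neg c2]
      simp only [hsw, hs]
      by_cases hτ : σ = τ
      · subst hτ
        simp [hx0, hy0]
      · have hτ' : ¬ τ = σ := fun h => hτ h.symm
        simp [hτ, hτ']

/-- One-particle form of a pair. -/
def pairK (x y : V) (u v : V) : ℝ :=
  ((if u = x then 1 else 0) - if u = y then 1 else 0) *
    ((if v = x then 1 else 0) - if v = y then 1 else 0)

theorem hcM_rank_one (f : V → ℝ) :
    hcM (fun u v => f u * f v) = (∑ u, f u • aM u)ᵀ * ∑ v, f v • aM v := by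
  rw [hcM, Matrix.transpose_sum, Finset.sum_mul]
  refine Finset.sum_congr rfl fun u _ => ?_
  rw [Finset.mul_sum]
  refine Finset.sum_congr rfl fun v _ => ?_
  rw [Matrix.transpose_smul, Matrix.smul_mul, Matrix.mul_smul, smul_smul]

theorem hcM_pairK {x y : V} (hxy : x ≠ y) :
    hcM (pairK x y) = (2 : ℝ) • hM x y + (2 : ℝ) • (nM x * nM y) := by
  rw [← hop_eq hxy]
  have h1 : (∑ u, (((if u = x then 1 else 0) - if u = y then 1 else 0 : ℝ)) • aM u) =
      aM x - aM y := by
    simp only [sub_smul, Finset.sum_sub_distrib, ite_smul, one_smul, zero_smul,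
      Finset.sum_ite_eq', Finset.mem_univ, if_true]
  have h2 := hcM_rank_one (fun u : V => ((if u = x then 1 else 0) - if u = y then 1 else 0 : ℝ))
  rw [h1] at h2
  exact h2

theorem hcM_one : hcM (fun x y : V => if x = y then (1 : ℝ) else 0) = ∑ x : V, nM x := by
  rw [hcM]
  refine Finset.sum_congr rfl fun x _ => ?_
  rw [Finset.sum_eq_single x]
  · rw [if_pos rfl, one_smul, aM_self]
  · intro y _ hy
    rw [if_neg (Ne.symm hy), zero_smul]
  · intro h; exact absurd (Finset.mem_univ _) h

/-- `hcM` of a sum of rank one kernels. -/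
theorem hcM_rank {ι : Type*} (s : Finset ι) (al : ι → ℝ) (e : ι → V → ℝ) :
    hcM (fun u v => ∑ i ∈ s, al i * (e i u * e i v)) =
      ∑ i ∈ s, al i • ((∑ u, e i u • aM u)ᵀ * ∑ v, e i v • aM v) := by
  rw [hcM_sum]
  refine Finset.sum_congr rfl fun i _ => ?_
  rw [hcM_smul, hcM_rank_one]

theorem hcM_rank_posSemidef {ι : Type*} (s : Finset ι) (al : ι → ℝ) (e : ι → V → ℝ)
    (hal : ∀ i ∈ s, 0 ≤ al i) :
    (hcM (fun u v => ∑ i ∈ s, al i * (e i u * e i v))).PosSemidef := by
  rw [hcM_rank]
  refine Matrix.posSemidef_sum _ fun i hi => ?_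
  have h := Matrix.posSemidef_conjTranspose_mul_self (∑ v, e i v • aM v)
  rw [Matrix.conjTranspose_eq_transpose_of_trivial] at h
  exact h.smul (hal i hi)

theorem hcM_symm {a : V → V → ℝ} (ha : ∀ x y, a x y = a y x) : (hcM a)ᵀ = hcM a := by
  rw [hcM, Matrix.transpose_sum]
  simp only [Matrix.transpose_sum, Matrix.transpose_smul, Matrix.transpose_mul,
    Matrix.transpose_transpose]
  rw [Finset.sum_comm]
  refine Finset.sum_congr rfl fun x _ => Finset.sum_congr rfl fun y _ => ?_
  rw [ha]

theorem totN_update (σ : V → Fin 2) (x : V) (h : σ x = 0) :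
    totN (Function.update σ x 1) = totN σ + 1 := by
  unfold totN
  rw [← Finset.add_sum_erase _ _ (Finset.mem_univ x), ← Finset.add_sum_erase _ (fun z => (σ z : ℕ))
    (Finset.mem_univ x), Function.update_self, h]
  have : ∑ z ∈ Finset.univ.erase x, ((Function.update σ x 1 z : Fin 2) : ℕ) =
      ∑ z ∈ Finset.univ.erase x, ((σ z : Fin 2) : ℕ) := by
    refine Finset.sum_congr rfl fun z hz => ?_
    rw [Function.update_of_ne (Finset.ne_of_mem_erase hz)]
  rw [this]
  simp only [Fin.val_one, Fin.val_zero]
  ring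

/-- `hcM a` preserves the number of particles. -/
theorem hcM_comm (a : V → V → ℝ) (σ τ : V → Fin 2) (h : totN σ ≠ totN τ) : hcM a σ τ = 0 := by
  rw [hcM, Matrix.sum_apply]
  refine Finset.sum_eq_zero fun x _ => ?_
  rw [Matrix.sum_apply]
  refine Finset.sum_eq_zero fun y _ => ?_
  rw [Matrix.smul_apply, aM_transpose_mul_apply, if_neg, smul_zero]
  rintro ⟨h1, h2, h3⟩
  apply h
  rw [h3, totN_update _ _ h2]
  have h4 := totN_update (Function.update σ x 0) x (by simp)
  rw [Function.update_idem, ← h1, Function.update_eq_self] at h4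
  exact h4

end

end Vale.Agent.P361.LRO.S3
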