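import Vale.Agent.P361.LRO.Tw.J.Unif
import Vale.Agent.P361.LRO.Tw.Gibbs
import Vale.Agent.P361.LRO.S3.LT0Bridge
import Vale.Agent.P361.B.Prelim

/-!
P361, stage 3, lower tail: traces of functions of the block spin against the magnon number
(`J_max - J` against `J_max - S³`), free region.
-/

namespace Vale.Agent.P361.LRO.S3

open Matrix Finset
open Vale.Agent.P361.LRO.TwJ

set_option linter.all false

noncomputable section

variable {V : Type} [Fintype V] [DecidableEq V]

theorem swap_comm_Sg (x y : V) (A : M2) :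
    cm (swapM x y) * Sg univ A = Sg univ A * cm (swapM x y) := by
  have hinv : ∀ σ τ : V → Fin 2, σ = τ ∘ Equiv.swap x y ↔ τ = σ ∘ Equiv.swap x y := by
    intro σ τ
    constructor
    · intro h; rw [h]; ext1 z; simp
    · intro h; rw [h]; ext1 z; simp
  ext σ τ
  have h1 : (cm (swapM x y) * Sg univ A : Opr V) σ τ = Sg univ A (σ ∘ Equiv.swap x y) τ := by
    rw [Matrix.mul_apply, Finset.sum_eq_single (σ ∘ Equiv.swap x y)]
    · rw [cm, Matrix.of_apply, swapM, Matrix.of_apply, if_pos ((hinv _ _).2 rfl)]; simp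
    · intro ρ _ hρ
      rw [cm, Matrix.of_apply, swapM, Matrix.of_apply, if_neg (fun h => hρ ((hinv _ _).1 h))]; simp
    · intro h; exact absurd (Finset.mem_univ _) h
  have h2 : (Sg univ A * cm (swapM x y) : Opr V) σ τ = Sg univ A σ (τ ∘ Equiv.swap x y) := by
    rw [Matrix.mul_apply, Finset.sum_eq_single (τ ∘ Equiv.swap x y)]
    · rw [cm, Matrix.of_apply, swapM, Matrix.of_apply, if_pos rfl]; simp
    · intro ρ _ hρ
      rw [cm, Matrix.of_apply, swapM, Matrix.of_apply, if_neg hρ]; simp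
    · intro h; exact absurd (Finset.mem_univ _) h
  rw [h1, h2, Sg, Matrix.sum_apply, Matrix.sum_apply]
  refine Finset.sum_equiv (Equiv.swap x y) (fun _ => by simp) fun z _ => ?_
  rw [st_apply, st_apply]
  simp only [Function.comp_apply, Equiv.swap_apply_self]
  congr 1
  have key : (∀ u, u ≠ z → σ (Equiv.swap x y u) = τ u) ↔
      (∀ u, u ≠ Equiv.swap x y z → σ u = τ (Equiv.swap x y u)) := by
    constructor
    · intro h u hu
      have := h (Equiv.swap x y u) (fun h' => hu (by rw [← h', Equiv.swap_apply_self]))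
      rwa [Equiv.swap_apply_self] at this
    · intro h u hu
      have := h (Equiv.swap x y u) (fun h' => hu ((Equiv.swap x y).injective h'))
      rwa [Equiv.swap_apply_self] at this
  simp only [key]

theorem hM_comm_Sg (x y : V) (A : M2) : cm (hM x y) * Sg univ A = Sg univ A * cm (hM x y) := by
  rw [hM, cm_smul, cm_sub, cm_one, Matrix.smul_mul, Matrix.mul_smul, Matrix.sub_mul,
    Matrix.mul_sub, one_mul, mul_one, swap_comm_Sg]

theorem ham_comm_Sg (L : List (V × V)) (A : M2) :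
    cm (ham L 0) * Sg univ A = Sg univ A * cm (ham L 0) := by
  have e : ham L (0 : V → ℝ) = (L.map fun e => hM e.1 e.2).sum := by
    rw [ham]; simp
  rw [e]
  induction L with
  | nil =>
    have : cm (0 : Matrix (V → Fin 2) (V → Fin 2) ℝ) = 0 := by
      ext σ τ; simp [cm]
    simp [this]
  | cons a L ih =>
    have ih' := ih (by rw [ham]; simp)
    rw [List.map_cons, List.sum_cons, cm_add, add_mul, mul_add, ih', hM_comm_Sg]

theorem cm_inj {A B : Matrix (V → Fin 2) (V → Fin 2) ℝ} (h : cm A = cm B) : A = B := by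
  ext σ τ
  have := congrFun (congrFun h σ) τ
  rw [cm, cm, Matrix.of_apply, Matrix.of_apply] at this
  exact_mod_cast this

theorem ham_comm_Om (L : List (V × V)) : Commute (ham L 0) (Om (univ : Finset V)) := by
  apply cm_inj
  rw [cm_mul, cm_mul, cm_Om, Matrix.mul_sub, Matrix.sub_mul, Matrix.mul_smul, Matrix.smul_mul,
    one_mul, mul_one]
  congr 1
  have h1 := ham_comm_Sg L sm
  have h2 := ham_comm_Sg L sp
  have h3 := ham_comm_Sg L sz
  rw [Cas, mul_add, mul_add, add_mul, add_mul, h3, ← mul_assoc, h1, mul_assoc, h2, ← mul_assoc,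
    ← mul_assoc, h3, mul_assoc (Sg univ sz), h3, ← mul_assoc]

theorem ham_comm_Dn (L : List (V × V)) : Commute (ham L 0) (Dn (univ : Finset V)) := by
  apply cm_inj
  rw [cm_mul, cm_mul, cm_Dn, Matrix.mul_sub, Matrix.sub_mul, Matrix.mul_smul, Matrix.smul_mul,
    one_mul, mul_one, ham_comm_Sg]

theorem commute_aeval {A B : Matrix (V → Fin 2) (V → Fin 2) ℝ} (h : Commute A B)
    (P : Polynomial ℝ) : Commute A (Polynomial.aeval B P) := by
  induction P using Polynomial.induction_on with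
  | C a =>
    rw [Polynomial.aeval_C]
    exact Algebra.commute_algebraMap_right a A
  | add p q hp hq => rw [map_add]; exact hp.add_right hq
  | monomial n a ih =>
    rw [pow_succ, ← mul_assoc, map_mul, Polynomial.aeval_X]
    exact ih.mul_right h

theorem sp_comm_expH (L : List (V × V)) (β : ℝ) :
    Sg univ sp * cm (NormedSpace.exp (-β • ham L 0)) =
      cm (NormedSpace.exp (-β • ham L 0)) * Sg univ sp := by
  rw [cm_exp]
  have h : Commute (Sg (univ : Finset V) sp) (cm (-β • ham L 0)) := by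
    rw [cm_smul]
    exact Commute.smul_right (ham_comm_Sg L sp).symm _
  open scoped Matrix.Norms.Operator in
  exact h.exp_right

/-- **Comparison of the total spin with the magnon number**, real form. -/
theorem lt0_real (L : List (V × V)) (β : ℝ) {τ1 τ2 c1 c2 : ℝ} (hτ1 : 0 ≤ τ1) (hτ2 : 0 ≤ τ2)
    (hc1 : 0 ≤ c1) (hc2 : 0 ≤ c2) (G : Polynomial ℝ)
    (hG : ∀ r : ℕ, 2 * r ≤ Fintype.card V →
      Real.exp (G.eval ((r : ℝ) * ((Fintype.card V : ℝ) - r + 1))) ≤
        c1 * Real.exp (-(τ1 * r)) + c2 * Real.exp (-(τ2 * r))) :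
    trace (NormedSpace.exp (-β • ham L 0 + Polynomial.aeval (Om (univ : Finset V)) G)) ≤
      ((Fintype.card V : ℝ) + 1) *
        (c1 * trace (NormedSpace.exp (-β • ham L 0 - τ1 • Dn (univ : Finset V))) +
          c2 * trace (NormedSpace.exp (-β • ham L 0 - τ2 • Dn (univ : Finset V)))) := by
  have hsym : ∀ σ τ : V → Fin 2, NormedSpace.exp (-β • ham L 0) σ τ ≠ 0 →
      ∑ x, ((σ x : ℕ) : ℤ) = ∑ x, ((τ x : ℕ) : ℤ) := by
    intro σ τ h
    have h1 := Tw.expH_cons L β 0 σ τ h
    unfold Tw.dn at h1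
    exact_mod_cast h1
  obtain ⟨ι, hι, μ, N, r, p, hμ, hN, h, -, -⟩ :=
    joint_law_poly (Tw.expH_psd L β 0) hsym (univ : Finset V)
  rw [Finset.card_univ] at hN
  have hcard : (univ : Finset V).card = Fintype.card V := Finset.card_univ
  -- left side
  have e1 : trace (NormedSpace.exp (-β • ham L 0 + Polynomial.aeval (Om (univ : Finset V)) G)) =
      ∑ i, μ i * Real.exp (G.eval ((r i : ℝ) * ((Fintype.card V : ℝ) - r i + 1))) := by
    have hc : Commute (-β • ham L 0) (Polynomial.aeval (Om (univ : Finset V)) G) :=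
      (commute_aeval (ham_comm_Om L) G).smul_left _
    have h1 := law_exp h G 1
    simp only [Polynomial.eval_one, mul_one, map_one, hcard] at h1
    rw [h1]
    congr 1
    open scoped Matrix.Norms.Operator in
    exact NormedSpace.exp_add_of_commute hc
  have e2 : ∀ τ : ℝ, trace (NormedSpace.exp (-β • ham L 0 - τ • Dn (univ : Finset V))) =
      ∑ i, μ i * Real.exp (-(τ * ((r i : ℝ) + p i))) := by
    intro τ
    have hc : Commute (-β • ham L 0) (-τ • Dn (univ : Finset V)) :=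
      ((ham_comm_Dn L).smul_left _).smul_right _
    have h1 := law_exp2 h 0 (Polynomial.C (-τ) * Polynomial.X)
    simp only [Polynomial.eval_zero, Real.exp_zero, one_mul, Polynomial.eval_mul,
      Polynomial.eval_C, Polynomial.eval_X, map_zero, NormedSpace.exp_zero, map_mul,
      Polynomial.aeval_C, Polynomial.aeval_X, Algebra.algebraMap_eq_smul_one, Matrix.smul_mul,
      neg_mul] at h1
    rw [h1]
    congr 1
    rw [sub_eq_add_neg, ← neg_smul]
    open scoped Matrix.Norms.Operator in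
    exact NormedSpace.exp_add_of_commute hc
  have e3 : ∀ τ : ℝ, 0 ≤ τ → ∑ i, μ i * Real.exp (-(τ * r i)) ≤
      ((Fintype.card V : ℝ) + 1) *
        trace (NormedSpace.exp (-β • ham L 0 - τ • Dn (univ : Finset V))) := by
    intro τ hτ
    have h1 := law_le hμ (fun i => by rw [hcard]; exact (hN i).1) (fun i => (hN i).2) h
      (sp_comm_expH L β) (g := fun r : ℕ => Real.exp (-(τ * r))) (fun _ _ => (Real.exp_pos _).le)
    rw [hcard] at h1
    refine h1.trans (mul_le_mul_of_nonneg_left ?_ (by positivity))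
    rw [e2]
    refine Finset.sum_le_sum fun i _ => mul_le_mul_of_nonneg_left ?_ (hμ i)
    split_ifs with hp
    · rw [hp]; simp
    · exact (Real.exp_pos _).le
  rw [e1]
  calc ∑ i, μ i * Real.exp (G.eval ((r i : ℝ) * ((Fintype.card V : ℝ) - r i + 1))) ≤
        ∑ i, μ i * (c1 * Real.exp (-(τ1 * r i)) + c2 * Real.exp (-(τ2 * r i))) :=
        Finset.sum_le_sum fun i _ => mul_le_mul_of_nonneg_left
          (hG (r i) (by have := (hN i).1; omega)) (hμ i)
    _ = c1 * ∑ i, μ i * Real.exp (-(τ1 * r i)) + c2 * ∑ i, μ i * Real.exp (-(τ2 * r i)) := by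
        rw [Finset.mul_sum, Finset.mul_sum, ← Finset.sum_add_distrib]
        exact Finset.sum_congr rfl fun i _ => by ring
    _ ≤ c1 * (((Fintype.card V : ℝ) + 1) *
          trace (NormedSpace.exp (-β • ham L 0 - τ1 • Dn (univ : Finset V)))) +
        c2 * (((Fintype.card V : ℝ) + 1) *
          trace (NormedSpace.exp (-β • ham L 0 - τ2 • Dn (univ : Finset V)))) :=
        add_le_add (mul_le_mul_of_nonneg_left (e3 τ1 hτ1) hc1)
          (mul_le_mul_of_nonneg_left (e3 τ2 hτ2) hc2)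
    _ = _ := by ring

theorem cM_zero : cm (0 : Matrix (V → Fin 2) (V → Fin 2) ℝ) = 0 := by
  ext σ τ; simp [cm]

theorem cm_aeval (A : Matrix (V → Fin 2) (V → Fin 2) ℝ) (G : Polynomial ℝ) :
    cm (Polynomial.aeval A G) = Polynomial.aeval (cm A) (G.map (algebraMap ℝ ℂ)) := by
  induction G using Polynomial.induction_on with
  | C a =>
    rw [Polynomial.aeval_C, Algebra.algebraMap_eq_smul_one, cm_smul, cm_one, Polynomial.map_C,
      Polynomial.aeval_C, Algebra.algebraMap_eq_smul_one]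
    rfl
  | add p q hp hq => rw [map_add, cm_add, hp, hq, Polynomial.map_add, map_add]
  | monomial n a ih =>
    have e : Polynomial.map (algebraMap ℝ ℂ) (Polynomial.C a * Polynomial.X ^ n * Polynomial.X) =
        Polynomial.map (algebraMap ℝ ℂ) (Polynomial.C a * Polynomial.X ^ n) * Polynomial.X := by
      rw [Polynomial.map_mul, Polynomial.map_X]
    rw [pow_succ, ← mul_assoc, map_mul, Polynomial.aeval_X, cm_mul, ih, e, map_mul,
      Polynomial.aeval_X]

theorem casX_one (Λ : Finset Site) :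
    (B.casX 1 Λ : Matrix (Λ → Fin 2) (Λ → Fin 2) ℂ) = cm (CM (univ : Finset Λ)) := by
  have h0 : cm (CM (univ : Finset Λ)) = ∑ x : Λ, ∑ y : Λ, cm (hM x y) := by
    rw [CM, cm_sum]
    exact Finset.sum_congr rfl fun x _ => cm_sum _ _
  rw [h0, B.casX]
  refine Finset.sum_congr rfl fun x _ => Finset.sum_congr rfl fun y _ => ?_
  by_cases h : x = y
  · subst h
    rw [if_pos rfl, hM_self]
  · rw [if_neg h, ← Fp_ne h, ← dotOp_one h]
    congr 2
    norm_num

/-- **(T0)** the same in the free region `Λ ⊂ ℤ³`, with the partition functions `Zt`. -/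
theorem lt0_cm (Λ : Finset Site) (β : ℝ) {τ1 τ2 c1 c2 : ℝ} (hτ1 : 0 ≤ τ1) (hτ2 : 0 ≤ τ2)
    (hc1 : 0 ≤ c1) (hc2 : 0 ≤ c2) (G : Polynomial ℝ)
    (hG : ∀ r : ℕ, 2 * r ≤ Λ.card → Real.exp (G.eval ((r : ℝ) * ((Λ.card : ℝ) - r + 1))) ≤
      c1 * Real.exp (-(τ1 * r)) + c2 * Real.exp (-(τ2 * r))) :
    (trace (NormedSpace.exp (-((β : ℂ) • B.hT 1 Λ) +
      cm (Polynomial.aeval (CM (univ : Finset Λ)) G)))).re ≤
      ((Λ.card : ℝ) + 1) * (c1 * B.Zt 1 Λ β τ1 + c2 * B.Zt 1 Λ β τ2) := by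
  have hc : Fintype.card Λ = Λ.card := Fintype.card_coe Λ
  have h := lt0_real (V := Λ) (nnL Λ) (β / 2) hτ1 hτ2 hc1 hc2 G (by rw [hc]; exact hG)
  rw [hc] at h
  rw [free_trace, Zt_one, Zt_one]
  exact h

/-- **(T0)** with the landed operator `casX`. -/
theorem lt0 (Λ : Finset Site) (β : ℝ) {τ1 τ2 c1 c2 : ℝ} (hτ1 : 0 ≤ τ1) (hτ2 : 0 ≤ τ2)
    (hc1 : 0 ≤ c1) (hc2 : 0 ≤ c2) (G : Polynomial ℝ)
    (hG : ∀ r : ℕ, 2 * r ≤ Λ.card → Real.exp (G.eval ((r : ℝ) * ((Λ.card : ℝ) - r + 1))) ≤
      c1 * Real.exp (-(τ1 * r)) + c2 * Real.exp (-(τ2 * r))) :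
    (trace (NormedSpace.exp (-((β : ℂ) • B.hT 1 Λ) +
      Polynomial.aeval (B.casX 1 Λ) (G.map (algebraMap ℝ ℂ))))).re ≤
      ((Λ.card : ℝ) + 1) * (c1 * B.Zt 1 Λ β τ1 + c2 * B.Zt 1 Λ β τ2) := by
  have h := lt0_cm Λ β hτ1 hτ2 hc1 hc2 G hG
  rw [cm_aeval, ← casX_one] at h
  exact h

end

end Vale.Agent.P361.LRO.S3
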