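import Vale.Agent.P361.LRO.Fin.Bridge
import Vale.Agent.P361.LRO.Fin.TorusPress
import Vale.Agent.P361.B.Uniform
import Vale.Agent.P361.Bridge

/-!
P361, stage 3: the free energy per site on the torus, `log Tr exp(-β ham) / n³ - β h / 2`, tends to
the reduced pressure `gRed 1 β h`; landed lower bound.
-/

namespace Vale.Agent.P361.LRO.S3

open Finset Matrix Filter Topology

noncomputable section

/-- `log Tr exp(-β (H + h N))`, `N` = number of down spins. -/
def logZ (n : ℕ) [NeZero n] (β h : ℝ) : ℝ :=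
  Real.log (trace (NormedSpace.exp (-β • ham (edges n) fun _ => h))) - β * h / 2 * (n : ℝ) ^ 3

theorem logTr_torus {n : ℕ} [NeZero n] (hn : 3 ≤ n) (β h : ℝ) :
    Model.logTr 1 (torusAdj n) β h = β / 4 * (3 * (n : ℝ) ^ 3) +
      Real.log (trace (NormedSpace.exp (-β • ham (edges n) fun _ => h))) := by
  have hex : NormedSpace.exp (expoV 1 (torusAdj n) β h) =
      ((Real.exp (β / 4 * (Fintype.card (Tor n × Fin 3))) : ℝ) : ℂ) •
        cM (NormedSpace.exp (-β • ham (edges n) (fun _ => h))) := by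
    rw [expoV_eq_cM hn, exp_add_smul_one, exp_cM]
  have h1 : Model.logTr 1 (torusAdj n) β h =
      Real.log (trace (NormedSpace.exp (expoV 1 (torusAdj n) β h))).re := rfl
  have hcard : (Fintype.card (Tor n × Fin 3) : ℝ) = 3 * (n : ℝ) ^ 3 := by
    rw [Fintype.card_prod, Fintype.card_fun, ZMod.card, Fintype.card_fin]
    push_cast
    ring
  have hpos : 0 < trace (NormedSpace.exp (-β • ham (edges n) (fun _ : Tor n => h))) := by
    have h1 := trace_exp_pos (expoV_isHermitian 1 (torusAdj n) (torusAdj_irrefl (by omega)) β h)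
    rw [hex, Matrix.trace_smul, trace_cM, smul_eq_mul, ← Complex.ofReal_mul,
      Complex.ofReal_re] at h1
    exact (mul_pos_iff_of_pos_left (Real.exp_pos _)).1 h1
  rw [h1, hex, Matrix.trace_smul, trace_cM, smul_eq_mul, ← Complex.ofReal_mul,
    Complex.ofReal_re, Real.log_mul (Real.exp_pos _).ne' hpos.ne', Real.log_exp, hcard]

theorem logZ_tendsto {β : ℝ} (hβ : 0 < β) (h : ℝ) :
    Tendsto (fun N : ℕ => logZ (2 * N + 1) β h / ((2 * N + 1 : ℕ) : ℝ) ^ 3) atTop
      (𝓝 (B.gRed 1 β h)) := by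
  have h1 := (pressTorus_tendsto 1 hβ h).const_mul β
  have h2 := (h1.sub_const (β * (3 / 4))).sub_const (β * h / 2)
  have e : β * Model.pressure 1 β h - β * (3 / 4) - β * h / 2 = B.gRed 1 β h := by
    unfold B.gRed
    rw [Bridge.pressure_eq]
    push_cast
    ring
  rw [e] at h2
  refine h2.congr' ?_
  filter_upwards [eventually_ge_atTop 1] with N hN
  unfold pressTorus logZ
  rw [logTr_torus (by omega)]
  have hp : (0 : ℝ) < 2 * (N : ℝ) + 1 := by positivity
  push_cast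
  field_simp
  ring

/-- Lower bound of the free energy on large tori. -/
theorem logZ_lower : ∃ K : ℝ, 1 ≤ K ∧ ∀ β : ℝ, K ≤ β → ∀ h : ℝ, 0 ≤ h → ∀ ε : ℝ, 0 < ε →
    ∃ n0 : ℕ, ∀ (n : ℕ) [NeZero n], n0 ≤ n → Odd n →
      ((1 - K / β) * B.FS (1 / 2) (β * h) / Real.sqrt β ^ 3 - ε) * (n : ℝ) ^ 3 ≤ logZ n β h := by
  obtain ⟨K, hK1, hK⟩ := B.gRed_lower (n := 1) le_rfl
  refine ⟨K, hK1, fun β hβK h hh ε hε => ?_⟩
  have hβ : 0 < β := by linarith
  have hs : 0 < Real.sqrt β ^ 3 := by positivity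
  have hth : 0 ≤ β * h := by positivity
  have h1 : (1 - K / β) * B.FS (1 / 2) (β * h) / Real.sqrt β ^ 3 ≤ B.gRed 1 β h := by
    rw [div_le_iff₀ hs]
    have h2 := (B.FR_tendsto (1 / 2) hth).const_mul (1 - K / β)
    refine le_of_tendsto' h2 fun R => ?_
    have := hK β hβK h hh R
    push_cast at this
    linarith
  have h3 := (tendsto_order.1 (logZ_tendsto hβ h)).1
    ((1 - K / β) * B.FS (1 / 2) (β * h) / Real.sqrt β ^ 3 - ε) (by linarith)
  obtain ⟨N0, hN0⟩ := eventually_atTop.1 h3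
  refine ⟨2 * N0 + 1, fun n _ hn hodd => ?_⟩
  obtain ⟨N, rfl⟩ := hodd
  have h4 := hN0 N (by omega)
  rw [lt_div_iff₀ (by positivity)] at h4
  exact h4.le

end

end Vale.Agent.P361.LRO.S3
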