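import Vale.Agent.P361.LRO.S3.LT1A
import Vale.Agent.P361.LRO.S3.TorLow
import Vale.Agent.P361.LRO.Fin.Base
import Vale.Agent.P361.B.Paths

/-!
P361, stage 3, block (T), leaf (T1): Peierls–Bogoliubov on the torus with decoupled blocks.

For a function `G(C_b)` of the Casimir operator of a block `b` of side `R`,
`⟨G(C_b)⟩ ≤ log Tr_b exp(-β H_b + G(C_b)) - R³ g(β, h) + o(1)` as `n → ∞`, uniformly in `G`.
-/

namespace Vale.Agent.P361.LRO.S3

open Matrix Finset Filter Topology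
open Vale.Agent.P361.LRO.Energy (Cfg ex cpx)
open Vale.Agent.P361.LRO.Loc3
open Vale.Agent.P361.LRO.Bs (relab subm_sub subm_sum subm_smul subm_add exp_submatrix_real
  trace_submatrix_real szM_relab hM_relab edges_translate)
open scoped ComplexOrder

noncomputable section

namespace LT1

/-- The block `x + [0,R)³` of the torus. -/
def bl (n R : ℕ) (x : Tor n) (z : B.cube R) : Tor n := x + fun i => ((z.1 i : ℤ) : ZMod n)

theorem bl_injective {n R : ℕ} (hR : R ≤ n) (x : Tor n) : Function.Injective (bl n R x) := by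
  intro u v h
  apply Subtype.ext
  funext i
  have hu := B.mem_cube'.1 u.2 i
  have hv := B.mem_cube'.1 v.2 i
  have h1 := congrFun (add_left_cancel h) i
  refine cast_eq_imp h1 ?_
  have : (R : ℤ) ≤ n := by exact_mod_cast hR
  rw [abs_lt]
  constructor <;> linarith [hu.1, hu.2, hv.1, hv.2]

theorem cube_eq_bl (n R : ℕ) [NeZero n] (x : Tor n) : cube n x R = univ.image (bl n R x) := by
  ext y
  simp only [cube, Finset.mem_image, Finset.mem_univ, true_and]
  constructor
  · rintro ⟨a, rfl⟩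
    refine ⟨⟨fun i => ((a i : ℕ) : ℤ), B.mem_cube'.2 fun i => ⟨by positivity, ?_⟩⟩, ?_⟩
    · exact_mod_cast (a i).2
    · simp [bl]
  · rintro ⟨z, rfl⟩
    have hz := B.mem_cube'.1 z.2
    refine ⟨fun i => ⟨(z.1 i).toNat, by have := hz i; omega⟩, ?_⟩
    simp only [bl]
    congr 1
    funext i
    have h1 : (((z.1 i).toNat : ℕ) : ℤ) = z.1 i := Int.toNat_of_nonneg (hz i).1
    have h2 : ((((z.1 i).toNat : ℕ) : ℤ) : ZMod n) = ((z.1 i : ℤ) : ZMod n) := by rw [h1]
    rw [← h2, Int.cast_natCast]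

theorem cpx_CM {n R : ℕ} [NeZero n] (hR : R ≤ n) (x : Tor n) :
    cpx (CM (cube n x R)) = emb (bl n R x) (B.casX 1 (B.cube R)) := by
  have hinj := bl_injective hR x
  rw [CM, cube_eq_bl, Finset.sum_image fun a _ b _ h => hinj h, Energy.cpx_sum, casX_eq_hM,
    emb_sum]
  refine Finset.sum_congr rfl fun u _ => ?_
  rw [Finset.sum_image fun a _ b _ h => hinj h, Energy.cpx_sum, emb_sum]
  refine Finset.sum_congr rfl fun v _ => ?_
  rw [Energy.cpx_hM, emb_hM hinj]

theorem cpx_aeval {V : Type} [Fintype V] [DecidableEq V] (A : Matrix (Cfg V) (Cfg V) ℝ)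
    (G : Polynomial ℝ) :
    cpx (Polynomial.aeval A G) = Polynomial.aeval (cpx A) (G.map (algebraMap ℝ ℂ)) := by
  rw [Polynomial.aeval_map_algebraMap]
  exact (Polynomial.aeval_algHom_apply (AlgHom.mapMatrix Complex.ofRealAm) A G).symm

theorem cpx_aeval_CM {n R : ℕ} [NeZero n] (hR : R ≤ n) (x : Tor n) (G : Polynomial ℝ) :
    cpx (Polynomial.aeval (CM (cube n x R)) G) =
      emb (bl n R x) (Polynomial.aeval (B.casX 1 (B.cube R)) (G.map (algebraMap ℝ ℂ))) := by
  rw [cpx_aeval, cpx_CM hR]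
  exact aeval_emb (bl_injective hR x) _ _

/-! ### Translation invariance -/

theorem CM_relab {V : Type} [Fintype V] [DecidableEq V] (g : V ≃ V) (b : Finset V) :
    (CM (b.image g)).submatrix (relab g) (relab g) = CM b := by
  unfold CM
  rw [Finset.sum_image fun a _ b _ h => g.injective h, subm_sum]
  refine Finset.sum_congr rfl fun x _ => ?_
  rw [Finset.sum_image fun a _ b _ h => g.injective h, subm_sum]
  refine Finset.sum_congr rfl fun y _ => ?_
  exact hM_relab g x y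

theorem aeval_submatrix {ι : Type*} [Fintype ι] [DecidableEq ι] (E : ι ≃ ι) (M : Matrix ι ι ℝ)
    (G : Polynomial ℝ) :
    (Polynomial.aeval M G).submatrix E E = Polynomial.aeval (M.submatrix E E) G :=
  (Polynomial.aeval_algHom_apply (Matrix.reindexAlgEquiv ℝ ℝ E.symm).toAlgHom M G).symm

theorem cube_image_add (n R : ℕ) [NeZero n] (x v : Tor n) :
    (cube n x R).image (Equiv.addRight v) = cube n (x + v) R := by
  rw [cube_eq_bl, cube_eq_bl, Finset.image_image]
  congr 1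
  funext z
  simp only [Function.comp_apply, Equiv.coe_addRight, bl]
  abel

theorem ham_relab {n : ℕ} [NeZero n] (h : ℝ) (v : Tor n) :
    (ham (edges n) fun _ => h).submatrix (relab (Equiv.addRight v)) (relab (Equiv.addRight v)) =
      ham (edges n) fun _ => h := by
  set g : Tor n ≃ Tor n := Equiv.addRight v with hg
  unfold ham
  rw [subm_sub]
  congr 1
  · have h2 : ∀ L : List (Tor n × Tor n),
        ((L.map fun e => LRO.hM (g e.1) (g e.2)).sum).submatrix (relab g) (relab g) =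
          (L.map fun e => LRO.hM e.1 e.2).sum := by
      intro L
      induction L with
      | nil => ext i j; rfl
      | cons a L ih =>
        rw [List.map_cons, List.sum_cons, List.map_cons, List.sum_cons, subm_add, ih, hM_relab]
    conv_lhs => rw [edges_translate (fun a b => LRO.hM a b) v]
    exact h2 (edges n)
  · rw [subm_sum, ← Equiv.sum_comp g]
    refine Finset.sum_congr rfl fun y _ => ?_
    rw [subm_smul, szM_relab]

theorem gib_translate {n : ℕ} [NeZero n] (β h : ℝ) (v : Tor n)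
    (A : Matrix (Tor n → Fin 2) (Tor n → Fin 2) ℝ) :
    gib (edges n) β (fun _ => h) (A.submatrix (relab (Equiv.addRight v)) (relab (Equiv.addRight v))) =
      gib (edges n) β (fun _ => h) A := by
  have h2 : NormedSpace.exp (-β • ham (edges n) (fun _ => h)) =
      (NormedSpace.exp (-β • ham (edges n) (fun _ => h))).submatrix
        (relab (Equiv.addRight v)) (relab (Equiv.addRight v)) := by
    conv_lhs => rw [← ham_relab h v]
    rw [← exp_submatrix_real]
    congr 1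
  unfold gib
  conv_lhs => rw [h2, Matrix.submatrix_mul_equiv, trace_submatrix_real, trace_submatrix_real]

theorem gib_CM_translate {n : ℕ} [NeZero n] (β h : ℝ) (R : ℕ) (x v : Tor n) (G : Polynomial ℝ) :
    gib (edges n) β (fun _ => h) (Polynomial.aeval (CM (cube n (x + v) R)) G) =
      gib (edges n) β (fun _ => h) (Polynomial.aeval (CM (cube n x R)) G) := by
  rw [← gib_translate β h v (Polynomial.aeval (CM (cube n (x + v) R)) G), aeval_submatrix,
    ← cube_image_add, CM_relab]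

/-! ### The tiling -/

/-- The blocks `R y + [0,R)³`, `y ∈ [0,m)³`. -/
def tl (n R m : ℕ) (y : Fin 3 → Fin m) : B.cube R → Tor n :=
  bl n R fun i => (((R * (y i : ℕ) : ℕ) : ℤ) : ZMod n)

theorem tl_apply (n R m : ℕ) (y : Fin 3 → Fin m) (u : B.cube R) (i : Fin 3) :
    tl n R m y u i = (((R * (y i : ℕ) : ℕ) : ℤ) + u.1 i : ℤ) := by
  simp [tl, bl]

theorem tl_inj {n R m : ℕ} (hm : R * m ≤ n) {y y' : Fin 3 → Fin m} {u u' : B.cube R}
    (h : tl n R m y u = tl n R m y' u') : y = y' ∧ u = u' := by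
  have key : ∀ i, (y i : ℕ) = (y' i : ℕ) ∧ u.1 i = u'.1 i := by
    intro i
    have hu := B.mem_cube'.1 u.2 i
    have hu' := B.mem_cube'.1 u'.2 i
    have h1 := congrFun h i
    rw [tl_apply, tl_apply] at h1
    have hy : (y i : ℕ) + 1 ≤ m := (y i).2
    have hy' : (y' i : ℕ) + 1 ≤ m := (y' i).2
    have b1 : R * (y i : ℕ) + R ≤ n := by
      calc R * (y i : ℕ) + R = R * ((y i : ℕ) + 1) := by ring
        _ ≤ R * m := Nat.mul_le_mul_left _ hy
        _ ≤ n := hm
    have b2 : R * (y' i : ℕ) + R ≤ n := by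
      calc R * (y' i : ℕ) + R = R * ((y' i : ℕ) + 1) := by ring
        _ ≤ R * m := Nat.mul_le_mul_left _ hy'
        _ ≤ n := hm
    have b1' : ((R * (y i : ℕ) : ℕ) : ℤ) + R ≤ n := by exact_mod_cast b1
    have b2' : ((R * (y' i : ℕ) : ℕ) : ℤ) + R ≤ n := by exact_mod_cast b2
    have c1 : (0 : ℤ) ≤ ((R * (y i : ℕ) : ℕ) : ℤ) := by positivity
    have c2 : (0 : ℤ) ≤ ((R * (y' i : ℕ) : ℕ) : ℤ) := by positivity
    have h2 := cast_eq_imp h1 (by rw [abs_lt]; constructor <;> linarith [hu.1, hu.2, hu'.1, hu'.2])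
    have hR : 0 < (R : ℤ) := by linarith [hu.1, hu.2]
    have h3 : (y i : ℤ) = (y' i : ℤ) := by
      push_cast at h2
      rcases lt_trichotomy ((y i : ℕ) : ℤ) ((y' i : ℕ) : ℤ) with h4 | h4 | h4
      · exfalso
        have h5 : ((y i : ℕ) : ℤ) + 1 ≤ (y' i : ℕ) := h4
        have h6 := mul_le_mul_of_nonneg_left h5 hR.le
        linarith [hu.1, hu.2, hu'.1, hu'.2]
      · exact h4
      · exfalso
        have h5 : ((y' i : ℕ) : ℤ) + 1 ≤ (y i : ℕ) := h4
        have h6 := mul_le_mul_of_nonneg_left h5 hR.le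
        linarith [hu.1, hu.2, hu'.1, hu'.2]
    have h4 : (y i : ℕ) = (y' i : ℕ) := by exact_mod_cast h3
    refine ⟨h4, ?_⟩
    rw [h4] at h2
    linarith
  exact ⟨funext fun i => Fin.ext (key i).1, Subtype.ext (funext fun i => (key i).2)⟩

theorem tl_adj {n R m : ℕ} (y : Fin 3 → Fin m) {u v : B.cube R} (h : IsNN u.1 v.1) :
    torusAdj n (tl n R m y u) (tl n R m y v) := by
  obtain ⟨i, h1, h2⟩ := nn_iff.1 h
  refine ⟨i, ?_, fun j hj => ?_⟩
  · rcases h1 with h1 | h1
    · left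
      rw [tl_apply, tl_apply, h1]; push_cast; ring
    · right
      rw [tl_apply, tl_apply, h1]; push_cast; ring
  · rw [tl_apply, tl_apply, h2 j hj]

theorem psd_sub {ι κ σ : Type*} [Fintype σ] [DecidableEq σ] [DecidableEq κ] {s : Finset ι} {t : Finset κ}
    {f : ι → κ} (hinj : Set.InjOn f s) (hf : ∀ i ∈ s, f i ∈ t) {g : κ → Matrix σ σ ℂ}
    (hg : ∀ k, (g k).PosSemidef) : (∑ k ∈ t, g k - ∑ i ∈ s, g (f i)).PosSemidef := by
  have h1 : ∑ i ∈ s, g (f i) = ∑ k ∈ s.image f, g k := (Finset.sum_image hinj).symm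
  have h2 : s.image f ⊆ t := by
    intro k hk
    obtain ⟨i, hi, rfl⟩ := Finset.mem_image.1 hk
    exact hf i hi
  rw [h1, ← Finset.sum_sdiff h2, add_sub_cancel_right]
  exact Matrix.posSemidef_sum _ fun k _ => hg k

theorem hM_comm {V : Type} [Fintype V] [DecidableEq V] (x y : V) :
    (Energy.hM x y : Matrix (Cfg V) (Cfg V) ℂ) = Energy.hM y x := by
  rw [Energy.hM, Energy.hM, Energy.swapM, Energy.swapM, Equiv.swap_comm]

/-- Dropping the bonds between the blocks. -/
theorem bonds_le {n R m : ℕ} [NeZero n] (hn : 3 ≤ n) (hm : R * m ≤ n) :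
    (∑ z : Tor n × Fin 3, Energy.hM z.1 (z.1 + Pi.single z.2 1) -
      ∑ y : Fin 3 → Fin m, emb (tl n R m y) (B.hT 1 (B.cube R))).PosSemidef := by
  have e1 : (∑ z : Tor n × Fin 3, Energy.hM z.1 (z.1 + Pi.single z.2 1) :
      Matrix (Cfg (Tor n)) (Cfg (Tor n)) ℂ) =
      (1 / 2 : ℂ) • ∑ p ∈ (Finset.univ : Finset (Tor n × Tor n)).filter
        (fun p => torusAdj n p.1 p.2), Energy.hM p.1 p.2 := by
    have h1 := sum_torusAdj hn (fun a b => (Energy.hM a b : Matrix (Cfg (Tor n)) (Cfg (Tor n)) ℂ))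
    have h2 : (∑ z : (Fin 3 → ZMod n) × Fin 3, Energy.hM (z.1 + Pi.single z.2 1) z.1 :
        Matrix (Cfg (Tor n)) (Cfg (Tor n)) ℂ) =
        ∑ z : (Fin 3 → ZMod n) × Fin 3, Energy.hM z.1 (z.1 + Pi.single z.2 1) :=
      Finset.sum_congr rfl fun z _ => hM_comm _ _
    rw [h2] at h1
    have h3 : (∑ p : Tor n × Tor n, if torusAdj n p.1 p.2 then Energy.hM p.1 p.2 else 0 :
        Matrix (Cfg (Tor n)) (Cfg (Tor n)) ℂ) =
        ∑ x, ∑ y, if torusAdj n x y then Energy.hM x y else 0 := Fintype.sum_prod_type _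
    rw [Finset.sum_filter, h3, h1, ← two_smul ℂ, smul_smul]
    norm_num
  have e2 : (∑ y : Fin 3 → Fin m, emb (tl n R m y) (B.hT 1 (B.cube R)) :
      Matrix (Cfg (Tor n)) (Cfg (Tor n)) ℂ) =
      (1 / 2 : ℂ) • ∑ q ∈ (Finset.univ : Finset ((Fin 3 → Fin m) × (B.cube R × B.cube R))).filter
        (fun q => IsNN q.2.1.1 q.2.2.1), Energy.hM (tl n R m q.1 q.2.1) (tl n R m q.1 q.2.2) := by
    rw [Finset.sum_filter, Fintype.sum_prod_type, Finset.smul_sum]
    refine Finset.sum_congr rfl fun y _ => ?_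
    rw [hT_eq_hM, emb_smul, emb_sum, Fintype.sum_prod_type]
    congr 1
    refine Finset.sum_congr rfl fun u _ => ?_
    rw [emb_sum]
    refine Finset.sum_congr rfl fun v _ => ?_
    split_ifs with h
    · exact emb_hM (fun a b hab => (tl_inj hm hab).2) u v
    · exact emb_zero _
  rw [e1, e2, ← smul_sub]
  refine Matrix.PosSemidef.smul ?_ (by norm_num [Complex.le_def])
  refine psd_sub (f := fun q : (Fin 3 → Fin m) × (B.cube R × B.cube R) =>
    (tl n R m q.1 q.2.1, tl n R m q.1 q.2.2)) (g := fun p : Tor n × Tor n => Energy.hM p.1 p.2)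
    ?_ ?_ (fun p => Energy.hM_posSemidef _ _)
  · intro q _ q' _ h
    obtain ⟨h1, h2⟩ := Prod.mk.inj h
    obtain ⟨a1, a2⟩ := tl_inj hm h1
    obtain ⟨b1, b2⟩ := tl_inj hm h2
    exact Prod.ext a1 (Prod.ext a2 b2)
  · intro q hq
    rw [Finset.mem_filter] at hq ⊢
    exact ⟨Finset.mem_univ _, tl_adj q.1 hq.2⟩

/-- The exponent of the Gibbs state. -/
theorem cpx_expo {n : ℕ} [NeZero n] (β h : ℝ) :
    cpx (-β • ham (edges n) fun _ => h) =
      -((β : ℂ) • ∑ z : Tor n × Fin 3, Energy.hM z.1 (z.1 + Pi.single z.2 1)) +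
        ∑ x : Tor n, ((β * h : ℝ) : ℂ) • Energy.szM x := by
  rw [ham, Bs.edges_map_sum (fun a b => LRO.hM a b), smul_sub, Energy.cpx_sub, Energy.cpx_smul,
    Energy.cpx_smul, Energy.cpx_sum, Energy.cpx_sum]
  simp only [Energy.cpx_smul, Energy.cpx_szM, Energy.cpx_hM, Finset.smul_sum, smul_smul]
  rw [sub_eq_add_neg, ← Finset.sum_neg_distrib, ← Finset.sum_neg_distrib]
  congr 1
  · refine Finset.sum_congr rfl fun x _ => ?_
    rw [← neg_smul]
    congr 1
    push_cast
    ring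
  · refine Finset.sum_congr rfl fun x _ => ?_
    rw [← neg_smul]
    congr 1
    push_cast
    ring

/-- The decoupled exponent. -/
def dec (n R m : ℕ) [NeZero n] (β h : ℝ) : Matrix (Cfg (Tor n)) (Cfg (Tor n)) ℂ :=
  ((β * h / 2 * (n : ℝ) ^ 3 : ℝ) : ℂ) • (1 : Matrix (Cfg (Tor n)) (Cfg (Tor n)) ℂ) -
    (β : ℂ) • ∑ y : Fin 3 → Fin m, emb (tl n R m y) (B.hT 1 (B.cube R))

theorem dec_sub {n R m : ℕ} [NeZero n] (hn : 3 ≤ n) (hm : R * m ≤ n) {β h : ℝ} (hβ : 0 ≤ β)
    (hh : 0 ≤ h) : (dec n R m β h - cpx (-β • ham (edges n) fun _ => h)).PosSemidef := by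
  have e1 : dec n R m β h - cpx (-β • ham (edges n) fun _ => h) =
      (β : ℂ) • (∑ z : Tor n × Fin 3, Energy.hM z.1 (z.1 + Pi.single z.2 1) -
        ∑ y : Fin 3 → Fin m, emb (tl n R m y) (B.hT 1 (B.cube R))) +
      ∑ x : Tor n, ((β * h : ℝ) : ℂ) •
        ((1 / 2 : ℂ) • (1 : Matrix (Cfg (Tor n)) (Cfg (Tor n)) ℂ) - Energy.szM x) := by
    rw [cpx_expo, dec]
    simp only [smul_sub, Finset.sum_sub_distrib, Finset.sum_const, Finset.card_univ,
      Fintype.card_fun, ZMod.card, Fintype.card_fin]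
    rw [← Nat.cast_smul_eq_nsmul ℂ, smul_smul, smul_smul]
    push_cast
    have e2 : (β : ℂ) * h / 2 * (n : ℂ) ^ 3 = (n : ℂ) ^ 3 * (β * h) * (1 / 2) := by ring
    rw [e2]
    abel
  rw [e1]
  refine (Energy.smul_real_posSemidef (bonds_le hn hm) hβ).add ?_
  exact Matrix.posSemidef_sum _ fun x _ =>
    Energy.smul_real_posSemidef (Energy.half_sub_szM_posSemidef x) (mul_nonneg hβ hh)

theorem casX_isHermitian' (R : ℕ) : (B.casX 1 (B.cube R)).IsHermitian := by
  rw [casX_eq_hM]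
  exact Energy.sum_isHermitian _ fun x _ => Energy.sum_isHermitian _ fun y _ =>
    Energy.hM_isHermitian x y

theorem aeval_isHermitian {ι : Type*} [Fintype ι] [DecidableEq ι] {A : Matrix ι ι ℂ}
    (hA : A.IsHermitian) (G : Polynomial ℝ) :
    (Polynomial.aeval A (G.map (algebraMap ℝ ℂ))).IsHermitian := by
  rw [Polynomial.aeval_map_algebraMap]
  induction G using Polynomial.induction_on' with
  | add p q hp hq => rw [map_add]; exact hp.add hq
  | monomial k a =>
    rw [Polynomial.aeval_monomial, Algebra.algebraMap_eq_smul_one, Matrix.smul_mul, Matrix.one_mul]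
    have h1 : (A ^ k).IsHermitian := hA.pow k
    rw [Matrix.IsHermitian, Matrix.conjTranspose_smul, h1]
    simp

theorem card_cubeB (R : ℕ) : Fintype.card (B.cube R) = R ^ 3 := by
  rw [Fintype.card_coe, B.cube_eq, card_cube]

/-- The inequality in finite volume. -/
theorem lt1_fin {n R m : ℕ} [NeZero n] (hn : 3 ≤ n) (hR : R ≤ n) (hm : R * m ≤ n) {β h : ℝ}
    (hβ : 0 ≤ β) (hh : 0 ≤ h) (x : Tor n) (G : Polynomial ℝ) :
    (m : ℝ) ^ 3 * gib (edges n) β (fun _ => h) (Polynomial.aeval (CM (cube n x R)) G) ≤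
      (m : ℝ) ^ 3 * (Real.log (trace (NormedSpace.exp (-((β : ℂ) • B.hT 1 (B.cube R)) +
        Polynomial.aeval (B.casX 1 (B.cube R)) (G.map (algebraMap ℝ ℂ))))).re -
          (R : ℝ) ^ 3 * Real.log 2) + (n : ℝ) ^ 3 * Real.log 2 - logZ n β h := by
  set w0 := Polynomial.aeval (B.casX 1 (B.cube R)) (G.map (algebraMap ℝ ℂ)) with hw0
  have hw : w0.IsHermitian := aeval_isHermitian (casX_isHermitian' R) G
  have hT : (B.hT 1 (B.cube R)).IsHermitian := B.hT_isHermitian
  set A : Matrix (Cfg (B.cube R)) (Cfg (B.cube R)) ℂ := -((β : ℂ) • B.hT 1 (B.cube R)) + w0 with hA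
  have hAh : A.IsHermitian := (Energy.smul_real_isHermitian hT β).neg.add hw
  set X := cpx (-β • ham (edges n) fun _ => h) with hX
  have hXh : X.IsHermitian := by
    rw [hX, cpx_expo]
    exact (Energy.smul_real_isHermitian (Energy.sum_isHermitian _ fun z _ =>
      Energy.hM_isHermitian _ _) β).neg.add (Energy.sum_isHermitian _ fun x _ =>
      Energy.smul_real_isHermitian (Energy.szM_isHermitian x) _)
  set Y : Matrix (Cfg (Tor n)) (Cfg (Tor n)) ℂ := ∑ y : Fin 3 → Fin m, emb (tl n R m y) w0 with hY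
  have hYh : Y.IsHermitian := Energy.sum_isHermitian _ fun y _ => emb_isHermitian _ hw
  have hPB := Vale.Agent.P361.peierls_bogoliubov hXh hYh
  -- the expectation
  have h1 : (trace (NormedSpace.exp X * Y)).re / (trace (NormedSpace.exp X)).re =
      (m : ℝ) ^ 3 * gib (edges n) β (fun _ => h) (Polynomial.aeval (CM (cube n x R)) G) := by
    have h2 : ex X Y = ∑ y : Fin 3 → Fin m, ex X (emb (tl n R m y) w0) :=
      Energy.ex_sum X Finset.univ _
    have h3 : ∀ y : Fin 3 → Fin m, ex X (emb (tl n R m y) w0) =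
        gib (edges n) β (fun _ => h) (Polynomial.aeval (CM (cube n x R)) G) := by
      intro y
      rw [Energy.gib_eq, tl, ← cpx_aeval_CM hR, ← Energy.gib_eq, ← Energy.gib_eq]
      have h4 := gib_CM_translate β h R x
        ((fun i => (((R * (y i : ℕ) : ℕ) : ℤ) : ZMod n)) - x) G
      rw [add_sub_cancel] at h4
      exact h4
    have h5 : (trace (NormedSpace.exp X * Y)).re / (trace (NormedSpace.exp X)).re = ex X Y := rfl
    rw [h5, h2, Finset.sum_congr rfl fun y _ => h3 y, Finset.sum_const, Finset.card_univ,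
      Fintype.card_fun, Fintype.card_fin, Fintype.card_fin, nsmul_eq_mul]
    push_cast
    rfl
  -- the decoupled trace
  have hdec : dec n R m β h + Y = ∑ y : Fin 3 → Fin m, emb (tl n R m y) A +
      ((β * h / 2 * (n : ℝ) ^ 3 : ℝ) : ℂ) • (1 : Matrix (Cfg (Tor n)) (Cfg (Tor n)) ℂ) := by
    rw [dec, hY, hA]
    simp only [emb_add, emb_neg, emb_smul, Finset.sum_add_distrib, Finset.sum_neg_distrib,
      ← Finset.smul_sum]
    abel
  have hSh : (∑ y : Fin 3 → Fin m, emb (tl n R m y) A).IsHermitian :=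
    Energy.sum_isHermitian _ fun y _ => emb_isHermitian _ hAh
  have hdh : (dec n R m β h + Y).IsHermitian := by
    rw [hdec]
    exact hSh.add (Energy.smul_real_isHermitian Matrix.isHermitian_one _)
  have hup : (trace (NormedSpace.exp (X + Y))).re ≤
      (trace (NormedSpace.exp (dec n R m β h + Y))).re := by
    refine trace_exp_mono (hXh.add hYh) hdh ?_
    have e : dec n R m β h + Y - (X + Y) = dec n R m β h - X := by abel
    rw [e]
    exact dec_sub hn hm hβ hh
  have h6 := Real.log_le_log (trace_exp_pos (hXh.add hYh)) hup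
  have h7 : Real.log (trace (NormedSpace.exp (dec n R m β h + Y))).re =
      β * h / 2 * (n : ℝ) ^ 3 + ((m : ℝ) ^ 3 * (Real.log (trace (NormedSpace.exp A)).re -
        (R : ℝ) ^ 3 * Real.log 2) + (n : ℝ) ^ 3 * Real.log 2) := by
    rw [hdec, trace_exp_add_smul_one, Real.log_mul (Real.exp_pos _).ne' (trace_exp_pos hSh).ne',
      Real.log_exp]
    congr 1
    have h8 := nlt_sum (Finset.univ : Finset (Fin 3 → Fin m)) (tl n R m)
      (fun y _ a b hab => (tl_inj hm hab).2)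
      (fun y _ y' _ hne u u' he => hne (tl_inj hm he).1) hAh
    unfold nlt at h8
    rw [card_cubeB, Finset.card_univ, Fintype.card_fun, Fintype.card_fun, Fintype.card_fin,
      Fintype.card_fin, ZMod.card] at h8
    push_cast at h8
    linarith
  have h9 : logZ n β h = Real.log (trace (NormedSpace.exp X)).re - β * h / 2 * (n : ℝ) ^ 3 := by
    rw [hX, ← Energy.cpx_exp, Energy.cpx_trace]
    rfl
  rw [h1] at hPB
  rw [h9]
  linarith

theorem div_tendsto {R : ℕ} (hR : 0 < R) :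
    Tendsto (fun N : ℕ => ((2 * N + 1 : ℕ) : ℝ) / (((2 * N + 1) / R : ℕ) : ℝ)) atTop (𝓝 (R : ℝ)) := by
  have hR' : (0 : ℝ) < R := by exact_mod_cast hR
  have hn : Tendsto (fun N : ℕ => ((2 * N + 1 : ℕ) : ℝ)) atTop atTop := by
    refine tendsto_natCast_atTop_atTop.comp ?_
    exact tendsto_atTop_mono (fun N => by show N ≤ 2 * N + 1; omega) tendsto_id
  have h1 : Tendsto (fun N : ℕ => (((2 * N + 1) / R : ℕ) : ℝ) / ((2 * N + 1 : ℕ) : ℝ)) atTop
      (𝓝 ((R : ℝ)⁻¹)) := by
    have hlow : Tendsto (fun N : ℕ => (R : ℝ)⁻¹ - 1 / ((2 * N + 1 : ℕ) : ℝ)) atTop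
        (𝓝 ((R : ℝ)⁻¹ - 0)) :=
      tendsto_const_nhds.sub (tendsto_const_nhds.div_atTop hn)
    rw [sub_zero] at hlow
    refine tendsto_of_tendsto_of_tendsto_of_le_of_le hlow tendsto_const_nhds ?_ ?_
    · intro N
      have hp : (0 : ℝ) < ((2 * N + 1 : ℕ) : ℝ) := by positivity
      show (R : ℝ)⁻¹ - 1 / ((2 * N + 1 : ℕ) : ℝ) ≤ (((2 * N + 1) / R : ℕ) : ℝ) / ((2 * N + 1 : ℕ) : ℝ)
      rw [le_div_iff₀ hp, sub_mul, one_div, inv_mul_cancel₀ hp.ne']
      have h2 : (2 * N + 1) < R * ((2 * N + 1) / R) + R := by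
        have h3 := Nat.div_add_mod (2 * N + 1) R
        have h4 := Nat.mod_lt (2 * N + 1) hR
        omega
      have h3 : ((2 * N + 1 : ℕ) : ℝ) < R * (((2 * N + 1) / R : ℕ) : ℝ) + R := by exact_mod_cast h2
      rw [sub_le_iff_le_add, inv_mul_le_iff₀ hR']
      linarith
    · intro N
      have hp : (0 : ℝ) < ((2 * N + 1 : ℕ) : ℝ) := by positivity
      show (((2 * N + 1) / R : ℕ) : ℝ) / ((2 * N + 1 : ℕ) : ℝ) ≤ (R : ℝ)⁻¹
      rw [div_le_iff₀ hp, inv_mul_eq_div]
      exact Nat.cast_div_le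
  have h2 := h1.inv₀ (by positivity)
  rw [inv_inv] at h2
  refine h2.congr fun N => ?_
  rw [inv_div]

end LT1

/-- **(T1)** Peierls–Bogoliubov on the torus with decoupled blocks. -/
theorem lt1 {β h : ℝ} (hβ : 0 < β) (hh : 0 ≤ h) {R : ℕ} (hR : 0 < R) {ε : ℝ} (hε : 0 < ε) :
    ∃ n0 : ℕ, ∀ (n : ℕ) [NeZero n], n0 ≤ n → Odd n → ∀ (x : Tor n) (G : Polynomial ℝ),
      gib (edges n) β (fun _ => h) (Polynomial.aeval (CM (cube n x R)) G) ≤
        Real.log (trace (NormedSpace.exp (-((β : ℂ) • B.hT 1 (B.cube R)) +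
          Polynomial.aeval (B.casX 1 (B.cube R)) (G.map (algebraMap ℝ ℂ))))).re
          - (R : ℝ) ^ 3 * B.gRed 1 β h + ε := by
  have h1 := ((LT1.div_tendsto hR).pow 3).mul ((logZ_tendsto hβ h).const_sub (Real.log 2))
  obtain ⟨N0, hN0⟩ := eventually_atTop.1 ((tendsto_order.1 h1).2
    ((R : ℝ) ^ 3 * (Real.log 2 - B.gRed 1 β h) + ε) (by linarith))
  refine ⟨2 * N0 + 3 + R, fun n _ hn hodd x G => ?_⟩
  obtain ⟨N, rfl⟩ := hodd
  have h2 := hN0 N (by omega)
  have hm : R * ((2 * N + 1) / R) ≤ 2 * N + 1 := Nat.mul_div_le _ _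
  have hmpos : 0 < (2 * N + 1) / R := Nat.div_pos (by omega) hR
  have hm' : (0 : ℝ) < (((2 * N + 1) / R : ℕ) : ℝ) := by exact_mod_cast hmpos
  have h3 := LT1.lt1_fin (n := 2 * N + 1) (R := R) (m := (2 * N + 1) / R) (by omega) (by omega) hm
    hβ.le hh x G
  set m : ℝ := (((2 * N + 1) / R : ℕ) : ℝ) with hmdef
  set nn : ℝ := ((2 * N + 1 : ℕ) : ℝ) with hnn
  have hnn0 : 0 < nn := by rw [hnn]; positivity
  have h4 : (nn / m) ^ 3 * (Real.log 2 - logZ (2 * N + 1) β h / nn ^ 3) * m ^ 3 =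
      nn ^ 3 * Real.log 2 - logZ (2 * N + 1) β h := by
    field_simp
  have h5 : nn ^ 3 * Real.log 2 - logZ (2 * N + 1) β h ≤
      ((R : ℝ) ^ 3 * (Real.log 2 - B.gRed 1 β h) + ε) * m ^ 3 := by
    rw [← h4]
    exact mul_le_mul_of_nonneg_right h2.le (by positivity)
  have hm3 : 0 < m ^ 3 := by positivity
  refine le_of_mul_le_mul_left ?_ hm3
  refine h3.trans ?_
  nlinarith [h5]

end

end Vale.Agent.P361.LRO.S3
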