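import Vale.Agent.P361.LRO.Bloch.Emb
import Vale.Agent.P361.LRO.Energy.Bridge
import Vale.Agent.P361.B.Prelim
import Vale.Agent.P361.LRO.Fin.Bridge
import Vale.Agent.P361.LRO.S3.Iface

/-!
P361, stage 3, block (T), leaf (T1), part A: the embedding of the operators of a block is a
homomorphism; additivity of the normalised log trace over many disjoint blocks; the Casimir matrix of
a block of the torus is the embedded `casX`.
-/

namespace Vale.Agent.P361.LRO.S3.LT1

open Matrix Finset Filter Topology
open Vale.Agent.P361.LRO.Energy (Cfg ex cpx)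
open Vale.Agent.P361.LRO.Loc3
open scoped ComplexOrder Kronecker

noncomputable section

section Emb

variable {U V : Type} [Fintype U] [DecidableEq U] [Fintype V] [DecidableEq V]

theorem emb_mul {e : U → V} (he : Function.Injective e) (A B : Matrix (Cfg U) (Cfg U) ℂ) :
    emb e (A * B) = emb e A * emb e B := by
  have h : (emb e (A * B)).submatrix (splitE e he) (splitE e he) =
      (emb e A * emb e B).submatrix (splitE e he) (splitE e he) := by
    rw [emb_split, ← Matrix.submatrix_mul_equiv (emb e A) (emb e B) _ (splitE e he) _, emb_split,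
      emb_split, ← Matrix.mul_kronecker_mul, Matrix.one_mul]
  ext σ τ
  have h2 := congrFun (congrFun h ((splitE e he).symm σ)) ((splitE e he).symm τ)
  simpa only [Matrix.submatrix_apply, Equiv.apply_symm_apply] using h2

/-- `emb e` as an algebra homomorphism. -/
def embAlg (e : U → V) (he : Function.Injective e) :
    Matrix (Cfg U) (Cfg U) ℂ →ₐ[ℂ] Matrix (Cfg V) (Cfg V) ℂ :=
  AlgHom.ofLinearMap
    { toFun := emb e
      map_add' := emb_add e
      map_smul' := fun c A => by rw [RingHom.id_apply, emb_smul] }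
    (emb_one e) (emb_mul he)

theorem aeval_emb {e : U → V} (he : Function.Injective e) (A : Matrix (Cfg U) (Cfg U) ℂ)
    (P : Polynomial ℂ) : Polynomial.aeval (emb e A) P = emb e (Polynomial.aeval A P) :=
  Polynomial.aeval_algHom_apply (embAlg e he) A P

/-- Operators of disjoint blocks. -/
theorem off_emb {U' : Type} [Fintype U'] [DecidableEq U'] {e : U → V} {e' : U' → V}
    (hd : ∀ u u', e u ≠ e' u') (A : Matrix (Cfg U') (Cfg U') ℂ) : Off e (emb e' A) := by
  intro σ τ
  simp only [emb, Matrix.of_apply]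
  have key : ∀ σ : Cfg V, (fun x => if ∃ u, e u = x then 0 else σ x) ∘ e' = σ ∘ e' := by
    intro σ
    funext w
    simp only [Function.comp_apply]
    rw [if_neg]
    rintro ⟨u, hu⟩
    exact hd u w hu
  rw [key, key]
  by_cases h1 : ∀ x, (∀ u', e' u' ≠ x) → σ x = τ x
  · have h2 : σ ∘ e = τ ∘ e := by
      funext u
      exact h1 (e u) fun u' => (hd u u').symm
    have h3 : ∀ x, (∀ u', e' u' ≠ x) → (if ∃ u, e u = x then (0 : Fin 2) else σ x) =
        if ∃ u, e u = x then 0 else τ x := by
      intro x hx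
      split_ifs
      · rfl
      · exact h1 x hx
    rw [if_pos h1, if_pos h2, if_pos h3]
  · rw [if_neg h1]
    by_cases h2 : σ ∘ e = τ ∘ e
    · rw [if_pos h2, if_neg]
      intro h3
      apply h1
      intro x hx
      by_cases h4 : ∃ u, e u = x
      · obtain ⟨u, rfl⟩ := h4
        exact congrFun h2 u
      · have := h3 x hx
        rwa [if_neg h4, if_neg h4] at this
    · rw [if_neg h2]

theorem off_add {e : U → V} {A B : Matrix (Cfg V) (Cfg V) ℂ} (hA : Off e A) (hB : Off e B) :
    Off e (A + B) := by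
  intro σ τ
  rw [Matrix.add_apply, hA σ τ, hB σ τ, Matrix.add_apply]
  split_ifs <;> simp

theorem off_zero {e : U → V} : Off e (0 : Matrix (Cfg V) (Cfg V) ℂ) := by
  intro σ τ
  simp

theorem off_sum {κ : Type*} (s : Finset κ) {e : U → V} {A : κ → Matrix (Cfg V) (Cfg V) ℂ}
    (hA : ∀ k ∈ s, Off e (A k)) : Off e (∑ k ∈ s, A k) := by
  classical
  induction s using Finset.induction_on with
  | empty => rw [Finset.sum_empty]; exact off_zero
  | insert a s ha ih =>
    rw [Finset.sum_insert ha]
    exact off_add (hA a (Finset.mem_insert_self _ _)) (ih fun k hk => hA k (Finset.mem_insert_of_mem hk))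

theorem nlt_zero : nlt (0 : Matrix (Cfg V) (Cfg V) ℂ) = 0 := by
  unfold nlt
  rw [NormedSpace.exp_zero, Matrix.trace_one, Fintype.card_fun, Fintype.card_fin]
  push_cast
  have : ((2 : ℂ) ^ Fintype.card V).re = (2 : ℝ) ^ Fintype.card V := by
    rw [← Complex.ofReal_ofNat, ← Complex.ofReal_pow, Complex.ofReal_re]
  rw [this, Real.log_pow]
  ring

/-- The normalised log trace of a sum over disjoint blocks. -/
theorem nlt_sum {κ : Type*} (s : Finset κ) (e : κ → U → V) (he : ∀ k ∈ s, Function.Injective (e k))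
    (hd : ∀ k ∈ s, ∀ l ∈ s, k ≠ l → ∀ u u', e k u ≠ e l u')
    {A : Matrix (Cfg U) (Cfg U) ℂ} (hA : A.IsHermitian) :
    nlt (∑ k ∈ s, emb (e k) A) = s.card * nlt A := by
  classical
  induction s using Finset.induction_on with
  | empty => rw [Finset.sum_empty, nlt_zero, Finset.card_empty]; simp
  | insert a s ha ih =>
    have ih' := ih (fun k hk => he k (Finset.mem_insert_of_mem hk))
      (fun k hk l hl => hd k (Finset.mem_insert_of_mem hk) l (Finset.mem_insert_of_mem hl))
    rw [Finset.sum_insert ha, add_comm, nlt_add (e a) (he a (Finset.mem_insert_self _ _))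
      (off_sum s fun k hk => off_emb (fun u u' => hd a (Finset.mem_insert_self _ _) k
        (Finset.mem_insert_of_mem hk) (fun h => ha (h ▸ hk)) u u') A)
      (Energy.sum_isHermitian _ fun k _ => emb_isHermitian _ hA) hA, ih', Finset.card_insert_of_notMem ha]
    push_cast
    ring

end Emb

/-! ### `casX` and `hT` in the swap form -/

section Cas

variable {Λ : Finset Site}

theorem hM_self {V : Type} [Fintype V] [DecidableEq V] (x : V) :
    (Energy.hM x x : Matrix (Cfg V) (Cfg V) ℂ) = 0 := by
  have h : (Energy.swapM x x : Matrix (Cfg V) (Cfg V) ℂ) = 1 := by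
    ext σ τ
    simp [Energy.swapM, Matrix.one_apply, Equiv.swap_self]
  rw [Energy.hM, h, sub_self, smul_zero]

theorem hM_eq_dot {x y : Λ} (hxy : x ≠ y) : (((1 : ℕ) : ℂ) / 2) ^ 2 •
      (1 : Matrix (Λ → Fin (1 + 1)) (Λ → Fin (1 + 1)) ℂ) - H.dotOp 1 x y = Energy.hM x y := by
  have h1 := cM_hM hxy
  have h2 : cM (LRO.hM x y) = Energy.hM x y := Energy.cpx_hM x y
  rw [h2] at h1
  rw [h1]
  unfold H.dotOp
  simp only [siteOp_eq_siteOpV]
  congr 2
  norm_num

theorem casX_eq_hM : B.casX 1 Λ = ∑ x : Λ, ∑ y : Λ, Energy.hM x y := by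
  unfold B.casX
  refine Finset.sum_congr rfl fun x _ => Finset.sum_congr rfl fun y _ => ?_
  by_cases h : x = y
  · subst h
    rw [if_pos rfl, hM_self]
  · rw [if_neg h, hM_eq_dot h]

theorem hT_eq_hM : B.hT 1 Λ = (1 / 2 : ℂ) • ∑ x : Λ, ∑ y : Λ,
    if IsNN x.1 y.1 then Energy.hM x y else 0 := by
  unfold B.hT
  congr 1
  refine Finset.sum_congr rfl fun x _ => Finset.sum_congr rfl fun y _ => ?_
  by_cases h : IsNN x.1 y.1
  · rw [if_pos h, if_pos h, hM_eq_dot (H.isNN_ne h)]
  · rw [if_neg h, if_neg h]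

end Cas

end

end Vale.Agent.P361.LRO.S3.LT1
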