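import Vale.Agent.P361.B.Params

/-!
# P361 stage 3, (T2): numbers for the lower tail (helper683)

Finite-volume upper bound for `log Zt` on a cube of side `3 ^ a ∼ β ^ (1/2 + d)` with a fixed
reward `τ`.
-/

namespace Vale.Agent.P361.LRO.S3

open Filter Topology Vale.Agent.P361.B

/-- crude bound on the cube of side `3 ^ a` at the inverse temperature `β / 2`. -/
theorem lt2_crude {n : ℕ} (hn : 1 ≤ n) {d : ℝ} (hd : 0 < d) (hd2 : d ≤ 1 / 100) :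
    ∀ᶠ β : ℝ in atTop, ∀ a : ℕ, β ^ (1 / 2 + d) ≤ (3 : ℝ) ^ a →
      (3 : ℝ) ^ a ≤ 3 * β ^ (1 / 2 + d) →
      Real.log (Zt n (B.cube (3 ^ a)) (β / 2) 0) ≤ 729 * β ^ (7 * d) := by
  have hcr := crude_log hn hd (by linarith)
  filter_upwards [hcr, eventually_ge_atTop 1] with β hcrβ hβ1 a ha1 ha2
  have hβ0 : 0 < β := by linarith
  have pw : ∀ {a b : ℝ}, a ≤ b → β ^ a ≤ β ^ b := fun h =>
    Real.rpow_le_rpow_of_exponent_le hβ1 h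
  have pp : ∀ a : ℝ, 0 < β ^ a := fun a => Real.rpow_pos_of_pos hβ0 a
  have hX1 : (1 : ℝ) ≤ β ^ (1 / 2 - d) := Real.one_le_rpow hβ1 (by linarith)
  obtain ⟨a0, ha0, ha0'⟩ := exists_nat_pow_near hX1 (by norm_num : (1 : ℝ) < 3)
  have haa : a0 ≤ a := by
    have h1 : (3 : ℝ) ^ a0 ≤ 3 ^ a := ha0.trans ((pw (by linarith)).trans ha1)
    exact (pow_le_pow_iff_right₀ (by norm_num : (1 : ℝ) < 3)).1 h1
  have hdec : 3 ^ a = 3 ^ (a - a0) * 3 ^ a0 := by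
    rw [← pow_add]; congr 1; omega
  have hq : ((3 ^ (a - a0) : ℕ) : ℝ) ≤ 9 * β ^ (2 * d) := by
    have h1 : ((3 ^ (a - a0) : ℕ) : ℝ) * (3 : ℝ) ^ a0 = (3 : ℝ) ^ a := by
      push_cast
      rw [← pow_add]; congr 1; omega
    have h2 : β ^ (1 / 2 - d) / 3 ≤ (3 : ℝ) ^ a0 := by
      rw [pow_succ] at ha0'
      linarith
    have h3 : ((3 ^ (a - a0) : ℕ) : ℝ) * (β ^ (1 / 2 - d) / 3) ≤ 3 * β ^ (1 / 2 + d) := by
      calc _ ≤ ((3 ^ (a - a0) : ℕ) : ℝ) * (3 : ℝ) ^ a0 :=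
            mul_le_mul_of_nonneg_left h2 (by positivity)
        _ = _ := h1
        _ ≤ _ := ha2
    have h4 : β ^ (1 / 2 + d) = β ^ (2 * d) * β ^ (1 / 2 - d) := by
      rw [← Real.rpow_add hβ0]; congr 1; ring
    rw [h4] at h3
    have h5 := pp (1 / 2 - d)
    have h6 : ((3 ^ (a - a0) : ℕ) : ℝ) * β ^ (1 / 2 - d) ≤
        (9 * β ^ (2 * d)) * β ^ (1 / 2 - d) := by linarith
    exact le_of_mul_le_mul_right h6 h5
  have h1 := log_Zt_cube_mul (n := n) (β := β / 2) (t := 0) (by positivity) le_rfl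
    (3 ^ (a - a0)) (3 ^ a0) (by positivity)
  rw [← hdec] at h1
  have h2 := hcrβ (3 ^ a0) (by positivity) (by push_cast; exact ha0)
  refine h1.trans ?_
  calc ((3 ^ (a - a0) : ℕ) : ℝ) ^ 3 * Real.log (Zt n (B.cube (3 ^ a0)) (β / 2) 0) ≤
        ((3 ^ (a - a0) : ℕ) : ℝ) ^ 3 * β ^ d := mul_le_mul_of_nonneg_left h2 (by positivity)
    _ ≤ (9 * β ^ (2 * d)) ^ 3 * β ^ d :=
        mul_le_mul_of_nonneg_right (pow_le_pow_left₀ (by positivity) hq 3) (pp _).le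
    _ = _ := by
        rw [mul_pow, ← Real.rpow_natCast (β ^ (2 * d)) 3, ← Real.rpow_mul hβ0.le, mul_assoc,
          ← Real.rpow_add hβ0]
        norm_num
        congr 1
        ring

/-- bounds of the side. -/
theorem lt2_side {d β L : ℝ} (hd : 0 < d) (hβ1 : 1 ≤ β) (hL : β ^ (1 / 2 + d) ≤ L) :
    β ≤ L ^ 2 ∧ Real.sqrt β / L ≤ β ^ (-d) ∧ β / L ^ 2 ≤ β ^ (-(2 * d)) ∧
      Real.sqrt β ^ 3 / L ^ 3 ≤ β ^ (-(3 * d)) := by
  have hβ0 : 0 < β := by linarith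
  have pw : ∀ {a b : ℝ}, a ≤ b → β ^ a ≤ β ^ b := fun h =>
    Real.rpow_le_rpow_of_exponent_le hβ1 h
  have pp : ∀ a : ℝ, 0 < β ^ a := fun a => Real.rpow_pos_of_pos hβ0 a
  have hLR : 0 < L := (pp _).trans_le hL
  have hL2 : β ^ (1 + 2 * d) ≤ L ^ 2 := by
    have h1 : (β ^ (1 / 2 + d)) ^ 2 = β ^ (1 + 2 * d) := by
      rw [← Real.rpow_natCast, ← Real.rpow_mul hβ0.le]
      congr 1
      push_cast
      ring
    rw [← h1]
    exact pow_le_pow_left₀ (pp _).le hL 2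
  have sb2 : Real.sqrt β / L ≤ β ^ (-d) := by
    rw [div_le_iff₀ hLR, Real.sqrt_eq_rpow]
    have h2 : β ^ (-d) * β ^ (1 / 2 + d) = β ^ (1 / 2 : ℝ) := by
      rw [← Real.rpow_add hβ0]; congr 1; ring
    rw [← h2]
    exact mul_le_mul_of_nonneg_left hL (pp _).le
  refine ⟨?_, sb2, ?_, ?_⟩
  · refine le_trans ?_ hL2
    nth_rewrite 1 [← Real.rpow_one β]
    exact pw (by linarith)
  · rw [div_le_iff₀ (by positivity)]
    have h4 : β ^ (-(2 * d)) * β ^ (1 + 2 * d) = β := by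
      rw [← Real.rpow_add hβ0]
      nth_rewrite 2 [← Real.rpow_one β]
      congr 1; ring
    calc β = β ^ (-(2 * d)) * β ^ (1 + 2 * d) := h4.symm
      _ ≤ _ := mul_le_mul_of_nonneg_left hL2 (pp _).le
  · have h1 : Real.sqrt β ^ 3 / L ^ 3 = (Real.sqrt β / L) ^ 3 := by rw [div_pow]
    rw [h1]
    refine (pow_le_pow_left₀ (by positivity) sb2 3).trans (le_of_eq ?_)
    rw [← Real.rpow_natCast, ← Real.rpow_mul hβ0.le]
    congr 1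
    push_cast
    ring

/-- interaction error. -/
theorem lt2_inter {d β A P N W M : ℝ} (hβ1 : 1 ≤ β) (hA : A = 729 * β ^ (7 * d))
    (hP1 : P ≤ 1) (hM0 : 0 < M) (hN0 : 0 ≤ N) (hN : N ≤ M * A) (hW0 : 0 ≤ W)
    (hW1 : W ≤ 899 * Real.sqrt (A / β)) :
    P * (β * (12 * Real.exp 2 * (N ^ 2 * W ^ 3))) ≤
      12 * Real.exp 2 * (M ^ 2 * 899 ^ 3) * (729 ^ 2 * Real.sqrt 729 ^ 3) *
        β ^ (-(1 / 2 - 49 / 2 * d)) := by
  have hβ0 : 0 < β := by linarith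
  have pp : ∀ a : ℝ, 0 < β ^ a := fun a => Real.rpow_pos_of_pos hβ0 a
  have hA0 : 0 < A := by rw [hA]; exact mul_pos (by norm_num) (pp _)
  have h1 : N ^ 2 * W ^ 3 ≤ (M * A) ^ 2 * (899 * Real.sqrt (A / β)) ^ 3 :=
    mul_le_mul (pow_le_pow_left₀ hN0 hN 2) (pow_le_pow_left₀ hW0 hW1 3)
      (by positivity) (by positivity)
  have h3 : Real.sqrt (A / β) ^ 3 = Real.sqrt 729 ^ 3 * β ^ ((21 * d - 3) / 2) := by
    have e1 : A / β = 729 * β ^ (7 * d - 1) := by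
      rw [hA, Real.rpow_sub hβ0, Real.rpow_one]; ring
    rw [e1, Real.sqrt_mul (by norm_num), mul_pow, Real.sqrt_eq_rpow (β ^ _),
      ← Real.rpow_mul hβ0.le, ← Real.rpow_natCast (β ^ _), ← Real.rpow_mul hβ0.le]
    congr 2
    push_cast
    ring
  have h4 : P * (β * (12 * Real.exp 2 * (N ^ 2 * W ^ 3))) ≤
      1 * (β * (12 * Real.exp 2 * ((M * A) ^ 2 * (899 * Real.sqrt (A / β)) ^ 3))) := by
    refine mul_le_mul hP1 ?_ (by positivity) (by norm_num)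
    exact mul_le_mul_of_nonneg_left (mul_le_mul_of_nonneg_left h1 (by positivity)) hβ0.le
  refine h4.trans (le_of_eq ?_)
  rw [mul_pow 899, h3, hA]
  have h6 : β * (β ^ (7 * d)) ^ 2 * β ^ ((21 * d - 3) / 2) = β ^ (-(1 / 2 - 49 / 2 * d)) := by
    rw [← Real.rpow_natCast (β ^ (7 * d)) 2, ← Real.rpow_mul hβ0.le]
    nth_rewrite 1 [← Real.rpow_one β]
    rw [← Real.rpow_add hβ0, ← Real.rpow_add hβ0]
    congr 1
    push_cast
    ring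
  rw [← h6]
  ring

/-- the total error. -/
theorem lt2_lim {d : ℝ} (hd : 0 < d) (hd2 : d ≤ 1 / 100) (τ K C : ℝ) :
    Tendsto (fun β : ℝ => β ^ (-(3 * d)) * Real.log 3 +
      K * β ^ (-(1 / 2 - 49 / 2 * d)) + C * (β ^ (-(1 : ℝ)) + β ^ (-d) + β ^ (-(2 * d))) +
      β ^ (-(3 * d)) / τ) atTop (𝓝 0) := by
  have lim0 : ∀ c : ℝ, 0 < c → Tendsto (fun β : ℝ => β ^ (-c)) atTop (𝓝 0) := fun c hc =>
    tendsto_rpow_neg_atTop hc
  have h1 := (((lim0 (3 * d) (by linarith)).mul_const (Real.log 3)).add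
    ((lim0 (1 / 2 - 49 / 2 * d) (by linarith)).const_mul K)).add
    ((((lim0 1 one_pos).add (lim0 d hd)).add (lim0 (2 * d) (by linarith))).const_mul C)
  have h2 := h1.add ((lim0 (3 * d) (by linarith)).div_const τ)
  simpa using h2

/-- (T2), one cube. -/
theorem lt2_one {n : ℕ} (hn : 1 ≤ n) {d : ℝ} (hd : 0 < d) {τ : ℝ} (hτ : 0 < τ) {C : ℝ}
    (hC0 : 0 ≤ C) (hC : ∀ β : ℝ, 448 ≤ β → ∀ L : ℕ, 0 < L → ∀ t : ℝ, 0 < t →
      Real.sqrt β ^ 3 / (L : ℝ) ^ 3 * bosSer n L β t ≤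
      FS ((n : ℝ) / 2) t + C * (1 / β + Real.sqrt β / L + β / (L : ℝ) ^ 2) +
        Real.sqrt β ^ 3 / (L : ℝ) ^ 3 / t) {β : ℝ} (h448 : 448 ≤ β)
    (h729 : 729 ≤ β ^ (1 - 7 * d)) {L : ℕ} (hLpos : 0 < L) (hL : β ^ (1 / 2 + d) ≤ L)
    (hz0 : Real.log (Zt n (B.cube L) (β / 2) 0) ≤ 729 * β ^ (7 * d)) :
    Real.sqrt β ^ 3 / (L : ℝ) ^ 3 * Real.log (Zt n (B.cube L) β τ) ≤
      FS ((n : ℝ) / 2) τ + (β ^ (-(3 * d)) * Real.log 3 +
      12 * Real.exp 2 * ((1 / τ + 1) ^ 2 * 899 ^ 3) * (729 ^ 2 * Real.sqrt 729 ^ 3) *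
        β ^ (-(1 / 2 - 49 / 2 * d)) + C * (β ^ (-(1 : ℝ)) + β ^ (-d) + β ^ (-(2 * d))) +
      β ^ (-(3 * d)) / τ) := by
  have hβ0 : 0 < β := by linarith
  have hβ1 : 1 ≤ β := by linarith
  have pp : ∀ a : ℝ, 0 < β ^ a := fun a => Real.rpow_pos_of_pos hβ0 a
  have hLR : (0 : ℝ) < L := by exact_mod_cast hLpos
  obtain ⟨A, hA⟩ : ∃ A : ℝ, A = 729 * β ^ (7 * d) := ⟨_, rfl⟩
  have hz1 := hz0
  rw [← hA] at hz1
  have hA1 : 1 ≤ A := by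
    have : 1 ≤ β ^ (7 * d) := Real.one_le_rpow hβ1 (by linarith)
    rw [hA]; linarith
  have hA0 : 0 < A := by linarith
  have hz2 : Real.log (Zt n (B.cube L) β 0) ≤ A :=
    (Real.log_le_log (Zt_pos β 0) (Zt_anti (by linarith) le_rfl)).trans hz1
  have hAβ : A ≤ β := by
    have h1 : β ^ (7 * d) * β ^ (1 - 7 * d) = β := by
      rw [← Real.rpow_add hβ0]
      nth_rewrite 2 [← Real.rpow_one β]
      congr 1; ring
    calc A = β ^ (7 * d) * 729 := by rw [hA]; ring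
      _ ≤ β ^ (7 * d) * β ^ (1 - 7 * d) := mul_le_mul_of_nonneg_left h729 (pp _).le
      _ = β := h1
  obtain ⟨N1, hN1a, hN1b⟩ : ∃ N1 : ℕ, A ≤ τ * N1 ∧ (N1 : ℝ) ≤ (1 / τ + 1) * A := by
    refine ⟨⌈A / τ⌉₊, ?_, ?_⟩
    · have := Nat.le_ceil (A / τ)
      rwa [div_le_iff₀ hτ, mul_comm] at this
    · have h1 := (Nat.ceil_lt_add_one (by positivity : 0 ≤ A / τ)).le
      have h2 : (1 / τ + 1) * A = A / τ + A := by ring
      rw [h2]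
      linarith
  have hup := logZt_upper hn hLpos (β := β) (t := τ) (E1 := 2 * A / β) hβ0.le hτ
    (by positivity) N1 (hz1.trans (le_of_eq (by field_simp))) (hz2.trans hN1a)
  obtain ⟨hβL, sb2, sb3, sb4⟩ := lt2_side hd hβ1 hL
  have hbJ := bJ_param hn hβ0 hA1 hAβ
  have hLinv : 1 / (L : ℝ) ≤ Real.sqrt (A / β) := by
    refine Real.le_sqrt_of_sq_le ?_
    rw [div_pow, one_pow, div_le_div_iff₀ (by positivity) hβ0, one_mul]
    nlinarith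
  have hP0 : 0 < Real.sqrt β ^ 3 / (L : ℝ) ^ 3 := by positivity
  have hP1 : Real.sqrt β ^ 3 / (L : ℝ) ^ 3 ≤ 1 :=
    sb4.trans (Real.rpow_le_one_of_one_le_of_nonpos hβ1 (by linarith))
  have piece2 := lt2_inter (d := d) (M := 1 / τ + 1) hβ1 hA hP1 (by positivity)
    (Nat.cast_nonneg N1) hN1b
    (W := 1 / (L : ℝ) + 2 * H.bJ (2 * n / (2 * A / β)))
    (by have := H.bJ_nonneg (2 * n / (2 * A / β)); positivity) (by linarith)
  have piece3 := hC β h448 L hLpos τ hτ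
  have g1 : 1 / β = β ^ (-(1 : ℝ)) := by rw [one_div, ← Real.rpow_neg_one]
  have g4 : Real.sqrt β ^ 3 / (L : ℝ) ^ 3 / τ ≤ β ^ (-(3 * d)) / τ :=
    div_le_div_of_nonneg_right sb4 hτ.le
  have g5 : C * (1 / β + Real.sqrt β / L + β / (L : ℝ) ^ 2) ≤
      C * (β ^ (-(1 : ℝ)) + β ^ (-d) + β ^ (-(2 * d))) := by
    refine mul_le_mul_of_nonneg_left ?_ hC0
    rw [g1]
    linarith
  generalize 12 * Real.exp 2 * ((1 / τ + 1) ^ 2 * 899 ^ 3) * (729 ^ 2 * Real.sqrt 729 ^ 3) = K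
    at piece2 ⊢
  generalize Real.sqrt β ^ 3 / (L : ℝ) ^ 3 = P at hP0 hP1 sb4 piece2 piece3 g4 ⊢
  have piece1 : P * Real.log 3 ≤ β ^ (-(3 * d)) * Real.log 3 :=
    mul_le_mul_of_nonneg_right sb4 (Real.log_nonneg (by norm_num))
  have h3 := mul_le_mul_of_nonneg_left hup hP0.le
  rw [mul_add, mul_add] at h3
  linarith

/-- (T2), all spins `n / 2`. -/
theorem lt2n {n : ℕ} (hn : 1 ≤ n) {d : ℝ} (hd : 0 < d) (hd2 : d ≤ 1 / 100) {τ : ℝ} (hτ : 0 < τ)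
    {ε : ℝ} (hε : 0 < ε) : ∃ β0 : ℝ, ∀ β : ℝ, β0 ≤ β → ∀ a : ℕ,
      β ^ (1 / 2 + d) ≤ (3 : ℝ) ^ a → (3 : ℝ) ^ a ≤ 3 * β ^ (1 / 2 + d) →
      Real.sqrt β ^ 3 / ((3 : ℝ) ^ a) ^ 3 * Real.log (Zt n (B.cube (3 ^ a)) β τ) ≤
        FS ((n : ℝ) / 2) τ + ε := by
  obtain ⟨C, hC0, hC⟩ := bosSer_le hn
  have l2 : ∀ᶠ β : ℝ in atTop, 729 ≤ β ^ (1 - 7 * d) :=
    (tendsto_rpow_atTop (by linarith)).eventually_ge_atTop 729
  obtain ⟨β₀, hβ₀⟩ := eventually_atTop.1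
    ((lt2_crude hn hd hd2).and (l2.and ((eventually_ge_atTop (448 : ℝ)).and
      ((lt2_lim hd hd2 τ (12 * Real.exp 2 * ((1 / τ + 1) ^ 2 * 899 ^ 3) *
        (729 ^ 2 * Real.sqrt 729 ^ 3)) C).eventually (ge_mem_nhds hε)))))
  refine ⟨β₀, fun β hβ a ha1 ha2 => ?_⟩
  obtain ⟨hcrβ, h729, h448, hlim⟩ := hβ₀ β hβ
  have h := lt2_one hn hd hτ hC0 hC h448 h729 (L := 3 ^ a) (by positivity)
    (by push_cast; exact ha1) (hcrβ a ha1 ha2)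
  push_cast at h
  linarith

/-- (T2) in the form of the split of helper260 (spin 1/2). -/
theorem lt2 (d : ℝ) (hd : 0 < d) (hd2 : d ≤ 1 / 100) (τ : ℝ) (hτ : 0 < τ)
    (ε : ℝ) (hε : 0 < ε) : ∃ β0 : ℝ, ∀ β : ℝ, β0 ≤ β → ∀ a : ℕ,
      β ^ (1 / 2 + d) ≤ (3 : ℝ) ^ a → (3 : ℝ) ^ a ≤ 3 * β ^ (1 / 2 + d) →
      Real.sqrt β ^ 3 / ((3 : ℝ) ^ a) ^ 3 * Real.log (Zt 1 (B.cube (3 ^ a)) β τ) ≤
        FS (1 / 2) τ + ε := by
  have h := lt2n (n := 1) le_rfl hd hd2 hτ hε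
  rw [Nat.cast_one] at h
  exact h

end Vale.Agent.P361.LRO.S3
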