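import Vale.Agent.P361.LRO.S3.Iface
import Vale.Agent.P361.LRO.S3.Answer
import Vale.Agent.P361.LRO.S3.Boot
import Vale.Agent.P361.LRO.S3.FinalF
import Vale.Agent.P361.LRO.S3.DirStmt
import Vale.Agent.P361.LRO.Ind3.Kappa

/-! # Stage 3: assembly; the remaining inputs are hypotheses -/

namespace Vale.Agent.P361.LRO.S3

open Filter Topology

/-- Remaining inputs: `Block3` and `LocalStmt3` (network), energy, start, mean, tail, limit. -/
theorem bloch_of_blocks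
    (h3 : Ind3.Block3) (hL : Ind3.LocalStmt3)
    (hE : EnergyStmt3) (h0 : StartStmt3)
    (mean : BootStmt3 → MeanStmt3) (hT : TailStmt3)
    (lim : FinalStmt3 → Tendsto (fun β : ℝ => β ^ (3 / 2 : ℝ) * (1 / 2 - Model.spontMag 1 β))
      atTop (𝓝 BC)) :
    (∀ β : ℝ, 0 < β →
      (∀ h : ℝ, Tendsto (fun N : ℕ => Model.finPressure 1 N β h) atTop (𝓝 (Model.pressure 1 β h))) ∧
      ConvexOn ℝ Set.univ (Model.pressure 1 β) ∧
      HasDerivWithinAt (Model.pressure 1 β) (Model.spontMag 1 β) (Set.Ioi 0) 0 ∧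
      Model.spontMag 1 β ≤ 1 / 2) ∧
    (∃ β₀ : ℝ, 0 < β₀ ∧ ∀ β : ℝ, β₀ ≤ β → 0 < Model.spontMag 1 β) ∧
    Tendsto (fun β : ℝ => Model.spontMag 1 β) atTop (𝓝 (1 / 2)) ∧
    Tendsto (fun β : ℝ => β ^ (3 / 2 : ℝ) * (1 / 2 - Model.spontMag 1 β)) atTop
      (𝓝 ((riemannZeta (3 / 2)).re / (8 * Real.pi ^ (3 / 2 : ℝ) * (1 / 2 : ℝ) ^ (3 / 2 : ℝ)))) :=
  have hK : KappaStmt3 := Ind3.kappaStmt3_of h3 hL
  have hB : BootStmt3 := bootStmt3_of hK dirStmt3 hE h0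
  answer_half (lim (S3F.finalStmt3_of hK dirSharpStmt3 hB (mean hB) hT))

end Vale.Agent.P361.LRO.S3
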