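import Vale.Agent.P361.LRO.S3.TorSum
import Vale.Agent.P361.LRO.S3.Iface

/-!
P361 stage 3, block (M): the numbers.  From the output of the Peierls-Bogoliubov step
`βλ m³ y ≤ ∑_k -log (1 - exp (-β (t_k + h - λ g_k))) - lZ + 24 β m³ ρ²` to the sharp mean.
-/

namespace Vale.Agent.P361.LRO.S3

open Filter Topology Vale.Agent.P361.B

/-- The coefficient of the landed part is Bloch's constant. -/
theorem aS_half : aS (1 / 2) = BC := by
  have hpi := Real.pi_pos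
  unfold aS BC
  have h1 : Real.sqrt (4 * Real.pi * (1 / 2)) ^ 3 = (2 * Real.pi) ^ (3 / 2 : ℝ) := by
    rw [show 4 * Real.pi * (1 / 2) = 2 * Real.pi by ring, Real.sqrt_eq_rpow, ← Real.rpow_natCast,
      ← Real.rpow_mul (by positivity)]
    norm_num
  have h2 : (8 : ℝ) * Real.pi ^ (3 / 2 : ℝ) * (1 / 2 : ℝ) ^ (3 / 2 : ℝ) =
      (2 * Real.pi) ^ (3 / 2 : ℝ) := by
    have h8 : (8 : ℝ) = 4 ^ (3 / 2 : ℝ) := by
      rw [show (4 : ℝ) = 2 ^ (2 : ℝ) by norm_num, ← Real.rpow_mul (by norm_num)]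
      norm_num
    rw [h8, ← Real.mul_rpow (by norm_num) hpi.le, ← Real.mul_rpow (by positivity) (by norm_num)]
    congr 1
    ring
  rw [h1, h2, inv_mul_eq_div]

theorem neg_log_sub_le {a b : ℝ} (hb : 0 < b) (hab : b ≤ a) :
    -Real.log (1 - Real.exp (-b)) ≤ -Real.log (1 - Real.exp (-a)) + (a - b) / (Real.exp b - 1) := by
  have eb : Real.exp (-b) < 1 := by rw [Real.exp_lt_one_iff]; linarith
  have ea : Real.exp (-a) < 1 := by rw [Real.exp_lt_one_iff]; linarith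
  have hu : 0 < 1 - Real.exp (-b) := by linarith
  have hv : 0 < 1 - Real.exp (-a) := by linarith
  have h1 := Real.log_le_sub_one_of_pos (div_pos hv hu)
  rw [Real.log_div hv.ne' hu.ne'] at h1
  have h2 : (1 - Real.exp (-a)) / (1 - Real.exp (-b)) - 1 =
      (Real.exp (-b) - Real.exp (-a)) / (1 - Real.exp (-b)) := by
    field_simp
    ring
  have h3 : Real.exp (-b) - Real.exp (-a) ≤ (a - b) * Real.exp (-b) := by
    have h4 : Real.exp (-a) = Real.exp (-b) * Real.exp (-(a - b)) := by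
      rw [← Real.exp_add]; congr 1; ring
    rw [h4]
    have h5 := Real.add_one_le_exp (-(a - b))
    have h6 := Real.exp_pos (-b)
    nlinarith
  have h4 : (a - b) * Real.exp (-b) / (1 - Real.exp (-b)) = (a - b) / (Real.exp b - 1) := by
    have h5 : Real.exp b * Real.exp (-b) = 1 := by rw [← Real.exp_add]; simp
    have h6 : 0 < Real.exp b - 1 := by
      have : 1 < Real.exp b := by rw [Real.one_lt_exp_iff]; exact hb
      linarith
    rw [div_eq_div_iff hu.ne' h6.ne']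
    linear_combination (a - b) * h5
  have h5 := div_le_div_of_nonneg_right h3 hu.le
  rw [h4] at h5
  rw [h2] at h1
  linarith

theorem log_shift_le (m : ℕ) [NeZero m] {β h lam τ : ℝ} (g : (Fin 3 → ZMod m) → ℝ) (hβ : 0 < β)
    (hh : 0 < h) (hlam : 0 ≤ lam) (hτ : τ < 1) (hg0 : ∀ k, 0 ≤ g k) (hg1 : ∀ k, g k ≤ 1)
    (hgt : ∀ k, lam * g k ≤ τ * tK m k) :
    ∑ k : Fin 3 → ZMod m, -Real.log (1 - Real.exp (-(β * (tK m k + h - lam * g k)))) ≤
      ∑ k : Fin 3 → ZMod m, -Real.log (1 - Real.exp (-(β * (tK m k + h)))) +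
      β * lam * ∑ k : Fin 3 → ZMod m, 1 / (Real.exp ((1 - τ) * β * tK m k + β * h) - 1) := by
  rw [Finset.mul_sum, ← Finset.sum_add_distrib]
  refine Finset.sum_le_sum fun k _ => ?_
  have ht := tK_nonneg m k
  have hb0 : 0 < (1 - τ) * β * tK m k + β * h := by
    have : 0 ≤ (1 - τ) * β * tK m k :=
      mul_nonneg (mul_nonneg (by linarith) hβ.le) ht
    have := mul_pos hβ hh
    linarith
  have hb1 : (1 - τ) * β * tK m k + β * h ≤ β * (tK m k + h - lam * g k) := by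
    have := mul_le_mul_of_nonneg_left (hgt k) hβ.le
    nlinarith
  have hab : β * (tK m k + h - lam * g k) ≤ β * (tK m k + h) := by
    have : 0 ≤ β * (lam * g k) := mul_nonneg hβ.le (mul_nonneg hlam (hg0 k))
    nlinarith
  have h1 := neg_log_sub_le (lt_of_lt_of_le hb0 hb1) hab
  refine h1.trans (add_le_add le_rfl ?_)
  have e1 : β * (tK m k + h) - β * (tK m k + h - lam * g k) = β * lam * g k := by ring
  have hd : 0 < Real.exp ((1 - τ) * β * tK m k + β * h) - 1 := by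
    have : 1 < Real.exp ((1 - τ) * β * tK m k + β * h) := by rw [Real.one_lt_exp_iff]; exact hb0
    linarith
  have hd2 : Real.exp ((1 - τ) * β * tK m k + β * h) - 1 ≤
      Real.exp (β * (tK m k + h - lam * g k)) - 1 := by
    have := Real.exp_le_exp.2 hb1
    linarith
  rw [e1, mul_one_div]
  refine (div_le_div_of_nonneg_left ?_ hd hd2).trans (div_le_div_of_nonneg_right ?_ hd.le)
  · exact mul_nonneg (mul_nonneg hβ.le hlam) (hg0 k)
  · exact mul_le_of_le_one_right (mul_nonneg hβ.le hlam) (hg1 k)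

theorem FS_mono_zero {s : ℝ} (hs : 0 ≤ s) (S : ℝ) : FS S s ≤ FS S 0 := by
  unfold FS
  refine mul_le_mul_of_nonneg_left ?_ (by positivity)
  refine Summable.tsum_le_tsum (fun r => ?_) (summable_F hs) (summable_F le_rfl)
  refine div_le_div_of_nonneg_right ?_ (by positivity)
  have := exp_le_one hs r
  simpa using this

theorem rpow_neg_three_half {β : ℝ} (hβ : 0 < β) :
    β ^ (-(3 / 2) : ℝ) = (Real.sqrt β ^ 3)⁻¹ := by
  rw [Real.sqrt_eq_rpow, ← Real.rpow_natCast, ← Real.rpow_mul hβ.le, ← Real.rpow_neg hβ.le]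
  norm_num

theorem BC_pos : 0 < BC := by
  rw [← aS_half]
  have h1 : 0 < fS (1 / 2) 0 := by
    unfold fS
    have hpi := Real.pi_pos
    refine mul_pos (by positivity) ?_
    refine (summable_f le_rfl).tsum_pos (fun r => by positivity) 0 ?_
    positivity
  rwa [fS_zero] at h1

/-- Real-variable core of `mean_num`. -/
theorem mean_core {β c c' C1 C7 D1 F0 A Y M P Q lZ y ρ : ℝ} (hβp : 0 < β) (hm3 : 0 < M)
    (P1 : P / M ≤ (Real.sqrt β ^ 3)⁻¹ * (F0 + D1 / β))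
    (Q1 : Q / M ≤ (Real.sqrt β ^ 3)⁻¹ * (Y⁻¹ * A))
    (hlZ : (Real.sqrt β ^ 3)⁻¹ * (F0 - C1 * β ^ (-c)) ≤ lZ / M)
    (hρ0 : 0 ≤ ρ) (hρ : ρ ≤ C7 * (Real.sqrt β ^ 3)⁻¹)
    (hV : β * β ^ (-1 - c') * M * y ≤ P + β * β ^ (-1 - c') * Q - lZ + 24 * β * M * ρ ^ 2) :
    y ≤ (Real.sqrt β ^ 3)⁻¹ * (Y⁻¹ * A + (D1 * β ^ (-(1 - c')) + |C1| * β ^ (-(c - c'))) +
      24 * C7 ^ 2 * β ^ (-(1 / 2 - c'))) := by
  have hX0 : 0 < Real.sqrt β ^ 3 := by have := Real.sqrt_pos.2 hβp; positivity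
  have hXr : (Real.sqrt β ^ 3)⁻¹ = β ^ (-(3 / 2) : ℝ) := (rpow_neg_three_half hβp).symm
  generalize (Real.sqrt β ^ 3)⁻¹ = X at *
  have hX1 : 0 < X := by rw [hXr]; exact Real.rpow_pos_of_pos hβp _
  obtain ⟨lam, hlam⟩ : ∃ l : ℝ, l = β ^ (-1 - c') := ⟨_, rfl⟩
  rw [← hlam] at hV
  have hlam0 : 0 < lam := by rw [hlam]; exact Real.rpow_pos_of_pos hβp _
  have hbl : β * lam = β ^ (-c') := by
    rw [hlam]
    nth_rewrite 1 [← Real.rpow_one β]
    rw [← Real.rpow_add hβp]; congr 1; ring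
  have hbl0 : 0 < β * lam := mul_pos hβp hlam0
  have V1 : β * lam * y ≤ P / M + β * lam * (Q / M) - lZ / M + 24 * β * ρ ^ 2 := by
    have h2 := div_le_div_of_nonneg_right hV hm3.le
    have e3 : β * lam * M * y / M = β * lam * y := by field_simp
    have e4 : (P + β * lam * Q - lZ + 24 * β * M * ρ ^ 2) / M =
        P / M + β * lam * (Q / M) - lZ / M + 24 * β * ρ ^ 2 := by
      field_simp
    rwa [e3, e4] at h2
  have hρ2 : ρ ^ 2 ≤ C7 ^ 2 * X ^ 2 := by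
    rw [← mul_pow]
    exact pow_le_pow_left₀ hρ0 hρ 2
  have V2 : β * lam * y ≤ X * ((D1 / β + |C1| * β ^ (-c)) +
      β * lam * (Y⁻¹ * A) + 24 * β * C7 ^ 2 * X) := by
    have h1 := mul_le_mul_of_nonneg_left Q1 hbl0.le
    have h2 : 24 * β * ρ ^ 2 ≤ 24 * β * (C7 ^ 2 * X ^ 2) :=
      mul_le_mul_of_nonneg_left hρ2 (by positivity)
    have h3 : C1 * β ^ (-c) ≤ |C1| * β ^ (-c) :=
      mul_le_mul_of_nonneg_right (le_abs_self _) (Real.rpow_nonneg hβp.le _)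
    have h4 := mul_le_mul_of_nonneg_left h3 hX1.le
    have e : X * ((D1 / β + |C1| * β ^ (-c)) + β * lam * (Y⁻¹ * A) + 24 * β * C7 ^ 2 * X) =
        X * (F0 + D1 / β) - X * (F0 - C1 * β ^ (-c)) +
        (X * (|C1| * β ^ (-c)) - X * (C1 * β ^ (-c))) + β * lam * (X * (Y⁻¹ * A)) +
        24 * β * (C7 ^ 2 * X ^ 2) := by ring
    rw [e]
    linarith
  have hk : β ^ c' * (β * lam) = 1 := by
    rw [hbl, ← Real.rpow_add hβp]; simp
  have hbc : 0 < β ^ c' := Real.rpow_pos_of_pos hβp _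
  have V3 := mul_le_mul_of_nonneg_left V2 hbc.le
  have e5 : β ^ c' * (β * lam * y) = y := by rw [← mul_assoc, hk, one_mul]
  have e6 : β ^ c' * (D1 / β) = D1 * β ^ (-(1 - c')) := by
    have : β ^ (-(1 - c')) = β ^ c' / β := by
      rw [show -(1 - c') = c' - 1 by ring, Real.rpow_sub hβp, Real.rpow_one]
    rw [this]; ring
  have e7 : β ^ c' * (|C1| * β ^ (-c)) = |C1| * β ^ (-(c - c')) := by
    have : β ^ (-(c - c')) = β ^ c' * β ^ (-c) := by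
      rw [← Real.rpow_add hβp]; congr 1; ring
    rw [this]; ring
  have e8 : β ^ c' * (24 * β * C7 ^ 2 * X) = 24 * C7 ^ 2 * β ^ (-(1 / 2 - c')) := by
    rw [hXr]
    have : β ^ (-(1 / 2 - c')) = β ^ c' * (β * β ^ (-(3 / 2) : ℝ)) := by
      nth_rewrite 3 [← Real.rpow_one β]
      rw [← Real.rpow_add hβp, ← Real.rpow_add hβp]; congr 1; ring
    rw [this]; ring
  have e9 : β ^ c' * (X * ((D1 / β + |C1| * β ^ (-c)) +
      β * lam * (Y⁻¹ * A) + 24 * β * C7 ^ 2 * X)) =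
      X * (Y⁻¹ * A + (D1 * β ^ (-(1 - c')) +
        |C1| * β ^ (-(c - c'))) + 24 * C7 ^ 2 * β ^ (-(1 / 2 - c'))) := by
    rw [← e6, ← e7, ← e8]
    linear_combination X * (Y⁻¹ * A) * hk
  rwa [e5, e9] at V3

theorem p_step {β P M F0 Cp : ℝ} (hβp : 0 < β)
    (h : Real.sqrt β ^ 3 / M * P ≤ F0 + Cp / β + β⁻¹) :
    P / M ≤ (Real.sqrt β ^ 3)⁻¹ * (F0 + (Cp + 1) / β) := by
  have hX0 : 0 < Real.sqrt β ^ 3 := by have := Real.sqrt_pos.2 hβp; positivity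
  rw [inv_mul_eq_div, le_div_iff₀ hX0]
  have : (Cp + 1) / β = Cp / β + β⁻¹ := by rw [add_div, one_div]
  rw [this]
  calc P / M * Real.sqrt β ^ 3 = Real.sqrt β ^ 3 / M * P := by ring
    _ ≤ _ := h
    _ = _ := by ring

theorem q_step {β τ Q M A Cd : ℝ} (hβp : 0 < β) (hCd : 0 ≤ Cd) (hτ : τ ≤ 1 / 2)
    (h : Real.sqrt ((1 - τ) * β) ^ 3 / M * Q ≤ A + Cd / ((1 - τ) * β) + β⁻¹) :
    Q / M ≤ (Real.sqrt β ^ 3)⁻¹ * ((Real.sqrt (1 - τ) ^ 3)⁻¹ * (A + (2 * Cd + 1) / β)) := by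
  have hX0 : 0 < Real.sqrt β ^ 3 := by have := Real.sqrt_pos.2 hβp; positivity
  have hY0 : 0 < Real.sqrt (1 - τ) ^ 3 := by
    have := Real.sqrt_pos.2 (by linarith : 0 < 1 - τ); positivity
  rw [Real.sqrt_mul (by linarith), mul_pow] at h
  generalize Real.sqrt β ^ 3 = X at *
  generalize Real.sqrt (1 - τ) ^ 3 = Y at *
  have h2 : Cd / ((1 - τ) * β) ≤ 2 * Cd / β := by
    rw [div_le_div_iff₀ (by nlinarith) hβp]
    have h3 : 1 ≤ 2 * (1 - τ) := by linarith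
    have h4 : 0 ≤ Cd * β := mul_nonneg hCd hβp.le
    nlinarith
  have h1 : Y * X * (Q / M) ≤ A + (2 * Cd + 1) / β := by
    have : (2 * Cd + 1) / β = 2 * Cd / β + β⁻¹ := by rw [add_div, one_div]
    rw [this]
    calc Y * X * (Q / M) = Y * X / M * Q := by ring
      _ ≤ _ := h
      _ ≤ _ := by linarith
  have h3 : ∀ T : ℝ, X⁻¹ * (Y⁻¹ * T) = T / (Y * X) := fun T => by field_simp
  rw [h3, le_div_iff₀ (by positivity)]
  linarith

theorem w_step {β C0 c' d w t gk : ℝ} (hβp : 0 < β) (ht : 0 ≤ t) (hw0 : 0 ≤ w)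
    (hw : w ≤ 3 * β ^ (1 / 2 + d)) (hgt : gk ≤ C0 * w ^ 2 * t) :
    β ^ (-1 - c') * gk ≤ 9 * |C0| * β ^ (-(c' - 2 * d)) * t := by
  have hlam0 : 0 < β ^ (-1 - c') := Real.rpow_pos_of_pos hβp _
  have h1 : gk ≤ |C0| * w ^ 2 * t := by
    refine hgt.trans ?_
    refine mul_le_mul_of_nonneg_right ?_ ht
    exact mul_le_mul_of_nonneg_right (le_abs_self _) (by positivity)
  have h2 : w ^ 2 ≤ 9 * β ^ (1 + 2 * d) := by
    calc w ^ 2 ≤ (3 * β ^ (1 / 2 + d)) ^ 2 := pow_le_pow_left₀ hw0 hw 2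
      _ = 9 * β ^ (1 + 2 * d) := by
        rw [mul_pow, ← Real.rpow_natCast (β ^ (1 / 2 + d)), ← Real.rpow_mul hβp.le]
        norm_num
        congr 1
        ring
  have h3 : β ^ (-1 - c') * (|C0| * w ^ 2) ≤ 9 * |C0| * β ^ (-(c' - 2 * d)) := by
    have h4 : β ^ (-1 - c') * (|C0| * w ^ 2) ≤ β ^ (-1 - c') * (|C0| * (9 * β ^ (1 + 2 * d))) :=
      mul_le_mul_of_nonneg_left (mul_le_mul_of_nonneg_left h2 (abs_nonneg _)) hlam0.le
    refine h4.trans (le_of_eq ?_)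
    have h5 : β ^ (-1 - c') * β ^ (1 + 2 * d) = β ^ (-(c' - 2 * d)) := by
      rw [← Real.rpow_add hβp]; congr 1; ring
    rw [← h5]
    ring
  calc β ^ (-1 - c') * gk ≤ β ^ (-1 - c') * (|C0| * w ^ 2 * t) :=
        mul_le_mul_of_nonneg_left h1 hlam0.le
    _ = β ^ (-1 - c') * (|C0| * w ^ 2) * t := by ring
    _ ≤ _ := mul_le_mul_of_nonneg_right h3 ht

/-- The bounding function tends to Bloch's constant. -/
theorem G_lim {C0 c c' d Cp Cd C1 C7 δ : ℝ} (hδ : 0 < δ) (hcd : 0 < c' - 2 * d) (h1c : 0 < 1 - c')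
    (hcc : 0 < c - c') (hc2 : 0 < 1 / 2 - c') :
    ∀ᶠ β : ℝ in atTop, ((Real.sqrt (1 - 9 * |C0| * β ^ (-(c' - 2 * d))) ^ 3)⁻¹ *
      (aS (1 / 2) + (2 * Cd + 1) / β) +
      ((Cp + 1) * β ^ (-(1 - c')) + |C1| * β ^ (-(c - c'))) +
      24 * C7 ^ 2 * β ^ (-(1 / 2 - c')) ≤ (1 + δ) * BC) ∧
      9 * |C0| * β ^ (-(c' - 2 * d)) ≤ 1 / 2 := by
  have T1 : Tendsto (fun β : ℝ => 9 * |C0| * β ^ (-(c' - 2 * d))) atTop (𝓝 0) := by
    simpa using (tendsto_rpow_neg_atTop hcd).const_mul (9 * |C0|)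
  have T2 : Tendsto (fun β : ℝ => (Real.sqrt (1 - 9 * |C0| * β ^ (-(c' - 2 * d))) ^ 3)⁻¹) atTop
      (𝓝 1) := by
    have h1 : Tendsto (fun β : ℝ => 1 - 9 * |C0| * β ^ (-(c' - 2 * d))) atTop (𝓝 1) := by
      simpa using tendsto_const_nhds.sub T1
    have h2 := (Real.continuous_sqrt.tendsto 1).comp h1
    have h3 := (h2.pow 3).inv₀ (by simp)
    simpa using h3
  have T3 : Tendsto (fun β : ℝ => aS (1 / 2) + (2 * Cd + 1) / β) atTop (𝓝 (aS (1 / 2))) := by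
    have h1 : Tendsto (fun β : ℝ => (2 * Cd + 1) / β) atTop (𝓝 0) :=
      tendsto_const_nhds.div_atTop tendsto_id
    simpa using tendsto_const_nhds.add h1
  have T4 : Tendsto (fun β : ℝ => (Cp + 1) * β ^ (-(1 - c')) + |C1| * β ^ (-(c - c'))) atTop
      (𝓝 0) := by
    have h1 := (tendsto_rpow_neg_atTop h1c).const_mul (Cp + 1)
    have h2 := (tendsto_rpow_neg_atTop hcc).const_mul |C1|
    simpa using h1.add h2
  have T5 : Tendsto (fun β : ℝ => 24 * C7 ^ 2 * β ^ (-(1 / 2 - c'))) atTop (𝓝 0) := by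
    simpa using (tendsto_rpow_neg_atTop hc2).const_mul (24 * C7 ^ 2)
  have T6 := ((T2.mul T3).add T4).add T5
  have hlim : (1 : ℝ) * aS (1 / 2) + 0 + 0 < (1 + δ) * BC := by
    rw [aS_half]
    have := BC_pos
    nlinarith
  filter_upwards [T6.eventually (gt_mem_nhds hlim),
    T1.eventually (gt_mem_nhds (by norm_num : (0 : ℝ) < 1 / 2))] with β h1 h2
  exact ⟨h1.le, h2.le⟩

/-- The numbers of block (M). -/
theorem mean_num {c : ℝ} (hc : 0 < c) (C0 C1 C7 : ℝ) : ∃ c' d : ℝ, 0 < c' ∧ 0 < d ∧ d ≤ 1 / 100 ∧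
    ∀ δ : ℝ, 0 < δ → ∃ β0 : ℝ, 1 ≤ β0 ∧ ∀ β : ℝ, β0 ≤ β → ∀ w : ℝ, 0 ≤ w → w ≤ 3 * β ^ (1 / 2 + d) →
    ∀ h : ℝ, 0 < h → ∀ᶠ m : ℕ in atTop, ∀ [NeZero m] (y lZ ρ : ℝ) (g : (Fin 3 → ZMod m) → ℝ),
      (∀ k, 0 ≤ g k) → (∀ k, g k ≤ 1) → (∀ k, g k ≤ C0 * w ^ 2 * tK m k) →
      β ^ (-(3 / 2) : ℝ) * (FS (1 / 2) 0 - C1 * β ^ (-c)) ≤ lZ / (m : ℝ) ^ 3 →
      0 ≤ ρ → ρ ≤ C7 * β ^ (-(3 / 2) : ℝ) →
      β * β ^ (-1 - c') * (m : ℝ) ^ 3 * y ≤
        ∑ k : Fin 3 → ZMod m,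
          -Real.log (1 - Real.exp (-(β * (tK m k + h - β ^ (-1 - c') * g k)))) - lZ +
          24 * β * (m : ℝ) ^ 3 * ρ ^ 2 →
      y ≤ (1 + δ) * BC * β ^ (-(3 / 2) : ℝ) := by
  obtain ⟨Cp, hCp, hp⟩ := tor_log_eventually (n := 1) le_rfl
  obtain ⟨Cd, hCd, hd⟩ := tor_dens_eventually (n := 1) le_rfl
  obtain ⟨c', hc'0, hc'c, hc'4⟩ : ∃ c' : ℝ, 0 < c' ∧ c' < c ∧ c' ≤ 1 / 4 :=
    ⟨min (c / 2) (1 / 4), lt_min (by linarith) (by norm_num),
      lt_of_le_of_lt (min_le_left _ _) (by linarith), min_le_right _ _⟩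
  obtain ⟨d, hd0, hd100, hdc⟩ : ∃ d : ℝ, 0 < d ∧ d ≤ 1 / 100 ∧ d ≤ c' / 4 :=
    ⟨min (1 / 100) (c' / 4), lt_min (by norm_num) (by linarith), min_le_left _ _, min_le_right _ _⟩
  refine ⟨c', d, hc'0, hd0, hd100, fun δ hδ => ?_⟩
  obtain ⟨β0, hβ0⟩ := eventually_atTop.1 ((G_lim (C0 := C0) (c := c) (c' := c') (d := d) (Cp := Cp)
    (Cd := Cd) (C1 := C1) (C7 := C7) hδ (by linarith) (by linarith) (by linarith)
    (by linarith)).and (eventually_ge_atTop (2 * 448 : ℝ)))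
  refine ⟨max 1 β0, le_max_left _ _, fun β hβ w hw0 hw h hh => ?_⟩
  obtain ⟨⟨hG, hτ⟩, h896⟩ := hβ0 β (le_trans (le_max_right _ _) hβ)
  have hβ1 : 1 ≤ β := by linarith
  have hβp : 0 < β := by linarith
  obtain ⟨τ, hτd⟩ : ∃ τ : ℝ, τ = 9 * |C0| * β ^ (-(c' - 2 * d)) := ⟨_, rfl⟩
  rw [← hτd] at hG hτ
  have hβ' : 448 ≤ (1 - τ) * β := by nlinarith
  have hs : 0 < β * h := mul_pos hβp hh
  filter_upwards [hp β (by linarith) (β * h) hs β⁻¹ (by positivity),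
    hd ((1 - τ) * β) hβ' (β * h) hs β⁻¹ (by positivity), eventually_gt_atTop 0] with m hm1 hm2 hm0
  intro _ y lZ ρ g hg0 hg1 hgt hlZ hρ0 hρ hV
  have m1 := hm1
  have m2 := hm2
  have hmR : (0 : ℝ) < m := by exact_mod_cast hm0
  have hm3 : (0 : ℝ) < (m : ℝ) ^ 3 := by positivity
  have hlam0 : 0 < β ^ (-1 - c') := Real.rpow_pos_of_pos hβp _
  have hlg : ∀ k, β ^ (-1 - c') * g k ≤ τ * tK m k := fun k => by
    rw [hτd]
    exact w_step hβp (tK_nonneg m k) hw0 hw (hgt k)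
  have hsh := log_shift_le m g hβp hh hlam0.le (by linarith : τ < 1) hg0 hg1 hlg
  have e1 : ∀ k : Fin 3 → ZMod m,
      β * (((1 : ℕ) : ℝ) * tK m k) + β * h = β * (tK m k + h) := fun k => by push_cast; ring
  have e2 : ∀ k : Fin 3 → ZMod m, (1 - τ) * β * (((1 : ℕ) : ℝ) * tK m k) + β * h =
      (1 - τ) * β * tK m k + β * h := fun k => by push_cast; ring
  have hh1 : (((1 : ℕ) : ℝ) / 2) = 1 / 2 := by norm_num
  rw [hh1] at m1 m2
  simp only [e1] at m1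
  simp only [e2] at m2
  have f1 : FS (1 / 2) (β * h) ≤ FS (1 / 2) 0 := FS_mono_zero hs.le _
  have f2 : fS (1 / 2) (β * h) ≤ aS (1 / 2) := fS_le _ hs.le
  generalize (∑ k : Fin 3 → ZMod m, -Real.log (1 - Real.exp (-(β * (tK m k + h))))) = P at *
  generalize (∑ k : Fin 3 → ZMod m, 1 / (Real.exp ((1 - τ) * β * tK m k + β * h) - 1)) = Q at *
  have P1 := p_step (P := P) (M := (m : ℝ) ^ 3) (F0 := FS (1 / 2) 0) (Cp := Cp) hβp
    (m1.trans (by linarith))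
  have Q1 := q_step (Q := Q) (M := (m : ℝ) ^ 3) (A := aS (1 / 2)) (Cd := Cd) hβp hCd hτ
    (m2.trans (by linarith))
  rw [rpow_neg_three_half hβp] at hlZ hρ ⊢
  have V3 := mean_core (c := c) (c' := c') (C1 := C1) (C7 := C7) (D1 := Cp + 1) (F0 := FS (1 / 2) 0)
    (A := aS (1 / 2) + (2 * Cd + 1) / β) (y := y) hβp hm3 P1 Q1 hlZ hρ0 hρ (by linarith)
  refine V3.trans ?_
  rw [mul_comm ((1 + δ) * BC)]
  exact mul_le_mul_of_nonneg_left hG (by positivity)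

theorem FS_ge {s : ℝ} (hs : 0 ≤ s) (S : ℝ) : FS S 0 - s * aS S ≤ FS S s := by
  have h0 : aS S = fS S 0 := (fS_zero S).symm
  rw [h0]
  unfold FS fS
  have h1 := summable_F (t := 0) le_rfl
  have h2 := summable_F hs
  have h3 := summable_f (t := 0) le_rfl
  have h4 : ∑' r : ℕ, Real.exp (-(((r : ℝ) + 1) * 0)) / (((r : ℝ) + 1) * Real.sqrt ((r : ℝ) + 1) ^ 3) -
      s * ∑' r : ℕ, Real.exp (-(((r : ℝ) + 1) * 0)) / Real.sqrt ((r : ℝ) + 1) ^ 3 ≤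
      ∑' r : ℕ, Real.exp (-(((r : ℝ) + 1) * s)) / (((r : ℝ) + 1) * Real.sqrt ((r : ℝ) + 1) ^ 3) := by
    rw [← tsum_mul_left, ← h1.tsum_sub (h3.mul_left s)]
    refine Summable.tsum_le_tsum (fun r => ?_) (h1.sub (h3.mul_left s)) h2
    have hr1 : (0 : ℝ) < (r : ℝ) + 1 := by positivity
    have hq : 0 < Real.sqrt ((r : ℝ) + 1) ^ 3 := by
      have := Real.sqrt_pos.2 hr1; positivity
    have h5 := Real.add_one_le_exp (-(((r : ℝ) + 1) * s))
    have h6 : Real.exp (-(((r : ℝ) + 1) * 0)) = 1 := by simp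
    rw [h6]
    have h7 : 1 / (((r : ℝ) + 1) * Real.sqrt ((r : ℝ) + 1) ^ 3) - s * (1 / Real.sqrt ((r : ℝ) + 1) ^ 3)
        = (1 - ((r : ℝ) + 1) * s) / (((r : ℝ) + 1) * Real.sqrt ((r : ℝ) + 1) ^ 3) := by
      field_simp
    rw [h7]
    refine div_le_div_of_nonneg_right ?_ (by positivity)
    linarith
  have h5 := mul_le_mul_of_nonneg_left h4
    (a := (Real.sqrt (4 * Real.pi * S) ^ 3)⁻¹) (by positivity)
  refine le_trans (le_of_eq ?_) h5
  ring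

end Vale.Agent.P361.LRO.S3
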