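import Vale.Agent.P361.LRO.S3.MeanA
import Vale.Agent.P361.LRO.S3.MeanNum

/-!
P361, stage 3, block (M): the sharp upper bound for the block mean in a uniform small field.
-/

namespace Vale.Agent.P361.LRO.S3.MF

open Filter Topology Vale.Agent.P361.B

/-- `mean_num` with the relation between the two exponents. -/
theorem mean_num2 {c : ℝ} (hc : 0 < c) (C0 C1 C7 : ℝ) : ∃ c' d : ℝ, 0 < c' ∧ 0 < d ∧ d ≤ 1 / 100 ∧
    d ≤ c' / 4 ∧ ∀ δ : ℝ, 0 < δ → ∃ β0 : ℝ, 1 ≤ β0 ∧ ∀ β : ℝ, β0 ≤ β → ∀ w : ℝ, 0 ≤ w → w ≤ 3 * β ^ (1 / 2 + d) →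
    ∀ h : ℝ, 0 < h → ∀ᶠ m : ℕ in atTop, ∀ [NeZero m] (y lZ ρ : ℝ) (g : (Fin 3 → ZMod m) → ℝ),
      (∀ k, 0 ≤ g k) → (∀ k, g k ≤ 1) → (∀ k, g k ≤ C0 * w ^ 2 * tK m k) →
      β ^ (-(3 / 2) : ℝ) * (FS (1 / 2) 0 - C1 * β ^ (-c)) ≤ lZ / (m : ℝ) ^ 3 →
      0 ≤ ρ → ρ ≤ C7 * β ^ (-(3 / 2) : ℝ) →
      β * β ^ (-1 - c') * (m : ℝ) ^ 3 * y ≤
        ∑ k : Fin 3 → ZMod m,
          -Real.log (1 - Real.exp (-(β * (tK m k + h - β ^ (-1 - c') * g k)))) - lZ +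
          24 * β * (m : ℝ) ^ 3 * ρ ^ 2 →
      y ≤ (1 + δ) * BC * β ^ (-(3 / 2) : ℝ) := by
  obtain ⟨Cp, hCp, hp⟩ := tor_log_eventually (n := 1) le_rfl
  obtain ⟨Cd, hCd, hd⟩ := tor_dens_eventually (n := 1) le_rfl
  obtain ⟨c', hc'0, hc'c, hc'4⟩ : ∃ c' : ℝ, 0 < c' ∧ c' < c ∧ c' ≤ 1 / 4 :=
    ⟨min (c / 2) (1 / 4), lt_min (by linarith) (by norm_num),
      lt_of_le_of_lt (min_le_left _ _) (by linarith), min_le_right _ _⟩
  obtain ⟨d, hd0, hd100, hdc⟩ : ∃ d : ℝ, 0 < d ∧ d ≤ 1 / 100 ∧ d ≤ c' / 4 :=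
    ⟨min (1 / 100) (c' / 4), lt_min (by norm_num) (by linarith), min_le_left _ _, min_le_right _ _⟩
  refine ⟨c', d, hc'0, hd0, hd100, hdc, fun δ hδ => ?_⟩
  obtain ⟨β0, hβ0⟩ := eventually_atTop.1 ((G_lim (C0 := C0) (c := c) (c' := c') (d := d) (Cp := Cp)
    (Cd := Cd) (C1 := C1) (C7 := C7) hδ (by linarith) (by linarith) (by linarith)
    (by linarith)).and (eventually_ge_atTop (2 * 448 : ℝ)))
  refine ⟨max 1 β0, le_max_left _ _, fun β hβ w hw0 hw h hh => ?_⟩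
  obtain ⟨⟨hG, hτ⟩, h896⟩ := hβ0 β (le_trans (le_max_right _ _) hβ)
  have hβ1 : 1 ≤ β := by linarith
  have hβp : 0 < β := by linarith
  obtain ⟨τ, hτd⟩ : ∃ τ : ℝ, τ = 9 * |C0| * β ^ (-(c' - 2 * d)) := ⟨_, rfl⟩
  rw [← hτd] at hG hτ
  have hβ' : 448 ≤ (1 - τ) * β := by nlinarith
  have hs : 0 < β * h := mul_pos hβp hh
  filter_upwards [hp β (by linarith) (β * h) hs β⁻¹ (by positivity),
    hd ((1 - τ) * β) hβ' (β * h) hs β⁻¹ (by positivity), eventually_gt_atTop 0] with m hm1 hm2 hm0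
  intro _ y lZ ρ g hg0 hg1 hgt hlZ hρ0 hρ hV
  have m1 := hm1
  have m2 := hm2
  have hmR : (0 : ℝ) < m := by exact_mod_cast hm0
  have hm3 : (0 : ℝ) < (m : ℝ) ^ 3 := by positivity
  have hlam0 : 0 < β ^ (-1 - c') := Real.rpow_pos_of_pos hβp _
  have hlg : ∀ k, β ^ (-1 - c') * g k ≤ τ * tK m k := fun k => by
    rw [hτd]
    exact w_step hβp (tK_nonneg m k) hw0 hw (hgt k)
  have hsh := log_shift_le m g hβp hh hlam0.le (by linarith : τ < 1) hg0 hg1 hlg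
  have e1 : ∀ k : Fin 3 → ZMod m,
      β * (((1 : ℕ) : ℝ) * tK m k) + β * h = β * (tK m k + h) := fun k => by push_cast; ring
  have e2 : ∀ k : Fin 3 → ZMod m, (1 - τ) * β * (((1 : ℕ) : ℝ) * tK m k) + β * h =
      (1 - τ) * β * tK m k + β * h := fun k => by push_cast; ring
  have hh1 : (((1 : ℕ) : ℝ) / 2) = 1 / 2 := by norm_num
  rw [hh1] at m1 m2
  simp only [e1] at m1
  simp only [e2] at m2
  have f1 : FS (1 / 2) (β * h) ≤ FS (1 / 2) 0 := FS_mono_zero hs.le _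
  have f2 : fS (1 / 2) (β * h) ≤ aS (1 / 2) := fS_le _ hs.le
  generalize (∑ k : Fin 3 → ZMod m, -Real.log (1 - Real.exp (-(β * (tK m k + h))))) = P at *
  generalize (∑ k : Fin 3 → ZMod m, 1 / (Real.exp ((1 - τ) * β * tK m k + β * h) - 1)) = Q at *
  have P1 := p_step (P := P) (M := (m : ℝ) ^ 3) (F0 := FS (1 / 2) 0) (Cp := Cp) hβp
    (m1.trans (by linarith))
  have Q1 := q_step (Q := Q) (M := (m : ℝ) ^ 3) (A := aS (1 / 2)) (Cd := Cd) hβp hCd hτ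
    (m2.trans (by linarith))
  rw [rpow_neg_three_half hβp] at hlZ hρ ⊢
  have V3 := mean_core (c := c) (c' := c') (C1 := C1) (C7 := C7) (D1 := Cp + 1) (F0 := FS (1 / 2) 0)
    (A := aS (1 / 2) + (2 * Cd + 1) / β) (y := y) hβp hm3 P1 Q1 hlZ hρ0 hρ (by linarith)
  refine V3.trans ?_
  rw [mul_comm ((1 + δ) * BC)]
  exact mul_le_mul_of_nonneg_left hG (by positivity)


theorem tq_tK {n : ℕ} [NeZero n] (k : Tor n) : OB.tq k = tK n k := OB.tq_eq k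

/-- The lower bound for the partition function in the form of `mean_num2`. -/
theorem logZ_step {K β h n3 lZ : ℝ} (hK : 1 ≤ K) (hβ : K ≤ β) (hh : 0 ≤ h)
    (hh2 : h ≤ β ^ (-(10 : ℝ))) (hn : 0 < n3)
    (H : ((1 - K / β) * FS (1 / 2) (β * h) / Real.sqrt β ^ 3 - β ^ (-(5 / 2) : ℝ)) * n3 ≤ lZ) :
    β ^ (-(3 / 2) : ℝ) * (FS (1 / 2) 0 - (K * FS (1 / 2) 0 + aS (1 / 2) + 1) * β ^ (-1 : ℝ)) ≤
      lZ / n3 := by
  have hβ1 : 1 ≤ β := hK.trans hβ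
  have hβ0 : 0 < β := by linarith
  rw [le_div_iff₀ hn]
  refine le_trans (mul_le_mul_of_nonneg_right ?_ hn.le) H
  have e1 : β ^ (-(5 / 2) : ℝ) = β ^ (-(3 / 2) : ℝ) * β ^ (-1 : ℝ) := by
    rw [← Real.rpow_add hβ0]
    norm_num
  have e2 : (Real.sqrt β ^ 3)⁻¹ = β ^ (-(3 / 2) : ℝ) := by
    rw [rpow_neg_three_half hβ0]
  have hP : 0 < β ^ (-(3 / 2) : ℝ) := Real.rpow_pos_of_pos hβ0 _
  rw [div_eq_mul_inv _ (Real.sqrt β ^ 3), e2, e1]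
  have e3 : β ^ (-1 : ℝ) = 1 / β := by
    rw [Real.rpow_neg_one, one_div]
  have hs0 : 0 ≤ β * h := mul_nonneg hβ0.le hh
  have hs1 : β * h ≤ 1 / β := by
    have h1 : β * h ≤ β * β ^ (-(10 : ℝ)) := mul_le_mul_of_nonneg_left hh2 hβ0.le
    have h2 : β * β ^ (-(10 : ℝ)) = β ^ (-9 : ℝ) := by
      nth_rewrite 1 [← Real.rpow_one β]
      rw [← Real.rpow_add hβ0]
      norm_num
    have h3 : β ^ (-9 : ℝ) ≤ β ^ (-1 : ℝ) :=
      Real.rpow_le_rpow_of_exponent_le hβ1 (by norm_num)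
    rw [← e3]
    linarith
  have hF := FS_ge hs0 (1 / 2)
  have hA : 0 ≤ aS (1 / 2) := by
    rw [aS_half]
    exact BC_pos.le
  have hk : 0 ≤ 1 - K / β := by
    have : K / β ≤ 1 := (div_le_one hβ0).2 hβ
    linarith
  have hk1 : 1 - K / β ≤ 1 := by
    have : 0 ≤ K / β := by positivity
    linarith
  rw [e3]
  have h4 : FS (1 / 2) 0 - (K * FS (1 / 2) 0 + aS (1 / 2)) * (1 / β) ≤
      (1 - K / β) * FS (1 / 2) (β * h) := by
    have h5 := mul_le_mul_of_nonneg_left hF hk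
    have h6 : (1 - K / β) * (β * h * aS (1 / 2)) ≤ 1 * (1 / β * aS (1 / 2)) :=
      mul_le_mul hk1 (mul_le_mul_of_nonneg_right hs1 hA) (mul_nonneg hs0 hA) one_pos.le
    have h7 : (1 - K / β) * (FS (1 / 2) 0 - β * h * aS (1 / 2)) =
        FS (1 / 2) 0 - K * FS (1 / 2) 0 * (1 / β) - (1 - K / β) * (β * h * aS (1 / 2)) := by
      ring
    rw [h7] at h5
    linarith
  nlinarith [mul_le_mul_of_nonneg_left h4 hP.le]

/-- Block (M): the sharp upper bound for the block mean. -/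
theorem meanStmt3_of (hB : BootStmt3) : MeanStmt3 := by
  obtain ⟨C7, β7, hC7, Hρ⟩ := rho_uniform_of_boot hB
  obtain ⟨K, hK1, HZ⟩ := logZ_lower
  obtain ⟨c', d, hc', hd, hd1, hdc, H⟩ := mean_num2 (c := 1) one_pos 12
    (K * FS (1 / 2) 0 + aS (1 / 2) + 1) C7
  refine ⟨d, hd, hd1, fun δ hδ => ?_⟩
  obtain ⟨β0, hβ01, Hβ⟩ := H δ hδ
  have e1 : ∀ᶠ β : ℝ in atTop, C7 * β ^ (-(3 / 2) : ℝ) < 1 / 4 := by
    have h1 : Tendsto (fun β : ℝ => C7 * β ^ (-(3 / 2) : ℝ)) atTop (𝓝 (C7 * 0)) :=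
      (tendsto_rpow_neg_atTop (by norm_num : (0 : ℝ) < 3 / 2)).const_mul C7
    rw [mul_zero] at h1
    exact (tendsto_order.1 h1).2 _ (by norm_num)
  have e2 : ∀ᶠ β : ℝ in atTop, 108 * β ^ (-(c' / 2) : ℝ) < 1 := by
    have h1 : Tendsto (fun β : ℝ => 108 * β ^ (-(c' / 2) : ℝ)) atTop (𝓝 (108 * 0)) :=
      (tendsto_rpow_neg_atTop (by linarith : (0 : ℝ) < c' / 2)).const_mul 108
    rw [mul_zero] at h1
    exact (tendsto_order.1 h1).2 _ one_pos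
  obtain ⟨β1, hβ1⟩ := eventually_atTop.1 (e1.and e2)
  refine ⟨max (max β0 β1) (max β7 K), fun β hβ a _ ha2 h hh hh2 => ?_⟩
  have g0 : β0 ≤ β := le_trans (le_trans (le_max_left _ _) (le_max_left _ _)) hβ
  have g1 : β1 ≤ β := le_trans (le_trans (le_max_right _ _) (le_max_left _ _)) hβ
  have g7 : β7 ≤ β := le_trans (le_trans (le_max_left _ _) (le_max_right _ _)) hβ
  have gK : K ≤ β := le_trans (le_trans (le_max_right _ _) (le_max_right _ _)) hβ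
  have hb1 : 1 ≤ β := hβ01.trans g0
  have hb0 : 0 < β := by linarith
  obtain ⟨f1, f2⟩ := hβ1 β g1
  have hβh : β * h ≤ 1 := by
    have h1 : β * h ≤ β * β ^ (-(10 : ℝ)) := mul_le_mul_of_nonneg_left hh2 hb0.le
    have h2 : β * β ^ (-(10 : ℝ)) = β ^ (-9 : ℝ) := by
      nth_rewrite 1 [← Real.rpow_one β]
      rw [← Real.rpow_add hb0]
      norm_num
    have h3 : β ^ (-9 : ℝ) ≤ 1 := Real.rpow_le_one_of_one_le_of_nonpos hb1 (by norm_num)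
    linarith
  obtain ⟨n1, hn1⟩ := Hρ β g7 h hh hβh
  obtain ⟨n2, hn2⟩ := HZ β gK h hh.le (β ^ (-(5 / 2) : ℝ)) (Real.rpow_pos_of_pos hb0 _)
  have hw0 : (0 : ℝ) ≤ ((3 ^ a : ℕ) : ℝ) := Nat.cast_nonneg _
  have hw3 : ((3 ^ a : ℕ) : ℝ) ≤ 3 * β ^ (1 / 2 + d) := by
    push_cast
    exact ha2
  obtain ⟨n3, hn3⟩ := eventually_atTop.1 (Hβ β g0 ((3 ^ a : ℕ) : ℝ) hw0 hw3 h hh)
  refine ⟨max (max n1 n2) (max n3 (3 ^ a + 2)), fun n _ hn hodd x => ?_⟩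
  have k1 : n1 ≤ n := le_trans (le_trans (le_max_left _ _) (le_max_left _ _)) hn
  have k2 : n2 ≤ n := le_trans (le_trans (le_max_right _ _) (le_max_left _ _)) hn
  have k3 : n3 ≤ n := le_trans (le_trans (le_max_left _ _) (le_max_right _ _)) hn
  have k4 : 3 ^ a + 2 ≤ n := le_trans (le_trans (le_max_right _ _) (le_max_right _ _)) hn
  have k6 : 2 ≤ n := le_trans (Nat.le_add_left 2 _) k4
  have k7 : 3 ^ a ≤ n := le_trans (Nat.le_add_right _ 2) k4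
  have hn0 : (0 : ℝ) < n := by exact_mod_cast lt_of_lt_of_le two_pos k6
  have hn3' : (0 : ℝ) < (n : ℝ) ^ 3 := by positivity
  have hlam : 0 < β ^ (-1 - c') := Real.rpow_pos_of_pos hb0 _
  have hwsq : ((3 ^ a : ℕ) : ℝ) ^ 2 ≤ 9 * β ^ (1 + 2 * d) := by
    have h1 := pow_le_pow_left₀ hw0 hw3 2
    have h2 : (3 * β ^ (1 / 2 + d)) ^ 2 = 9 * β ^ (1 + 2 * d) := by
      rw [mul_pow, ← Real.rpow_natCast (β ^ (1 / 2 + d)) 2, ← Real.rpow_mul hb0.le]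
      norm_num
      ring_nf
    rw [h2] at h1
    exact h1
  have hμ : 12 * β ^ (-1 - c') * ((3 ^ a : ℕ) : ℝ) ^ 2 ≤ 1 := by
    have h1 : 12 * β ^ (-1 - c') * ((3 ^ a : ℕ) : ℝ) ^ 2 ≤
        12 * β ^ (-1 - c') * (9 * β ^ (1 + 2 * d)) :=
      mul_le_mul_of_nonneg_left hwsq (by positivity)
    have h2 : 12 * β ^ (-1 - c') * (9 * β ^ (1 + 2 * d)) = 108 * β ^ (2 * d - c') := by
      have : β ^ (2 * d - c') = β ^ (-1 - c') * β ^ (1 + 2 * d) := by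
        rw [← Real.rpow_add hb0]
        congr 1
        ring
      rw [this]
      ring
    have h3 : β ^ (2 * d - c') ≤ β ^ (-(c' / 2) : ℝ) :=
      Real.rpow_le_rpow_of_exponent_le hb1 (by linarith)
    linarith
  refine hn3 n k3 (yb (edges n) β (fun _ => h) (cube n x (3 ^ a))) (logZ n β h)
    (C7 * β ^ (-(3 / 2) : ℝ)) (fun k => OB.gq (3 ^ a) k) (OB.gq_nonneg _) (OB.gq_le_one _) ?_ ?_
    (by positivity) le_rfl ?_
  · intro k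
    rw [← tq_tK]
    exact OB.gq_le (3 ^ a) k
  · exact logZ_step hK1 gK hh.le hh2 hn3' (hn2 n k2 hodd)
  · have h1 := MA.mean_fin (n := n) (w := 3 ^ a) k6 k7 (by positivity) hb0 hh
      hlam.le hμ le_rfl f1.le (hn1 n k1 hodd) x
    simp only [← tq_tK]
    refine le_trans (le_of_eq ?_) h1
    ring

end Vale.Agent.P361.LRO.S3.MF
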