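import Vale.Agent.P361.LRO.S3.Start3
import Vale.Agent.P361.BridgeC

/-! P361, stage 3, block (B0): the start of the bootstrap (helper10). -/

namespace Vale.Agent.P361.LRO.S3

theorem startStmt3 : StartStmt3 :=
  start3_of fun κ hκ ε hε => Vale.Agent.P361.BridgeB.mag_uniform 1 le_rfl κ hκ ε hε

end Vale.Agent.P361.LRO.S3
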