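import Vale.Agent.P361.LRO.S3.Tail
import Vale.Agent.P361.LRO.S3.LT0
import Vale.Agent.P361.LRO.S3.LT1
import Vale.Agent.P361.LRO.S3.LT2

/-!
P361, stage 3, block (T): `tailStmt3`.
-/

namespace Vale.Agent.P361.LRO.S3

open Finset Matrix Filter Topology
open Vale.Agent.P361.LRO.S3T

theorem cardB (w : ℕ) : (B.cube w).card = w ^ 3 := by
  unfold B.cube
  rw [Fintype.card_piFinset]
  simp

theorem lt01Stmt : LT01Stmt := by
  intro β h hβ hh w hw ε hε
  obtain ⟨n0, hn0⟩ := lt1 hβ hh.le hw hε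
  refine ⟨n0, fun n _ hn hodd x G τ1 τ2 c1 c2 hτ1 hτ2 hc1 hc2 hG => ?_⟩
  have h1 := hn0 n hn hodd x G
  have h2 := lt0 (B.cube w) β hτ1.le hτ2.le hc1 hc2 G (by
    rw [cardB]
    intro r hr
    have := hG r hr
    push_cast
    exact this)
  rw [cardB] at h2
  push_cast at h2
  refine h1.trans ?_
  have hT : (B.hT 1 (B.cube w)).IsHermitian := B.hT_isHermitian
  have hH : (-((β : ℂ) • B.hT 1 (B.cube w)) +
      Polynomial.aeval (B.casX 1 (B.cube w)) (G.map (algebraMap ℝ ℂ))).IsHermitian := by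
    refine Matrix.IsHermitian.add (Matrix.IsHermitian.neg ?_)
      (LT1.aeval_isHermitian (LT1.casX_isHermitian' w) G)
    rw [Matrix.IsHermitian, Matrix.conjTranspose_smul, hT]
    simp
  have h3 := Real.log_le_log (trace_exp_pos hH) h2
  linarith

theorem tailStmt3 (hB : BootStmt3) : TailStmt3 :=
  tailStmt3_of lt01Stmt (fun d hd hd1 τ ε hτ hε => lt2 d hd hd1 τ hτ ε hε) hB

end Vale.Agent.P361.LRO.S3
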