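import Vale.Agent.P361.LRO.S3.Iface
import Vale.Agent.P361.LRO.S3.Answer
import Vale.Agent.P361.LRO.S3.Boot
import Vale.Agent.P361.LRO.S3.FinalF
import Vale.Agent.P361.LRO.S3.FinalLim
import Vale.Agent.P361.LRO.S3.DirStmt
import Vale.Agent.P361.LRO.S3.StartMain
import Vale.Agent.P361.LRO.S3.Energy3
import Vale.Agent.P361.LRO.S3.MeanFin
import Vale.Agent.P361.LRO.S3.TailMain
import Vale.Agent.P361.LRO.Ind3.KappaMain

/-! # Bloch's law for spin `1/2` -/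

namespace Vale.Agent.P361.LRO.S3

open Filter Topology

/-- The order `β^{-3/2}` on the torus, for all profiles of the family. -/
theorem bootStmt3 : BootStmt3 :=
  bootStmt3_of Ind3.kappaStmt3 dirStmt3 energyStmt3 startStmt3

theorem finalStmt3 : FinalStmt3 :=
  S3F.finalStmt3_of Ind3.kappaStmt3 dirSharpStmt3 bootStmt3 (MF.meanStmt3_of bootStmt3)
    (tailStmt3 bootStmt3)

/-- Bloch's law for spin `1/2`. -/
theorem bloch_half :
    (∀ β : ℝ, 0 < β →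
      (∀ h : ℝ, Tendsto (fun N : ℕ => Model.finPressure 1 N β h) atTop (𝓝 (Model.pressure 1 β h))) ∧
      ConvexOn ℝ Set.univ (Model.pressure 1 β) ∧
      HasDerivWithinAt (Model.pressure 1 β) (Model.spontMag 1 β) (Set.Ioi 0) 0 ∧
      Model.spontMag 1 β ≤ 1 / 2) ∧
    (∃ β₀ : ℝ, 0 < β₀ ∧ ∀ β : ℝ, β₀ ≤ β → 0 < Model.spontMag 1 β) ∧
    Tendsto (fun β : ℝ => Model.spontMag 1 β) atTop (𝓝 (1 / 2)) ∧
    Tendsto (fun β : ℝ => β ^ (3 / 2 : ℝ) * (1 / 2 - Model.spontMag 1 β)) atTop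
      (𝓝 ((riemannZeta (3 / 2)).re / (8 * Real.pi ^ (3 / 2 : ℝ) * (1 / 2 : ℝ) ^ (3 / 2 : ℝ)))) :=
  answer_half (bloch_of_final finalStmt3)

end Vale.Agent.P361.LRO.S3
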