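import Vale.Agent.P361.LRO.Fin.CMat
import Vale.Agent.P361.LRO.S3.Hc

/-!
P361, stage 3, block (M), step (V2): Peierls-Bogoliubov for the torus mean (helper836).
-/

set_option linter.unusedSectionVars false

namespace Vale.Agent.P361.LRO.S3.Mean

open Finset Matrix

noncomputable section

variable {V : Type} [Fintype V] [DecidableEq V]

/-- One-particle hopping matrix of the list of edges, `t = (1/2) ∑_e (δ_x - δ_y)(δ_x - δ_y)ᵀ`. -/
def tL (L : List (V × V)) (u v : V) : ℝ := (1 / 2 : ℝ) * (L.map fun e => pairK e.1 e.2 u v).sum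

/-- One-particle matrix of the fluctuations inside the block `b`, `1_b - |1_b><1_b| / |b|`. -/
def gB (b : Finset V) (u v : V) : ℝ := (1 / (2 * (b.card : ℝ))) * ∑ x ∈ b, ∑ y ∈ b, pairK x y u v

/-- Identity kernel. -/
def oneK (u v : V) : ℝ := if u = v then 1 else 0

/-- Pair operator of the edges. -/
def WL (L : List (V × V)) : Matrix (V → Fin 2) (V → Fin 2) ℝ :=
  (L.map fun e => nM e.1 * nM e.2).sum

theorem pairK_self (x u v : V) : pairK x x u v = 0 := by
  simp [pairK]

theorem pairK_symm (x y u v : V) : pairK x y u v = pairK x y v u := by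
  simp only [pairK]; ring

theorem hM_self (x : V) : hM x x = (0 : Matrix (V → Fin 2) (V → Fin 2) ℝ) := by
  have h1 : swapM x x = (1 : Matrix (V → Fin 2) (V → Fin 2) ℝ) := by
    ext σ τ
    simp [swapM, Matrix.one_apply]
  rw [hM, h1, sub_self, smul_zero]

theorem hcM_zero : hcM (fun _ _ : V => (0 : ℝ)) = 0 := by
  simp [hcM]

theorem hcM_tL (L : List (V × V)) (hL : ∀ e ∈ L, e.1 ≠ e.2) :
    hcM (tL L) = (L.map fun e => hM e.1 e.2).sum + WL L := by
  have h0 : tL L = fun u v => (1 / 2 : ℝ) * (L.map fun e => pairK e.1 e.2 u v).sum := rfl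
  rw [h0, hcM_smul]
  clear h0
  induction L with
  | nil => simp [WL, hcM_zero]
  | cons e L ih =>
    have ih' := ih fun e' he' => hL e' (List.mem_cons_of_mem _ he')
    simp only [List.map_cons, List.sum_cons, WL] at ih' ⊢
    rw [hcM_add (fun u v => pairK e.1 e.2 u v), smul_add, ih']
    have h1 : hcM (fun u v => pairK e.1 e.2 u v) = (2 : ℝ) • hM e.1 e.2 +
        (2 : ℝ) • (nM e.1 * nM e.2) := hcM_pairK (hL e List.mem_cons_self)
    rw [h1, smul_add, smul_smul, smul_smul]
    norm_num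
    abel

/-- `(1/|b|) ∑_{x,y ∈ b} h_xy = dΓ(g_b) - (1/|b|) ∑_{x ≠ y} n_x n_y`. -/
theorem hcM_gB (b : Finset V) :
    hcM (gB b) = (1 / (b.card : ℝ)) • ∑ x ∈ b, ∑ y ∈ b, hM x y +
      (1 / (b.card : ℝ)) • ∑ x ∈ b, ∑ y ∈ b, (if x = y then 0 else nM x * nM y) := by
  have h1 : ∀ x ∈ b, ∀ y ∈ b, hcM (pairK x y) = (2 : ℝ) • hM x y +
      (2 : ℝ) • (if x = y then 0 else nM x * nM y) := by
    intro x _ y _
    by_cases hxy : x = y
    · subst hxy
      have h2 : (pairK x x : V → V → ℝ) = fun _ _ => 0 := by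
        funext u v; exact pairK_self x u v
      rw [h2, hcM_zero, hM_self, if_pos rfl, smul_zero, add_zero]
    · rw [if_neg hxy, hcM_pairK hxy]
  have h0 : gB b = fun u v => (1 / (2 * (b.card : ℝ))) *
      ∑ x ∈ b, ∑ y ∈ b, pairK x y u v := rfl
  rw [h0, hcM_smul, hcM_sum]
  have h2 : ∀ x ∈ b, hcM (fun u v => ∑ y ∈ b, pairK x y u v) = ∑ y ∈ b, ((2 : ℝ) • hM x y +
      (2 : ℝ) • (if x = y then 0 else nM x * nM y)) := by
    intro x hx
    rw [hcM_sum]
    exact Finset.sum_congr rfl fun y hy => h1 x hx y hy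
  rw [Finset.sum_congr rfl h2]
  simp only [Finset.sum_add_distrib, ← Finset.smul_sum, smul_add, smul_smul]
  have h3 : 1 / (2 * (b.card : ℝ)) * 2 = 1 / (b.card : ℝ) := by
    rw [one_div, mul_inv, one_div]; ring
  rw [h3]

theorem szM_symm (x : V) : (szM x : Matrix (V → Fin 2) (V → Fin 2) ℝ).IsSymm := by
  rw [szM]; exact Matrix.isSymm_diagonal _

theorem nn_eq (x y : V) : nM x * nM y = Matrix.diagonal fun σ : V → Fin 2 =>
    (if σ x = 1 then (1 : ℝ) else 0) * (if σ y = 1 then 1 else 0) := by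
  rw [nM, nM, Matrix.diagonal_mul_diagonal]

theorem nn_symm (x y : V) : (nM x * nM y).IsSymm := by
  rw [nn_eq]
  exact Matrix.isSymm_diagonal _

theorem nn_posSemidef (x y : V) : (nM x * nM y).PosSemidef := by
  rw [nn_eq]
  refine Matrix.PosSemidef.diagonal fun σ => ?_
  simp only [Pi.zero_apply]
  split_ifs <;> norm_num

theorem WL_symm (L : List (V × V)) : (WL L).IsSymm := by
  induction L with
  | nil => simp [WL, Matrix.isSymm_zero]
  | cons e L ih =>
    simp only [WL, List.map_cons, List.sum_cons] at ih ⊢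
    exact (nn_symm _ _).add ih

theorem swapM_symm (x y : V) : (swapM x y : Matrix (V → Fin 2) (V → Fin 2) ℝ).IsSymm := by
  ext σ τ
  simp only [Matrix.transpose_apply, swapM, Matrix.of_apply]
  have : (τ = σ ∘ Equiv.swap x y) ↔ (σ = τ ∘ Equiv.swap x y) := by
    constructor
    · rintro rfl; funext z; simp
    · rintro rfl; funext z; simp
  simp only [this]

theorem hM_symm (x y : V) : (hM x y : Matrix (V → Fin 2) (V → Fin 2) ℝ).IsSymm := by
  rw [hM]
  exact (Matrix.isSymm_one.sub (swapM_symm x y)).smul _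

theorem ham_symm (L : List (V × V)) (h : V → ℝ) : (ham L h).IsSymm := by
  rw [ham]
  refine Matrix.IsSymm.sub ?_ ?_
  · induction L with
    | nil => simp [Matrix.isSymm_zero]
    | cons e L ih =>
      simp only [List.map_cons, List.sum_cons]
      exact (hM_symm _ _).add ih
  · rw [Matrix.IsSymm, Matrix.transpose_sum]
    exact Finset.sum_congr rfl fun x _ => by
      rw [Matrix.transpose_smul, (szM_symm x).eq]

/-- The Hamiltonian in terms of the second quantisation. -/
theorem ham_eq (L : List (V × V)) (hL : ∀ e ∈ L, e.1 ≠ e.2) (h : ℝ) :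
    ham L (fun _ => h) = hcM (fun u v => tL L u v + h * oneK u v) - WL L -
      (h * Fintype.card V / 2) • (1 : Matrix (V → Fin 2) (V → Fin 2) ℝ) := by
  have h1 : ∑ x : V, (h / 2) • szM x = (h * Fintype.card V / 2) •
      (1 : Matrix (V → Fin 2) (V → Fin 2) ℝ) - h • ∑ x, nM x := by
    have h2 : ∀ x : V, (h / 2) • szM x = (h / 2) • (1 : Matrix (V → Fin 2) (V → Fin 2) ℝ) -
        h • nM x := by
      intro x
      rw [nM_eq, smul_smul, smul_sub, show h * (1 / 2) = h / 2 by ring, sub_sub_cancel]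
    rw [Finset.sum_congr rfl fun x _ => h2 x, Finset.sum_sub_distrib,
      Finset.sum_const, Finset.card_univ, ← Nat.cast_smul_eq_nsmul ℝ, smul_smul, Finset.smul_sum]
    congr 2
    ring
  have h3 : hcM (fun u v : V => h * oneK u v) = h • ∑ x : V, nM x := by
    rw [hcM_smul]
    congr 1
    exact hcM_one
  rw [hcM_add (fun u v => tL L u v) (fun u v => h * oneK u v), h3]
  have h4 : hcM (fun u v => tL L u v) = (L.map fun e => hM e.1 e.2).sum + WL L := hcM_tL L hL
  rw [h4, ham, h1]
  abel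

theorem gib_add (L : List (V × V)) (β : ℝ) (h : V → ℝ)
    (A B : Matrix (V → Fin 2) (V → Fin 2) ℝ) :
    gib L β h (A + B) = gib L β h A + gib L β h B := by
  rw [gib, gib, gib, Matrix.mul_add, Matrix.trace_add, add_div]

theorem gib_smul (L : List (V × V)) (β : ℝ) (h : V → ℝ) (c : ℝ)
    (A : Matrix (V → Fin 2) (V → Fin 2) ℝ) :
    gib L β h (c • A) = c * gib L β h A := by
  rw [gib, gib, Matrix.mul_smul, Matrix.trace_smul, smul_eq_mul, mul_div_assoc]

theorem gib_sub (L : List (V × V)) (β : ℝ) (h : V → ℝ)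
    (A B : Matrix (V → Fin 2) (V → Fin 2) ℝ) :
    gib L β h (A - B) = gib L β h A - gib L β h B := by
  rw [gib, gib, gib, Matrix.mul_sub, Matrix.trace_sub, sub_div]

theorem gib_sum {ι : Type*} (s : Finset ι) (L : List (V × V)) (β : ℝ) (h : V → ℝ)
    (A : ι → Matrix (V → Fin 2) (V → Fin 2) ℝ) :
    gib L β h (∑ i ∈ s, A i) = ∑ i ∈ s, gib L β h (A i) := by
  simp only [gib]
  rw [Finset.mul_sum, Matrix.trace_sum, Finset.sum_div]

theorem gib_nonneg (L : List (V × V)) (β : ℝ) (h : V → ℝ)
    {A : Matrix (V → Fin 2) (V → Fin 2) ℝ} (hA : A.PosSemidef) : 0 ≤ gib L β h A := by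
  have hs : (-β • ham L h).IsSymm := (ham_symm L h).smul _
  exact div_nonneg (trace_exp_mul_nonneg_real hs hA) (trace_exp_pos_real hs).le

theorem gib_mono (L : List (V × V)) (β : ℝ) (h : V → ℝ)
    {A B : Matrix (V → Fin 2) (V → Fin 2) ℝ} (hAB : (B - A).PosSemidef) :
    gib L β h A ≤ gib L β h B := by
  have := gib_nonneg L β h hAB
  rw [gib_sub] at this
  linarith

theorem exp_add_smul_one {ι : Type} [Fintype ι] [DecidableEq ι] (A : Matrix ι ι ℝ) (c : ℝ) :
    NormedSpace.exp (A + c • (1 : Matrix ι ι ℝ)) = Real.exp c • NormedSpace.exp A := by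
  have hc : Commute A (c • (1 : Matrix ι ι ℝ)) := (Commute.one_right A).smul_right c
  rw [Matrix.exp_add_of_commute _ _ hc]
  have h1 : NormedSpace.exp (c • (1 : Matrix ι ι ℝ)) = Real.exp c • (1 : Matrix ι ι ℝ) := by
    have h2 : c • (1 : Matrix ι ι ℝ) = Matrix.diagonal fun _ => c := by
      ext i j
      by_cases hij : i = j
      · subst hij; simp
      · simp [hij]
    rw [h2, Matrix.exp_diagonal, Pi.exp_def, ← Real.exp_eq_exp_ℝ]
    ext i j
    by_cases hij : i = j
    · subst hij
      simp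
    · simp [hij]
  rw [h1, Matrix.mul_smul, Matrix.mul_one]

/-- **(V2)**: the variational inequality.  `lam * β * <dΓ(g)> ≤ log (trace of the free gas with
the one-particle matrix `β (t + h - lam g)`) - log Z̃ + β <W>`. -/
theorem mean_ineq (L : List (V × V)) (hL : ∀ e ∈ L, e.1 ≠ e.2) (β h lam : ℝ) (g : V → V → ℝ)
    (hg : ∀ u v, g u v = g v u) {F : ℝ}
    (hF : Matrix.trace (NormedSpace.exp (-(hcM fun u v =>
      β * (tL L u v + h * oneK u v - lam * g u v)))) ≤ Real.exp F) :
    β * lam * gib L β (fun _ => h) (hcM g) ≤ F -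
      (Real.log (Matrix.trace (NormedSpace.exp (-β • ham L fun _ => h))) -
        β * h * Fintype.card V / 2) + β * gib L β (fun _ => h) (WL L) := by
  set X : Matrix (V → Fin 2) (V → Fin 2) ℝ := -β • ham L fun _ => h with hX
  set Y : Matrix (V → Fin 2) (V → Fin 2) ℝ := (β * lam) • hcM g - β • WL L with hY
  have hgs : (hcM g).IsSymm := hcM_symm hg
  have hXs : X.IsSymm := (ham_symm L _).smul _
  have hYs : Y.IsSymm := (hgs.smul _).sub ((WL_symm L).smul _)
  have h1 := peierls_bogoliubov_real hXs hYs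
  have h2 : trace (NormedSpace.exp X * Y) / trace (NormedSpace.exp X) =
      β * lam * gib L β (fun _ => h) (hcM g) - β * gib L β (fun _ => h) (WL L) := by
    have : trace (NormedSpace.exp X * Y) / trace (NormedSpace.exp X) =
        gib L β (fun _ => h) Y := rfl
    rw [this, hY, gib_sub, gib_smul, gib_smul]
  have h3 : X + Y = -(hcM fun u v => β * (tL L u v + h * oneK u v - lam * g u v)) +
      (β * h * Fintype.card V / 2) • (1 : Matrix (V → Fin 2) (V → Fin 2) ℝ) := by
    rw [hcM_smul, hcM_sub (fun u v => tL L u v + h * oneK u v) (fun u v => lam * g u v),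
      hcM_smul]
    have h4 := ham_eq L hL h
    rw [hX, hY, h4]
    simp only [smul_sub, smul_smul, neg_smul]
    have h5 : -β * (h * Fintype.card V / 2) = -(β * h * Fintype.card V / 2) := by ring
    rw [h5, neg_smul]
    abel
  rw [h2, h3, exp_add_smul_one, Matrix.trace_smul, smul_eq_mul] at h1
  have hAs : (-(hcM fun u v => β * (tL L u v + h * oneK u v - lam * g u v))).IsSymm := by
    refine Matrix.IsSymm.neg (hcM_symm fun u v => ?_)
    have e1 : tL L u v = tL L v u := by
      simp only [tL, pairK_symm _ _ u v]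
    have e2 : (oneK u v : ℝ) = oneK v u := by
      simp only [oneK, eq_comm]
    rw [e1, e2, hg u v]
  have hpos := trace_exp_pos_real hAs
  rw [Real.log_mul (Real.exp_pos _).ne' hpos.ne', Real.log_exp] at h1
  have h6 : Real.log (trace (NormedSpace.exp (-(hcM fun u v =>
      β * (tL L u v + h * oneK u v - lam * g u v))))) ≤ F := by
    calc _ ≤ Real.log (Real.exp F) := Real.log_le_log hpos hF
      _ = F := Real.log_exp F
  linarith

end

end Vale.Agent.P361.LRO.S3.Mean
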