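import Vale.Agent.P361.LRO.Defs

/-!
P361 stage 3: one-particle part on the torus (Hartley basis, the form of the block average).
-/

namespace Vale.Agent.P361.LRO.S3.OB

open Finset

noncomputable section

variable {n : ℕ} [NeZero n]

/-- The character `e^{2πi k·x/n}`. -/
def chi (k x : Tor n) : ℂ := ZMod.stdAddChar (∑ j, k j * x j)

lemma chi_add (k x y : Tor n) : chi k (x + y) = chi k x * chi k y := by
  unfold chi
  rw [← AddChar.map_add_eq_mul]
  congr 1
  rw [← Finset.sum_add_distrib]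
  exact Finset.sum_congr rfl fun j _ => by rw [Pi.add_apply]; ring

lemma chi_comm (k x : Tor n) : chi k x = chi x k := by
  unfold chi
  congr 1
  exact Finset.sum_congr rfl fun j _ => by ring

lemma chi_add_left (k l x : Tor n) : chi (k + l) x = chi k x * chi l x := by
  rw [chi_comm, chi_add, chi_comm x, chi_comm x]

lemma norm_chi (k x : Tor n) : ‖chi k x‖ = 1 := by
  unfold chi
  rw [ZMod.stdAddChar_apply]
  exact Circle.norm_coe _

lemma chi_neg (k x : Tor n) : chi k (-x) = (starRingEnd ℂ) (chi k x) := by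
  unfold chi
  have : (∑ j, k j * (-x) j) = -(∑ j, k j * x j) := by
    rw [← Finset.sum_neg_distrib]
    exact Finset.sum_congr rfl fun j _ => by rw [Pi.neg_apply]; ring
  rw [this, ZMod.stdAddChar_apply, ZMod.stdAddChar_apply, AddChar.map_neg_eq_inv,
    Circle.coe_inv_eq_conj]

lemma chi_neg_left (k x : Tor n) : chi (-k) x = (starRingEnd ℂ) (chi k x) := by
  rw [chi_comm, chi_neg, chi_comm]

lemma chi_zero_left (x : Tor n) : chi (0 : Tor n) x = 1 := by
  unfold chi
  simp

lemma chi_zero (k : Tor n) : chi k (0 : Tor n) = 1 := by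
  rw [chi_comm, chi_zero_left]

lemma chi_sum (m : Tor n) : ∑ x, chi m x = if m = 0 then (n : ℂ) ^ 3 else 0 := by
  have h1 : ∀ x : Tor n, chi m x = ∏ j, (ZMod.stdAddChar (x j * m j) : ℂ) := by
    intro x
    unfold chi
    rw [Fin.sum_univ_three, Fin.prod_univ_three, AddChar.map_add_eq_mul, AddChar.map_add_eq_mul,
      mul_comm (m 0), mul_comm (m 1), mul_comm (m 2)]
  simp only [h1]
  have h2 : ∑ x : Tor n, ∏ j, (ZMod.stdAddChar (x j * m j) : ℂ) =
      ∏ j : Fin 3, ∑ a : ZMod n, (ZMod.stdAddChar (a * m j) : ℂ) := by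
    rw [Finset.prod_univ_sum]
    rw [Fintype.piFinset_univ]
  rw [h2]
  have h3 : ∀ b : ZMod n, ∑ a : ZMod n, (ZMod.stdAddChar (a * b) : ℂ) =
      if b = 0 then (n : ℂ) else 0 := by
    intro b
    rw [AddChar.sum_mulShift b (ZMod.isPrimitive_stdAddChar n)]
    simp [ZMod.card]
  simp only [h3]
  by_cases hm : m = 0
  · subst hm
    simp
  · rw [if_neg hm]
    obtain ⟨j, hj⟩ := Function.ne_iff.1 hm
    exact Finset.prod_eq_zero (Finset.mem_univ j) (if_neg hj)

/-- Hartley basis. -/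
def hb (k x : Tor n) : ℝ := ((chi k x).re + (chi k x).im) / Real.sqrt ((n : ℝ) ^ 3)

lemma hb_symm (k x : Tor n) : hb k x = hb x k := by
  unfold hb
  rw [chi_comm]

lemma hb_orth (k l : Tor n) : ∑ x, hb k x * hb l x = if k = l then 1 else 0 := by
  have hn : (0 : ℝ) < (n : ℝ) ^ 3 := by
    have : (0 : ℝ) < n := by exact_mod_cast Nat.pos_of_ne_zero (NeZero.ne n)
    positivity
  have h1 : ∀ x, hb k x * hb l x =
      ((chi (k - l) x).re + (chi (k + l) x).im) / (n : ℝ) ^ 3 := by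
    intro x
    unfold hb
    rw [div_mul_div_comm, Real.mul_self_sqrt hn.le, sub_eq_add_neg, chi_add_left, chi_add_left,
      chi_neg_left]
    congr 1
    simp only [Complex.mul_re, Complex.mul_im, Complex.conj_re, Complex.conj_im]
    ring
  simp only [h1]
  rw [← Finset.sum_div, Finset.sum_add_distrib]
  have e1 : ∑ x, (chi (k - l) x).re = (∑ x, chi (k - l) x).re := by rw [Complex.re_sum]
  have e2 : ∑ x, (chi (k + l) x).im = (∑ x, chi (k + l) x).im := by rw [Complex.im_sum]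
  rw [e1, e2, chi_sum, chi_sum]
  have e3 : ((n : ℂ) ^ 3) = (((n : ℝ) ^ 3 : ℝ) : ℂ) := by push_cast; ring
  by_cases hkl : k = l
  · subst hkl
    rw [if_pos rfl, sub_self, if_pos rfl, e3]
    split_ifs
    · rw [Complex.ofReal_re, Complex.ofReal_im, add_zero, div_self hn.ne']
    · simp only [Complex.ofReal_re, Complex.zero_im, add_zero]
      rw [div_self hn.ne']
  · rw [if_neg hkl, if_neg (sub_ne_zero.2 hkl), e3]
    split_ifs
    · rw [Complex.zero_re, Complex.ofReal_im, add_zero, zero_div]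
    · rw [Complex.zero_re, Complex.zero_im, add_zero, zero_div]

lemma hb_compl (x y : Tor n) : ∑ k, hb k x * hb k y = if x = y then 1 else 0 := by
  simp only [hb_symm _ x, hb_symm _ y]
  exact hb_orth x y

/-- Convolution with an even kernel. -/
lemma conv_hb (c : Tor n → ℝ) (hc : ∀ d, c (-d) = c d) (k x : Tor n) :
    ∑ y, c (x - y) * hb k y = (∑ d, c d * (chi k d).re) * hb k x := by
  have h1 : ∑ y, c (x - y) * hb k y = ∑ d, c d * hb k (x - d) := by
    refine Fintype.sum_equiv (Equiv.subLeft x) _ _ fun y => ?_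
    simp [Equiv.subLeft]
  rw [h1]
  have h2 : ∀ d, c d * hb k (x - d) = c d * (chi k d).re * hb k x +
      c d * (chi k d).im * (((chi k x).im - (chi k x).re) / Real.sqrt ((n : ℝ) ^ 3)) := by
    intro d
    unfold hb
    rw [sub_eq_add_neg, chi_add, chi_neg]
    simp only [Complex.mul_re, Complex.mul_im, Complex.conj_re, Complex.conj_im]
    ring
  simp only [h2]
  rw [Finset.sum_add_distrib, ← Finset.sum_mul, ← Finset.sum_mul]
  have h3 : ∑ d, c d * (chi k d).im = 0 := by
    have : ∑ d, c d * (chi k d).im = ∑ d, -(c d * (chi k d).im) := by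
      refine Fintype.sum_equiv (Equiv.neg (Tor n)) _ _ fun d => ?_
      simp only [Equiv.neg_apply]
      rw [hc, chi_neg, Complex.conj_im]
      ring
    rw [Finset.sum_neg_distrib] at this
    linarith
  rw [h3]
  ring

lemma hb_avg (k u d : Tor n) : hb k (u + d) + hb k (u - d) = 2 * (chi k d).re * hb k u := by
  unfold hb
  rw [sub_eq_add_neg, chi_add, chi_add, chi_neg]
  simp only [Complex.mul_re, Complex.mul_im, Complex.conj_re, Complex.conj_im]
  ring

/-- `|δ_x - δ_y⟩⟨δ_x - δ_y|`. -/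
def dd {V : Type} [DecidableEq V] (x y u v : V) : ℝ :=
  ((if u = x then 1 else 0) - (if u = y then 1 else 0)) *
    ((if v = x then 1 else 0) - (if v = y then 1 else 0))

lemma dd_apply {V : Type} [Fintype V] [DecidableEq V] (x y u : V) (f : V → ℝ) :
    ∑ v, dd x y u v * f v = ((if u = x then 1 else 0) - (if u = y then 1 else 0)) * (f x - f y) := by
  unfold dd
  have : ∀ v, ((if u = x then (1 : ℝ) else 0) - (if u = y then 1 else 0)) *
    ((if v = x then 1 else 0) - (if v = y then 1 else 0)) * f v =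
    ((if u = x then (1 : ℝ) else 0) - (if u = y then 1 else 0)) *
      ((if v = x then f v else 0) - (if v = y then f v else 0)) := by
    intro v
    split_ifs <;> ring
  simp only [this]
  rw [← Finset.mul_sum, Finset.sum_sub_distrib]
  simp

lemma dd_shift (k u a b : Tor n) :
    ∑ z, ∑ v, dd (z + a) (z + b) u v * hb k v = 2 * (1 - (chi k (a - b)).re) * hb k u := by
  simp only [dd_apply]
  have h1 : ∀ z, ((if u = z + a then (1 : ℝ) else 0) - (if u = z + b then 1 else 0)) *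
      (hb k (z + a) - hb k (z + b)) =
      (if z = u - a then hb k (z + a) - hb k (z + b) else 0) -
        (if z = u - b then hb k (z + a) - hb k (z + b) else 0) := by
    intro z
    have e1 : (u = z + a) ↔ (z = u - a) := ⟨fun h => by rw [h]; abel, fun h => by rw [h]; abel⟩
    have e2 : (u = z + b) ↔ (z = u - b) := ⟨fun h => by rw [h]; abel, fun h => by rw [h]; abel⟩
    simp only [e1, e2]
    split_ifs <;> ring
  simp only [h1]
  rw [Finset.sum_sub_distrib, Finset.sum_ite_eq' Finset.univ, Finset.sum_ite_eq' Finset.univ,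
    if_pos (Finset.mem_univ _), if_pos (Finset.mem_univ _)]
  have h2 := hb_avg k u (a - b)
  have e1 : u - a + a = u := by abel
  have e2 : u - a + b = u - (a - b) := by abel
  have e3 : u - b + a = u + (a - b) := by abel
  have e4 : u - b + b = u := by abel
  rw [e1, e2, e3, e4]
  linarith

/-- The one-particle kinetic matrix. -/
def tmat (n : ℕ) [NeZero n] (u v : Tor n) : ℝ :=
  ((edges n).map fun e => dd e.1 e.2 u v).sum / 2

/-- Its eigenvalues `∑_j (1 - cos (2π k_j / n))`. -/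
def tq (k : Tor n) : ℝ := ∑ j : Fin 3, (1 - (chi k (Pi.single j 1)).re)

lemma tmat_eq (u v : Tor n) :
    tmat n u v = (∑ j : Fin 3, ∑ z : Tor n, dd z (z + Pi.single j 1) u v) / 2 := by
  unfold tmat edges
  rw [List.map_map]
  congr 1
  have h1 := Finset.sum_map_toList (Finset.univ : Finset (Tor n × Fin 3))
    (fun z => dd z.1 (z.1 + Pi.single z.2 1) u v)
  have h2 : ((fun e : Tor n × Tor n => dd e.1 e.2 u v) ∘
      fun z : Tor n × Fin 3 => (z.1, z.1 + Pi.single z.2 1)) =
      fun z => dd z.1 (z.1 + Pi.single z.2 1) u v := rfl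
  rw [h2, h1, Fintype.sum_prod_type, Finset.sum_comm]

lemma tmat_hb (k u : Tor n) : ∑ v, tmat n u v * hb k v = tq k * hb k u := by
  simp only [tmat_eq]
  have h1 : ∀ v, (∑ j : Fin 3, ∑ z : Tor n, dd z (z + Pi.single j 1) u v) / 2 * hb k v =
      ∑ j : Fin 3, ∑ z : Tor n, (dd z (z + Pi.single j 1) u v * hb k v) / 2 := by
    intro v
    rw [div_mul_eq_mul_div, Finset.sum_mul, Finset.sum_div]
    refine Finset.sum_congr rfl fun j _ => ?_
    rw [Finset.sum_mul, Finset.sum_div]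
  simp only [h1]
  rw [Finset.sum_comm, tq, Finset.sum_mul]
  refine Finset.sum_congr rfl fun j _ => ?_
  rw [Finset.sum_comm]
  have h2 := dd_shift k u 0 (Pi.single j 1)
  simp only [add_zero] at h2
  have h3 : (chi k (0 - Pi.single j 1)).re = (chi k (Pi.single j 1)).re := by
    rw [zero_sub, chi_neg, Complex.conj_re]
  rw [h3] at h2
  have h4 : ∑ z, ∑ v, dd z (z + Pi.single j 1) u v * hb k v / 2 =
      (∑ z, ∑ v, dd z (z + Pi.single j 1) u v * hb k v) / 2 := by
    rw [Finset.sum_div]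
    exact Finset.sum_congr rfl fun z _ => by rw [Finset.sum_div]
  rw [h4, h2]
  ring

/-- The offset of a site of the cube. -/
def io (n : ℕ) {w : ℕ} (a : Fin 3 → Fin w) : Tor n := fun i => ((a i : ℕ) : ZMod n)

/-- The one-particle matrix of the block reward, averaged over all translates of the cube. -/
def gmat (n : ℕ) [NeZero n] (w : ℕ) (u v : Tor n) : ℝ :=
  (∑ z : Tor n, ∑ a : Fin 3 → Fin w, ∑ b : Fin 3 → Fin w, dd (z + io n a) (z + io n b) u v) /
    (2 * (w : ℝ) ^ 6)

/-- Its eigenvalues. -/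
def gq (w : ℕ) (k : Tor n) : ℝ :=
  (∑ a : Fin 3 → Fin w, ∑ b : Fin 3 → Fin w, (1 - (chi k (io n a - io n b)).re)) / (w : ℝ) ^ 6

lemma gmat_hb (w : ℕ) (k u : Tor n) : ∑ v, gmat n w u v * hb k v = gq w k * hb k u := by
  unfold gmat gq
  have h1 : ∀ v, (∑ z : Tor n, ∑ a : Fin 3 → Fin w, ∑ b : Fin 3 → Fin w,
      dd (z + io n a) (z + io n b) u v) / (2 * (w : ℝ) ^ 6) * hb k v =
      (∑ a : Fin 3 → Fin w, ∑ b : Fin 3 → Fin w, ∑ z : Tor n,
        dd (z + io n a) (z + io n b) u v * hb k v) / (2 * (w : ℝ) ^ 6) := by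
    intro v
    rw [div_mul_eq_mul_div, Finset.sum_mul]
    congr 1
    rw [Finset.sum_congr rfl fun z _ => Finset.sum_mul _ _ _, Finset.sum_comm]
    refine Finset.sum_congr rfl fun a _ => ?_
    rw [Finset.sum_congr rfl fun z _ => Finset.sum_mul _ _ _, Finset.sum_comm]
  simp only [h1]
  rw [← Finset.sum_div, Finset.sum_comm]
  have h2 : ∀ a : Fin 3 → Fin w, ∑ v : Tor n, ∑ b : Fin 3 → Fin w, ∑ z : Tor n,
      dd (z + io n a) (z + io n b) u v * hb k v =
      ∑ b : Fin 3 → Fin w, 2 * (1 - (chi k (io n a - io n b)).re) * hb k u := by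
    intro a
    rw [Finset.sum_comm]
    refine Finset.sum_congr rfl fun b _ => ?_
    rw [Finset.sum_comm]
    exact dd_shift k u _ _
  simp only [h2]
  rw [div_mul_eq_mul_div]
  rw [mul_comm 2 ((w : ℝ) ^ 6), ← div_div, div_right_comm]
  congr 1
  rw [Finset.sum_div, Finset.sum_mul]
  refine Finset.sum_congr rfl fun a _ => ?_
  rw [Finset.sum_div, Finset.sum_mul]
  refine Finset.sum_congr rfl fun b _ => ?_
  ring

lemma re_chi_le (k x : Tor n) : (chi k x).re ≤ 1 := by
  rw [← norm_chi k x]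
  exact Complex.re_le_norm _

lemma tq_nonneg (k : Tor n) : 0 ≤ tq k :=
  Finset.sum_nonneg fun j _ => sub_nonneg.2 (re_chi_le _ _)

lemma gq_nonneg (w : ℕ) (k : Tor n) : 0 ≤ gq w k :=
  div_nonneg (Finset.sum_nonneg fun a _ => Finset.sum_nonneg fun b _ =>
    sub_nonneg.2 (re_chi_le _ _)) (by positivity)

lemma gq_le_one (w : ℕ) (k : Tor n) : gq w k ≤ 1 := by
  unfold gq
  rcases Nat.eq_zero_or_pos w with hw | hw
  · subst hw; simp
  have hw' : (0 : ℝ) < (w : ℝ) ^ 6 := by positivity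
  rw [div_le_one hw']
  have h1 : ∑ a : Fin 3 → Fin w, ∑ b : Fin 3 → Fin w, (chi k (io n a - io n b)).re =
      ‖∑ a : Fin 3 → Fin w, chi k (io n a)‖ ^ 2 := by
    have h2 : ((‖∑ a : Fin 3 → Fin w, chi k (io n a)‖ ^ 2 : ℝ) : ℂ) =
        (∑ a : Fin 3 → Fin w, chi k (io n a)) *
          (starRingEnd ℂ) (∑ a : Fin 3 → Fin w, chi k (io n a)) := by
      rw [Complex.mul_conj, Complex.normSq_eq_norm_sq]
    have h3 : ((‖∑ a : Fin 3 → Fin w, chi k (io n a)‖ ^ 2 : ℝ) : ℂ).re =
        (∑ a : Fin 3 → Fin w, ∑ b : Fin 3 → Fin w, chi k (io n a - io n b)).re := by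
      rw [h2, map_sum, Finset.sum_mul_sum]
      congr 1
      refine Finset.sum_congr rfl fun a _ => Finset.sum_congr rfl fun b _ => ?_
      rw [sub_eq_add_neg, chi_add, chi_neg]
    rw [Complex.ofReal_re] at h3
    rw [h3, Complex.re_sum]
    exact Finset.sum_congr rfl fun a _ => (Complex.re_sum _ _).symm
  have h4 : ∑ a : Fin 3 → Fin w, ∑ b : Fin 3 → Fin w, (1 - (chi k (io n a - io n b)).re) =
      (w : ℝ) ^ 6 - ‖∑ a : Fin 3 → Fin w, chi k (io n a)‖ ^ 2 := by
    rw [← h1]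
    simp only [Finset.sum_sub_distrib]
    congr 1
    simp
    ring
  rw [h4]
  have := sq_nonneg ‖∑ a : Fin 3 → Fin w, chi k (io n a)‖
  linarith

lemma norm_one_sub_mul {x y : ℂ} (hx : ‖x‖ = 1) : ‖1 - x * y‖ ≤ ‖1 - x‖ + ‖1 - y‖ := by
  have h1 : 1 - x * y = (1 - x) + x * (1 - y) := by ring
  rw [h1]
  refine (norm_add_le _ _).trans ?_
  rw [norm_mul, hx, one_mul]

lemma norm_one_sub_pow {x : ℂ} (hx : ‖x‖ = 1) (m : ℕ) : ‖1 - x ^ m‖ ≤ m * ‖1 - x‖ := by
  induction m with
  | zero => simp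
  | succ m ih =>
    rw [pow_succ']
    refine (norm_one_sub_mul hx).trans ?_
    push_cast
    linarith

lemma chi_io (k : Tor n) {w : ℕ} (a : Fin 3 → Fin w) :
    chi k (io n a) = ∏ j : Fin 3, chi k (Pi.single j 1) ^ (a j : ℕ) := by
  have h1 : ∀ (j : Fin 3) (m : ℕ), chi k (Pi.single j 1) ^ m = ZMod.stdAddChar (k j * (m : ZMod n)) := by
    intro j m
    unfold chi
    rw [← AddChar.map_nsmul_eq_pow]
    congr 1
    rw [Finset.sum_eq_single j]
    · simp [mul_comm]
    · intro i _ hi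
      rw [Pi.single_eq_of_ne hi, mul_zero]
    · intro h
      exact absurd (Finset.mem_univ _) h
  simp only [h1]
  unfold chi io
  rw [Fin.sum_univ_three, Fin.prod_univ_three, AddChar.map_add_eq_mul, AddChar.map_add_eq_mul]

lemma norm_one_sub_sq (k x : Tor n) : ‖1 - chi k x‖ ^ 2 = 2 * (1 - (chi k x).re) := by
  have h1 := norm_chi k x
  have h2 : (chi k x).re ^ 2 + (chi k x).im ^ 2 = 1 := by
    have := Complex.normSq_eq_norm_sq (chi k x)
    rw [h1, Complex.normSq_apply] at this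
    nlinarith
  rw [← Complex.normSq_eq_norm_sq, Complex.normSq_apply]
  simp only [Complex.sub_re, Complex.sub_im, Complex.one_re, Complex.one_im]
  nlinarith

lemma norm_one_sub_io (k : Tor n) {w : ℕ} (a : Fin 3 → Fin w) :
    ‖1 - chi k (io n a)‖ ≤ w * ∑ j : Fin 3, ‖1 - chi k (Pi.single j 1)‖ := by
  have hp : ∀ (j : Fin 3) (m : ℕ), ‖chi k (Pi.single j 1) ^ m‖ = 1 := by
    intro j m
    rw [norm_pow, norm_chi, one_pow]
  have hq : ∀ (j : Fin 3), ‖1 - chi k (Pi.single j 1) ^ (a j : ℕ)‖ ≤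
      w * ‖1 - chi k (Pi.single j 1)‖ := by
    intro j
    refine (norm_one_sub_pow (norm_chi _ _) _).trans ?_
    refine mul_le_mul_of_nonneg_right ?_ (norm_nonneg _)
    exact_mod_cast (a j).2.le
  rw [chi_io, Fin.prod_univ_three, Fin.sum_univ_three, mul_assoc]
  have h1 := norm_one_sub_mul (x := chi k (Pi.single 0 1) ^ (a 0 : ℕ))
    (y := chi k (Pi.single 1 1) ^ (a 1 : ℕ) * chi k (Pi.single 2 1) ^ (a 2 : ℕ)) (hp 0 _)
  have h2 := norm_one_sub_mul (x := chi k (Pi.single 1 1) ^ (a 1 : ℕ))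
    (y := chi k (Pi.single 2 1) ^ (a 2 : ℕ)) (hp 1 _)
  have h3 := hq 0
  have h4 := hq 1
  have h5 := hq 2
  linarith

lemma gq_le (w : ℕ) (k : Tor n) : gq w k ≤ 12 * (w : ℝ) ^ 2 * tq k := by
  rcases Nat.eq_zero_or_pos w with hw | hw
  · subst hw; simp [gq]
  have hw' : (0 : ℝ) < (w : ℝ) ^ 6 := by positivity
  have key : ∀ a b : Fin 3 → Fin w, 1 - (chi k (io n a - io n b)).re ≤
      12 * (w : ℝ) ^ 2 * tq k := by
    intro a b
    set s : ℝ := ∑ j : Fin 3, ‖1 - chi k (Pi.single j 1)‖ with hs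
    have h1 := norm_one_sub_io k a
    have h2 := norm_one_sub_io k b
    rw [← hs] at h1 h2
    have h3 : ‖1 - chi k (io n a - io n b)‖ ≤ 2 * w * s := by
      rw [sub_eq_add_neg (io n a), chi_add]
      refine (norm_one_sub_mul (norm_chi _ _)).trans ?_
      have h4 : ‖1 - chi k (-io n b)‖ = ‖1 - chi k (io n b)‖ := by
        rw [chi_neg]
        have : 1 - (starRingEnd ℂ) (chi k (io n b)) = (starRingEnd ℂ) (1 - chi k (io n b)) := by
          rw [map_sub, map_one]
        rw [this, Complex.norm_conj]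
      rw [h4]
      linarith
    have h5 := norm_one_sub_sq k (io n a - io n b)
    have h6 : ‖1 - chi k (io n a - io n b)‖ ^ 2 ≤ (2 * w * s) ^ 2 :=
      pow_le_pow_left₀ (norm_nonneg _) h3 2
    have h7 : s ^ 2 ≤ 3 * ∑ j : Fin 3, ‖1 - chi k (Pi.single j 1)‖ ^ 2 := by
      rw [hs, Fin.sum_univ_three, Fin.sum_univ_three]
      nlinarith [sq_nonneg (‖1 - chi k (Pi.single 0 1)‖ - ‖1 - chi k (Pi.single 1 1)‖),
        sq_nonneg (‖1 - chi k (Pi.single 1 1)‖ - ‖1 - chi k (Pi.single 2 1)‖),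
        sq_nonneg (‖1 - chi k (Pi.single 0 1)‖ - ‖1 - chi k (Pi.single 2 1)‖)]
    have h8 : ∑ j : Fin 3, ‖1 - chi k (Pi.single j 1)‖ ^ 2 = 2 * tq k := by
      rw [tq, Finset.mul_sum]
      exact Finset.sum_congr rfl fun j _ => norm_one_sub_sq _ _
    rw [h8] at h7
    have h9 : (2 * (w : ℝ) * s) ^ 2 = 4 * (w : ℝ) ^ 2 * s ^ 2 := by ring
    rw [h9] at h6
    have hw2 : (0 : ℝ) ≤ (w : ℝ) ^ 2 := by positivity
    nlinarith [mul_le_mul_of_nonneg_left h7 hw2]
  unfold gq
  rw [div_le_iff₀ hw']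
  calc _ ≤ ∑ _a : Fin 3 → Fin w, ∑ _b : Fin 3 → Fin w, 12 * (w : ℝ) ^ 2 * tq k :=
        Finset.sum_le_sum fun a _ => Finset.sum_le_sum fun b _ => key a b
    _ = _ := by
        simp
        ring


lemma tq_eq (k : Tor n) :
    tq k = ∑ j : Fin 3, (1 - Real.cos (2 * Real.pi * ((k j).val : ℝ) / n)) := by
  unfold tq
  refine Finset.sum_congr rfl fun j _ => ?_
  congr 1
  have h1 : chi k (Pi.single j 1) = ZMod.stdAddChar (((k j).val : ℤ) : ZMod n) := by
    unfold chi
    congr 1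
    rw [Finset.sum_eq_single j]
    · rw [Pi.single_eq_same, mul_one]
      push_cast
      exact (ZMod.natCast_zmod_val (k j)).symm
    · intro i _ hi
      rw [Pi.single_eq_of_ne hi, mul_zero]
    · intro h
      exact absurd (Finset.mem_univ _) h
  rw [h1, ZMod.stdAddChar_coe]
  have h2 : (2 * (Real.pi : ℂ) * Complex.I * (((k j).val : ℤ) : ℂ) / n) =
      ((2 * Real.pi * ((k j).val : ℝ) / n : ℝ) : ℂ) * Complex.I := by
    push_cast
    ring
  rw [h2, Complex.exp_ofReal_mul_I_re]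

/-- Convexity of `-log (1 - e^{-x})`. -/
lemma neg_log_shift {x d : ℝ} (hd : 0 ≤ d) (hx : d < x) :
    -Real.log (1 - Real.exp (-(x - d))) ≤
      -Real.log (1 - Real.exp (-x)) + d * (1 / (Real.exp (x - d) - 1)) := by
  have h1 : 0 < x - d := by linarith
  have hx0 : 0 < x := by linarith
  have e1 : 0 < 1 - Real.exp (-(x - d)) := by
    have : Real.exp (-(x - d)) < 1 := by rw [Real.exp_lt_one_iff]; linarith
    linarith
  have e2 : 0 < 1 - Real.exp (-x) := by
    have : Real.exp (-x) < 1 := by rw [Real.exp_lt_one_iff]; linarith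
    linarith
  have e3 : 0 < Real.exp (x - d) - 1 := by
    have : 1 < Real.exp (x - d) := by rw [Real.one_lt_exp_iff]; exact h1
    linarith
  have h2 : Real.log (1 - Real.exp (-x)) - Real.log (1 - Real.exp (-(x - d))) ≤
      (1 - Real.exp (-x)) / (1 - Real.exp (-(x - d))) - 1 := by
    rw [← Real.log_div e2.ne' e1.ne']
    exact Real.log_le_sub_one_of_pos (div_pos e2 e1)
  have h3 : (1 - Real.exp (-x)) / (1 - Real.exp (-(x - d))) - 1 ≤
      d * (1 / (Real.exp (x - d) - 1)) := by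
    rw [div_sub_one e1.ne']
    have h4 : 1 - Real.exp (-x) - (1 - Real.exp (-(x - d))) =
        Real.exp (-(x - d)) * (1 - Real.exp (-d)) := by
      have : Real.exp (-x) = Real.exp (-(x - d)) * Real.exp (-d) := by
        rw [← Real.exp_add]; congr 1; ring
      rw [this]; ring
    have h5 : 1 - Real.exp (-d) ≤ d := by
      have := Real.add_one_le_exp (-d)
      linarith
    have h6 : 1 - Real.exp (-(x - d)) = Real.exp (-(x - d)) * (Real.exp (x - d) - 1) := by
      have : Real.exp (-(x - d)) * Real.exp (x - d) = 1 := by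
        rw [← Real.exp_add]; simp
      rw [mul_sub, this, mul_one]
    rw [h4, h6, mul_div_mul_left _ _ (Real.exp_pos _).ne', mul_one_div]
    exact div_le_div_of_nonneg_right h5 e3.le
  linarith

lemma bose_anti {x y : ℝ} (hx : 0 < x) (hxy : x ≤ y) :
    1 / (Real.exp y - 1) ≤ 1 / (Real.exp x - 1) := by
  have e3 : 0 < Real.exp x - 1 := by
    have : 1 < Real.exp x := by rw [Real.one_lt_exp_iff]; exact hx
    linarith
  refine one_div_le_one_div_of_le e3 ?_
  have := Real.exp_le_exp.2 hxy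
  linarith

/-- The eigenvalues stay positive. -/
lemma eig_pos {w : ℕ} {β h lam μ : ℝ} (hβ : 0 < β) (hh : 0 < h) (hlam : 0 ≤ lam)
    (hμ : 12 * lam * (w : ℝ) ^ 2 ≤ μ) (hμ1 : μ ≤ 1) (k : Tor n) :
    β * ((1 - μ) * tq k + h) ≤ β * (tq k + h - lam * gq w k) ∧
      0 < β * ((1 - μ) * tq k + h) := by
  have h1 := tq_nonneg k
  have h2 := mul_le_mul_of_nonneg_left (gq_le w k) hlam
  constructor
  · refine mul_le_mul_of_nonneg_left ?_ hβ.le
    have h3 : lam * (12 * (w : ℝ) ^ 2 * tq k) ≤ μ * tq k := by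
      have := mul_le_mul_of_nonneg_right hμ h1
      linarith
    linarith
  · have : 0 ≤ (1 - μ) * tq k := mul_nonneg (by linarith) h1
    positivity

/-- (S1): the free gas with the block reward. -/
theorem sum_log_le {w : ℕ} {β h lam μ : ℝ} (hβ : 0 < β) (hh : 0 < h) (hlam : 0 ≤ lam)
    (hμ : 12 * lam * (w : ℝ) ^ 2 ≤ μ) (hμ1 : μ ≤ 1) :
    ∑ k : Tor n, -Real.log (1 - Real.exp (-(β * (tq k + h - lam * gq w k)))) ≤
      ∑ k : Tor n, -Real.log (1 - Real.exp (-(β * (tq k + h)))) +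
        β * lam * ∑ k : Tor n, 1 / (Real.exp (β * ((1 - μ) * tq k + h)) - 1) := by
  rw [Finset.mul_sum, ← Finset.sum_add_distrib]
  refine Finset.sum_le_sum fun k _ => ?_
  obtain ⟨h1, h2⟩ := eig_pos (w := w) hβ hh hlam hμ hμ1 k
  have hg0 := gq_nonneg w k
  have hg1 := gq_le_one w k
  have hd : 0 ≤ β * (lam * gq w k) := mul_nonneg hβ.le (mul_nonneg hlam hg0)
  have e1 : β * (tq k + h - lam * gq w k) = β * (tq k + h) - β * (lam * gq w k) := by ring
  have h3 := neg_log_shift (x := β * (tq k + h)) hd (by linarith)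
  rw [← e1] at h3
  refine h3.trans (add_le_add le_rfl ?_)
  have h4 := bose_anti h2 h1
  have h5 : β * (lam * gq w k) ≤ β * lam := by
    rw [← mul_assoc]
    exact mul_le_of_le_one_right (mul_nonneg hβ.le hlam) hg1
  have h6 : 0 ≤ 1 / (Real.exp (β * ((1 - μ) * tq k + h)) - 1) := by
    have : 1 < Real.exp (β * ((1 - μ) * tq k + h)) := by
      rw [Real.one_lt_exp_iff]; exact h2
    exact one_div_nonneg.2 (by linarith)
  exact (mul_le_mul_of_nonneg_left h4 hd).trans (mul_le_mul_of_nonneg_right h5 h6)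

end

end Vale.Agent.P361.LRO.S3.OB
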