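import Vale.Agent.P361.LRO.S3.PairDisc
import Vale.Agent.P361.LRO.Tw.Final

/-!
P361, stage 3, pair inequality: `<n_x n_y> (1 - ρ_x - ρ_y) ≤ (ρ_x + ρ_y)²`.
-/

namespace Vale.Agent.P361.LRO.PairS

open Finset Matrix Filter Topology

noncomputable section

variable {V : Type} [Fintype V] [DecidableEq V]

theorem tendsto_ZTw {W : ℕ → Matrix (V → Fin 2) (V → Fin 2) ℝ}
    {W0 : Matrix (V → Fin 2) (V → Fin 2) ℝ} (hW : Tendsto W atTop (𝓝 W0)) (b : Finset V)
    (θ φ : ℝ) : Tendsto (fun N => ZTw (W N) b θ φ) atTop (𝓝 (ZTw W0 b θ φ)) := by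
  simp only [ZTw_eq]
  refine tendsto_finsetSum _ fun σ _ => tendsto_finsetSum _ fun τ _ => ?_
  refine Tendsto.mul_const _ ?_
  have h1 := tendsto_pi_nhds.1 hW σ
  exact tendsto_pi_nhds.1 h1 τ

/-- The discriminant inequality for the Gibbs operator, `θ < 1`. -/
theorem disc_gibbs_lt (L : List (V × V)) {β : ℝ} (hβ : 0 < β) {h : V → ℝ} (hh : ∀ x, 0 ≤ h x)
    {b : Finset V} (hb : b.card ≤ 2) (hb0 : 0 < b.card) {θ : ℝ} (hθ : 0 ≤ θ) (hθ1 : θ < 1) :
    8 * (ZTw (NormedSpace.exp (-β • ham L h)) b θ (Real.pi / 2) *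
        (ZTw (NormedSpace.exp (-β • ham L h)) b θ 0 +
          ZTw (NormedSpace.exp (-β • ham L h)) b θ Real.pi -
          2 * ZTw (NormedSpace.exp (-β • ham L h)) b θ (Real.pi / 2))) ≤
      (ZTw (NormedSpace.exp (-β • ham L h)) b θ 0 -
        ZTw (NormedSpace.exp (-β • ham L h)) b θ Real.pi) ^ 2 := by
  have hcb : (0 : ℝ) < b.card := by exact_mod_cast hb0
  set K : ℝ := 2 * b.card * Real.artanh θ with hK
  have hKt : Real.tanh (K / (2 * b.card)) = θ := by
    rw [hK, mul_div_cancel_left₀ _ (by positivity)]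
    exact Real.tanh_artanh ⟨by linarith, hθ1⟩
  have hgood : ∀ᶠ N : ℕ in atTop, IsLaw (phys L β N) ∧
      ∀ z, 0 ≤ th β N h (blk K b) z ∧ th β N h (blk K b) z ≤ 1 := by
    have h1 : ∀ᶠ N : ℕ in atTop, β ≤ N := eventually_atTop.2 (by
      obtain ⟨n, hn⟩ := exists_nat_ge β
      exact ⟨n, fun m hm => hn.trans (by exact_mod_cast hm)⟩)
    have h2 : ∀ᶠ N : ℕ in atTop, β * (∑ x, h x) / 2 ≤ N := eventually_atTop.2 (by
      obtain ⟨n, hn⟩ := exists_nat_ge (β * (∑ x, h x) / 2)
      exact ⟨n, fun m hm => hn.trans (by exact_mod_cast hm)⟩)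
    filter_upwards [h1, h2, eventually_gt_atTop 0] with N hN1 hN2 hN0
    have hN' : (0 : ℝ) < N := by exact_mod_cast hN0
    refine ⟨isLaw_phys' L hβ.le hN1, fun z => ?_⟩
    unfold th
    split_ifs with hz
    · unfold blk
      split_ifs
      · rw [hKt]; exact ⟨hθ, hθ1.le⟩
      · exact ⟨le_rfl, zero_le_one⟩
    · constructor
      · exact div_nonneg (mul_nonneg hβ.le (hh _)) (by positivity)
      · rw [div_le_one (by positivity)]
        have h3 : h z.2 ≤ ∑ x, h x := Finset.single_le_sum (fun x _ => hh x) (Finset.mem_univ _)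
        have h4 : β * h z.2 ≤ β * ∑ x, h x := mul_le_mul_of_nonneg_left h3 hβ.le
        linarith
  have t0 := tendsto_ZTw (stepM_tendsto L β h) b θ 0
  have tp := tendsto_ZTw (stepM_tendsto L β h) b θ Real.pi
  have tm := tendsto_ZTw (stepM_tendsto L β h) b θ (Real.pi / 2)
  refine le_of_tendsto_of_tendsto ((tm.mul ((t0.add tp).sub (tm.const_mul 2))).const_mul 8)
    ((t0.sub tp).pow 2) ?_
  filter_upwards [hgood] with N hN
  obtain ⟨hl, ht⟩ := hN
  have hc : (hatb N b).card ≤ 2 := by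
    unfold hatb
    rw [Finset.card_product]
    simpa using hb
  have := disc_two hl.nonneg (fun z => (ht z).1) (ZZ_pos hl fun z => (ht z).1)
    (SR.stable_of_isLaw hl ht) hc
  simp only [Zf_phys, hKt] at this
  exact this

theorem continuous_ZTw_theta (W : Matrix (V → Fin 2) (V → Fin 2) ℝ) (b : Finset V) (φ : ℝ) :
    Continuous fun θ => ZTw W b θ φ := by
  simp only [ZTw_eq]
  refine continuous_finsetSum _ fun σ _ => continuous_finsetSum _ fun τ _ => ?_
  refine continuous_const.mul ?_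
  unfold rotT
  simp only [Matrix.of_apply]
  refine continuous_finsetProd _ fun x _ => ?_
  by_cases hx : x ∈ b
  · simp only [hx, if_true]
    generalize τ x = i
    generalize σ x = j
    fin_cases i <;> fin_cases j <;> simp only [rotM] <;> simp <;> fun_prop
  · simp only [hx, if_false]
    exact continuous_const

/-- The discriminant inequality for the Gibbs operator, `θ = 1`. -/
theorem disc_gibbs (L : List (V × V)) {β : ℝ} (hβ : 0 < β) {h : V → ℝ} (hh : ∀ x, 0 ≤ h x)
    {b : Finset V} (hb : b.card ≤ 2) (hb0 : 0 < b.card) :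
    8 * (ZTw (NormedSpace.exp (-β • ham L h)) b 1 (Real.pi / 2) *
        (ZTw (NormedSpace.exp (-β • ham L h)) b 1 0 +
          ZTw (NormedSpace.exp (-β • ham L h)) b 1 Real.pi -
          2 * ZTw (NormedSpace.exp (-β • ham L h)) b 1 (Real.pi / 2))) ≤
      (ZTw (NormedSpace.exp (-β • ham L h)) b 1 0 -
        ZTw (NormedSpace.exp (-β • ham L h)) b 1 Real.pi) ^ 2 := by
  set W := NormedSpace.exp (-β • ham L h) with hW
  have c0 := continuous_ZTw_theta W b 0
  have cp := continuous_ZTw_theta W b Real.pi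
  have cm := continuous_ZTw_theta W b (Real.pi / 2)
  have hcl : IsClosed {θ : ℝ | 8 * (ZTw W b θ (Real.pi / 2) *
      (ZTw W b θ 0 + ZTw W b θ Real.pi - 2 * ZTw W b θ (Real.pi / 2))) ≤
      (ZTw W b θ 0 - ZTw W b θ Real.pi) ^ 2} :=
    isClosed_le (continuous_const.mul (cm.mul ((c0.add cp).sub (continuous_const.mul cm))))
      ((c0.sub cp).pow 2)
  have hsub : Set.Ico (0 : ℝ) 1 ⊆ {θ : ℝ | 8 * (ZTw W b θ (Real.pi / 2) *
      (ZTw W b θ 0 + ZTw W b θ Real.pi - 2 * ZTw W b θ (Real.pi / 2))) ≤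
      (ZTw W b θ 0 - ZTw W b θ Real.pi) ^ 2} := fun θ hθ =>
    disc_gibbs_lt L hβ hh hb hb0 hθ.1 hθ.2
  have h2 := closure_minimal hsub hcl
  rw [closure_Ico (by norm_num : (0 : ℝ) ≠ 1)] at h2
  exact h2 ⟨zero_le_one, le_rfl⟩

/-! ### The values at `θ = 1` -/

theorem rotM_one_zero (i j : Fin 2) : rotM 1 0 i j = if i = 0 ∧ j = 0 then 2 else 0 := by
  fin_cases i <;> fin_cases j <;> simp [rotM] <;> norm_num

theorem rotM_one_pi (i j : Fin 2) : rotM 1 Real.pi i j = if i = 1 ∧ j = 1 then 2 else 0 := by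
  fin_cases i <;> fin_cases j <;> simp [rotM] <;> norm_num

theorem rotM_one_half (i j : Fin 2) : rotM 1 (Real.pi / 2) i j = 1 := by
  fin_cases i <;> fin_cases j <;> simp [rotM]

theorem rotT_pair (x y : V) (hxy : x ≠ y) (θ φ : ℝ) (σ τ : V → Fin 2) :
    rotT {x, y} θ φ σ τ = rotM θ φ (σ x) (τ x) * rotM θ φ (σ y) (τ y) *
      if ∀ z, z ≠ x → z ≠ y → σ z = τ z then 1 else 0 := by
  unfold rotT
  rw [Matrix.of_apply]
  have h1 : ∏ z, (if z ∈ ({x, y} : Finset V) then rotM θ φ (σ z) (τ z)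
      else if σ z = τ z then 1 else 0) =
      (∏ z ∈ ({x, y} : Finset V), rotM θ φ (σ z) (τ z)) *
        ∏ z ∈ ({x, y} : Finset V)ᶜ, (if σ z = τ z then 1 else 0) := by
    rw [← Finset.prod_mul_prod_compl ({x, y} : Finset V)]
    congr 1
    · exact Finset.prod_congr rfl fun z hz => if_pos hz
    · exact Finset.prod_congr rfl fun z hz => if_neg (Finset.mem_compl.1 hz)
  rw [h1, Finset.prod_pair hxy]
  congr 1
  split_ifs with hall
  · refine Finset.prod_eq_one fun z hz => ?_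
    rw [Finset.mem_compl, Finset.mem_insert, Finset.mem_singleton, not_or] at hz
    rw [if_pos (hall z hz.1 hz.2)]
  · push Not at hall
    obtain ⟨z, hz1, hz2, hz3⟩ := hall
    refine Finset.prod_eq_zero (i := z) ?_ (if_neg hz3)
    rw [Finset.mem_compl, Finset.mem_insert, Finset.mem_singleton, not_or]
    exact ⟨hz1, hz2⟩

omit [Fintype V] in
theorem eq_of_pair {x y : V} {σ τ : V → Fin 2} (hx : σ x = τ x) (hy : σ y = τ y)
    (h : ∀ z, z ≠ x → z ≠ y → σ z = τ z) : σ = τ := by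
  funext z
  by_cases hzx : z = x
  · rw [hzx]; exact hx
  · by_cases hzy : z = y
    · rw [hzy]; exact hy
    · exact h z hzx hzy

theorem ZTw_zero (W : Matrix (V → Fin 2) (V → Fin 2) ℝ) {x y : V} (hxy : x ≠ y) :
    ZTw W {x, y} 1 0 = 4 * ∑ σ, if σ x = 0 ∧ σ y = 0 then W σ σ else 0 := by
  rw [ZTw_eq, Finset.mul_sum]
  refine Finset.sum_congr rfl fun σ _ => ?_
  rw [Finset.sum_eq_single σ]
  · rw [rotT_pair x y hxy, rotM_one_zero, rotM_one_zero]
    by_cases h1 : σ x = 0 <;> by_cases h2 : σ y = 0 <;> simp [h1, h2]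
    ring
  · intro τ _ hτ
    rw [rotT_pair x y hxy, rotM_one_zero, rotM_one_zero]
    split_ifs with h1 h2 h3
    · exact absurd (eq_of_pair (h1.1.trans h1.2.symm) (h2.1.trans h2.2.symm) h3) hτ
    all_goals simp
  · intro h
    exact absurd (Finset.mem_univ _) h

theorem ZTw_pi (W : Matrix (V → Fin 2) (V → Fin 2) ℝ) {x y : V} (hxy : x ≠ y) :
    ZTw W {x, y} 1 Real.pi = 4 * ∑ σ, if σ x = 1 ∧ σ y = 1 then W σ σ else 0 := by
  rw [ZTw_eq, Finset.mul_sum]
  refine Finset.sum_congr rfl fun σ _ => ?_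
  rw [Finset.sum_eq_single σ]
  · rw [rotT_pair x y hxy, rotM_one_pi, rotM_one_pi]
    by_cases h1 : σ x = 1 <;> by_cases h2 : σ y = 1 <;> simp [h1, h2]
    ring
  · intro τ _ hτ
    rw [rotT_pair x y hxy, rotM_one_pi, rotM_one_pi]
    split_ifs with h1 h2 h3
    · exact absurd (eq_of_pair (h1.1.trans h1.2.symm) (h2.1.trans h2.2.symm) h3) hτ
    all_goals simp
  · intro h
    exact absurd (Finset.mem_univ _) h

/-- `2 |W σ τ| ≤ W σ σ + W τ τ`. -/
theorem psd_entry {m : Type} [Fintype m] [DecidableEq m] {W : Matrix m m ℝ}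
    (hW : W.PosSemidef) (i j : m) : |W i j| ≤ (W i i + W j j) / 2 := by
  have hsym : W j i = W i j := by
    have := hW.isHermitian
    have h2 := congrFun (congrFun this i) j
    rw [Matrix.conjTranspose_apply] at h2
    simpa using h2
  by_cases hij : i = j
  · subst hij
    have h0 := hW.diag_nonneg (i := i)
    rw [abs_of_nonneg h0]
    linarith
  have key : ∀ c : ℝ, 0 ≤ W i i + 2 * c * W i j + c ^ 2 * W j j := by
    intro c
    have h := hW.dotProduct_mulVec_nonneg (Pi.single i 1 + c • Pi.single j 1)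
    have e : star (Pi.single i 1 + c • Pi.single j 1 : m → ℝ) ⬝ᵥ
        (W *ᵥ (Pi.single i 1 + c • Pi.single j 1)) =
        W i i + 2 * c * W i j + c ^ 2 * W j j := by
      rw [star_trivial, Matrix.mulVec_add, Matrix.mulVec_smul, Matrix.mulVec_single_one,
        Matrix.mulVec_single_one, add_dotProduct, smul_dotProduct, dotProduct_add,
        dotProduct_add, dotProduct_smul, dotProduct_smul, single_one_dotProduct,
        single_one_dotProduct, single_one_dotProduct, single_one_dotProduct]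
      simp only [Matrix.col_apply, smul_eq_mul]
      rw [hsym]
      ring
    rw [e] at h
    exact h
  have h1 := key 1
  have h2 := key (-1)
  rw [abs_le]
  constructor <;> linarith

theorem half_term (W : Matrix (V → Fin 2) (V → Fin 2) ℝ) {x y : V} (hxy : x ≠ y)
    (hc : ∀ σ τ, W σ τ ≠ 0 → Tw.dn univ σ = Tw.dn univ τ) (σ τ : V → Fin 2) :
    W σ τ * rotT {x, y} 1 (Real.pi / 2) τ σ =
      (if τ = σ then W σ σ else 0) +
        (if τ = σ ∘ Equiv.swap x y then (if σ x ≠ σ y then W σ (σ ∘ Equiv.swap x y) else 0)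
          else 0) := by
  rw [rotT_pair x y hxy, rotM_one_half, rotM_one_half, one_mul, one_mul]
  have hswne : σ x ≠ σ y → σ ≠ σ ∘ Equiv.swap x y := by
    intro h1 h2
    apply h1
    have := congrFun h2 x
    simpa using this
  by_cases hoff : ∀ z, z ≠ x → z ≠ y → τ z = σ z
  · rw [if_pos hoff, mul_one]
    by_cases hW : W σ τ = 0
    · by_cases h1 : τ = σ
      · subst h1
        rw [if_pos rfl, hW, zero_add]
        by_cases h2 : τ x = τ y
        · simp [h2]
        · rw [if_neg (hswne h2)]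
      · rw [if_neg h1, zero_add]
        by_cases h2 : τ = σ ∘ Equiv.swap x y
        · rw [if_pos h2, ← h2, hW]
          simp
        · rw [if_neg h2, hW]
    · have hd := hc σ τ hW
      have hd2 : Tw.dn {x, y} σ = Tw.dn {x, y} τ := by
        refine Tw.dn_eq_of_off (fun z hz => ?_) hd
        rw [Finset.mem_insert, Finset.mem_singleton, not_or] at hz
        exact (hoff z hz.1 hz.2).symm
      unfold Tw.dn at hd2
      rw [Finset.sum_pair hxy, Finset.sum_pair hxy] at hd2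
      have b1 := (σ x).isLt
      have b2 := (σ y).isLt
      have b3 := (τ x).isLt
      have b4 := (τ y).isLt
      by_cases h1 : τ x = σ x
      · have h2 : τ y = σ y := by
          apply Fin.ext
          have := congrArg Fin.val h1
          omega
        have h3 : τ = σ := eq_of_pair h1 h2 hoff
        subst h3
        rw [if_pos rfl]
        by_cases h4 : τ x = τ y
        · simp [h4]
        · rw [if_neg (hswne h4), add_zero]
      · have h1' : (τ x : ℕ) ≠ (σ x : ℕ) := fun h => h1 (Fin.ext h)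
        have h4 : σ x ≠ σ y := by
          intro h
          have := congrArg Fin.val h
          omega
        have h5 : τ x = σ y := by apply Fin.ext; omega
        have h6 : τ y = σ x := by apply Fin.ext; omega
        have h7 : τ = σ ∘ Equiv.swap x y := by
          refine eq_of_pair (x := x) (y := y) ?_ ?_ ?_
          · simpa using h5
          · simpa using h6
          · intro z hzx hzy
            rw [hoff z hzx hzy, Function.comp_apply, Equiv.swap_apply_of_ne_of_ne hzx hzy]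
        rw [if_pos h7, if_pos h4, ← h7]
        have h8 : τ ≠ σ := fun h => h1 (by rw [h])
        rw [if_neg h8, zero_add]
  · rw [if_neg hoff, mul_zero]
    have h1 : τ ≠ σ := fun h => hoff fun z _ _ => by rw [h]
    have h2 : τ ≠ σ ∘ Equiv.swap x y := fun h => hoff fun z hzx hzy => by
      rw [h, Function.comp_apply, Equiv.swap_apply_of_ne_of_ne hzx hzy]
    rw [if_neg h1, if_neg h2, add_zero]

theorem ZTw_half (W : Matrix (V → Fin 2) (V → Fin 2) ℝ) {x y : V} (hxy : x ≠ y)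
    (hc : ∀ σ τ, W σ τ ≠ 0 → Tw.dn univ σ = Tw.dn univ τ) :
    ZTw W {x, y} 1 (Real.pi / 2) = ∑ σ, W σ σ +
      ∑ σ, (if σ x ≠ σ y then W σ (σ ∘ Equiv.swap x y) else 0) := by
  rw [ZTw_eq, ← Finset.sum_add_distrib]
  refine Finset.sum_congr rfl fun σ _ => ?_
  rw [Finset.sum_congr rfl fun τ _ => half_term W hxy hc σ τ, Finset.sum_add_distrib,
    Finset.sum_ite_eq', Finset.sum_ite_eq', if_pos (Finset.mem_univ _),
    if_pos (Finset.mem_univ _)]

theorem off_le {W : Matrix (V → Fin 2) (V → Fin 2) ℝ} (hW : W.PosSemidef) (x y : V) :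
    |∑ σ : V → Fin 2, (if σ x ≠ σ y then W σ (σ ∘ Equiv.swap x y) else 0)| ≤
      ∑ σ : V → Fin 2, (if σ x ≠ σ y then W σ σ else 0) := by
  have hre : ∑ σ : V → Fin 2, (if σ x ≠ σ y then
      W (σ ∘ Equiv.swap x y) (σ ∘ Equiv.swap x y) else 0) =
      ∑ σ : V → Fin 2, (if σ x ≠ σ y then W σ σ else 0) := by
    let e : (V → Fin 2) ≃ (V → Fin 2) := Equiv.arrowCongr (Equiv.swap x y) (Equiv.refl _)
    rw [← Equiv.sum_comp e]
    refine Finset.sum_congr rfl fun σ _ => ?_
    have he : e σ = σ ∘ Equiv.swap x y := by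
      funext z
      simp [e, Equiv.arrowCongr]
    rw [he]
    have h1 : (σ ∘ Equiv.swap x y) ∘ Equiv.swap x y = σ := by
      funext z
      simp
    rw [h1]
    simp only [Function.comp_apply, Equiv.swap_apply_left, Equiv.swap_apply_right]
    by_cases h2 : σ x = σ y
    · simp [h2]
    · have h3 : ¬ σ y = σ x := fun h => h2 h.symm
      simp [h2, h3]
  refine (Finset.abs_sum_le_sum_abs _ _).trans ?_
  have h1 : ∀ σ : V → Fin 2, |if σ x ≠ σ y then W σ (σ ∘ Equiv.swap x y) else 0| ≤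
      ((if σ x ≠ σ y then W σ σ else 0) + (if σ x ≠ σ y then
        W (σ ∘ Equiv.swap x y) (σ ∘ Equiv.swap x y) else 0)) / 2 := by
    intro σ
    split_ifs
    · exact psd_entry hW _ _
    · simp
  refine (Finset.sum_le_sum fun σ _ => h1 σ).trans ?_
  rw [← Finset.sum_div, Finset.sum_add_distrib, hre]
  linarith

/-- The product form: `P(dn,dn) * P(up,up)` is at most the square of `P(up,dn or dn,up)`. -/
theorem dd_le (L : List (V × V)) {β : ℝ} (hβ : 0 < β) {h : V → ℝ} (hh : ∀ x, 0 ≤ h x)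
    {x y : V} (hxy : x ≠ y) :
    (∑ σ : V → Fin 2, if σ x = 0 ∧ σ y = 0 then NormedSpace.exp (-β • ham L h) σ σ else 0) *
      (∑ σ : V → Fin 2, if σ x = 1 ∧ σ y = 1 then NormedSpace.exp (-β • ham L h) σ σ else 0) ≤
    (∑ σ : V → Fin 2, if σ x ≠ σ y then NormedSpace.exp (-β • ham L h) σ σ else 0) ^ 2 := by
  have hcard : ({x, y} : Finset V).card = 2 := Finset.card_pair hxy
  have h1 := disc_gibbs L hβ hh (b := {x, y}) hcard.le (by rw [hcard]; norm_num)
  rw [ZTw_zero _ hxy, ZTw_pi _ hxy,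
    ZTw_half _ hxy (fun σ τ hd => Tw.expH_cons L β h σ τ hd)] at h1
  have h2 := off_le (Tw.expH_psd L β h) x y
  set W := NormedSpace.exp (-β • ham L h) with hW
  set A := ∑ σ : V → Fin 2, (if σ x = 0 ∧ σ y = 0 then W σ σ else 0) with hA
  set D := ∑ σ : V → Fin 2, (if σ x = 1 ∧ σ y = 1 then W σ σ else 0) with hD
  set Q := ∑ σ : V → Fin 2, (if σ x ≠ σ y then W σ σ else 0) with hQ
  set R := ∑ σ : V → Fin 2, (if σ x ≠ σ y then W σ (σ ∘ Equiv.swap x y) else 0) with hR
  have hT : ∑ σ, W σ σ = A + D + Q := by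
    rw [hA, hD, hQ, ← Finset.sum_add_distrib, ← Finset.sum_add_distrib]
    refine Finset.sum_congr rfl fun σ _ => ?_
    have c1 : σ x = 0 ∨ σ x = 1 := by
      have := (σ x).isLt
      by_cases h0 : (σ x : ℕ) = 0
      · left; exact Fin.ext h0
      · right; apply Fin.ext; show (σ x : ℕ) = 1; omega
    have c2 : σ y = 0 ∨ σ y = 1 := by
      have := (σ y).isLt
      by_cases h0 : (σ y : ℕ) = 0
      · left; exact Fin.ext h0
      · right; apply Fin.ext; show (σ y : ℕ) = 1; omega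
    rcases c1 with c1 | c1 <;> rcases c2 with c2 | c2 <;> simp [c1, c2]
  rw [hT] at h1
  obtain ⟨h3, h4⟩ := abs_le.1 h2
  have h5 : 0 ≤ Q + R := by linarith
  have h6 : (Q + R) ^ 2 ≤ (2 * Q) ^ 2 := pow_le_pow_left₀ h5 (by linarith) 2
  nlinarith

theorem trace_diag_mul (W : Matrix (V → Fin 2) (V → Fin 2) ℝ) (f : (V → Fin 2) → ℝ) :
    Matrix.trace (W * Matrix.diagonal f) = ∑ σ, W σ σ * f σ := by
  simp [Matrix.trace, Matrix.mul_diagonal]

omit [DecidableEq V] in
theorem nM_eq (x : V) : (1 / 2 : ℝ) • (1 - szM x) =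
    Matrix.diagonal fun σ : V → Fin 2 => if σ x = 1 then (1 : ℝ) else 0 := by
  unfold szM
  rw [← Matrix.diagonal_one, Matrix.diagonal_sub, ← Matrix.diagonal_smul]
  congr 1
  funext σ
  have : σ x = 0 ∨ σ x = 1 := by
    have := (σ x).isLt
    by_cases h0 : (σ x : ℕ) = 0
    · left; exact Fin.ext h0
    · right; apply Fin.ext; show (σ x : ℕ) = 1; omega
  rcases this with h | h <;> simp [h]
  norm_num

/-- **Pair inequality.** -/
theorem pair_mul_le (L : List (V × V)) {β : ℝ} (hβ : 0 < β) {h : V → ℝ} (hh : ∀ x, 0 ≤ h x)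
    {x y : V} (hxy : x ≠ y) :
    gib L β h (((1 / 2 : ℝ) • (1 - szM x)) * ((1 / 2 : ℝ) • (1 - szM y))) *
      (1 - rho L β h x - rho L β h y) ≤ (rho L β h x + rho L β h y) ^ 2 ∧
    0 ≤ gib L β h (((1 / 2 : ℝ) • (1 - szM x)) * ((1 / 2 : ℝ) • (1 - szM y))) := by
  have h1 := dd_le L hβ hh hxy
  have hTpos := Tw.trace_expH_pos L β h
  unfold rho gib
  rw [nM_eq, nM_eq, Matrix.diagonal_mul_diagonal, trace_diag_mul, trace_diag_mul,
    trace_diag_mul]
  have hdiag : ∀ σ, 0 ≤ NormedSpace.exp (-β • ham L h) σ σ := fun σ =>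
    (Tw.expH_psd L β h).diag_nonneg
  set W := NormedSpace.exp (-β • ham L h) with hW
  set A := ∑ σ : V → Fin 2, (if σ x = 0 ∧ σ y = 0 then W σ σ else 0) with hA
  set D := ∑ σ : V → Fin 2, (if σ x = 1 ∧ σ y = 1 then W σ σ else 0) with hD
  set Q := ∑ σ : V → Fin 2, (if σ x ≠ σ y then W σ σ else 0) with hQ
  have c : ∀ (σ : V → Fin 2) (z : V), σ z = 0 ∨ σ z = 1 := by
    intro σ z
    have := (σ z).isLt
    by_cases h0 : (σ z : ℕ) = 0
    · left; exact Fin.ext h0
    · right; apply Fin.ext; show (σ z : ℕ) = 1; omega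
  have eT : Matrix.trace W = A + D + Q := by
    rw [hA, hD, hQ, ← Finset.sum_add_distrib, ← Finset.sum_add_distrib, Matrix.trace]
    refine Finset.sum_congr rfl fun σ _ => ?_
    rw [Matrix.diag_apply]
    rcases c σ x with c1 | c1 <;> rcases c σ y with c2 | c2 <;> simp [c1, c2]
  have eD : ∑ σ : V → Fin 2, W σ σ * ((if σ x = 1 then (1 : ℝ) else 0) *
      (if σ y = 1 then 1 else 0)) = D := by
    rw [hD]
    refine Finset.sum_congr rfl fun σ _ => ?_
    rcases c σ x with c1 | c1 <;> rcases c σ y with c2 | c2 <;> simp [c1, c2]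
  have eS : ∑ σ : V → Fin 2, W σ σ * (if σ x = 1 then (1 : ℝ) else 0) +
      ∑ σ : V → Fin 2, W σ σ * (if σ y = 1 then (1 : ℝ) else 0) = 2 * D + Q := by
    rw [hD, hQ, Finset.mul_sum, ← Finset.sum_add_distrib, ← Finset.sum_add_distrib]
    refine Finset.sum_congr rfl fun σ _ => ?_
    rcases c σ x with c1 | c1 <;> rcases c σ y with c2 | c2 <;> simp [c1, c2]
    ring
  have hD0 : 0 ≤ D := by
    rw [hD]
    refine Finset.sum_nonneg fun σ _ => ?_
    split_ifs
    · exact hdiag σ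
    · exact le_rfl
  have hQ0 : 0 ≤ Q := by
    rw [hQ]
    refine Finset.sum_nonneg fun σ _ => ?_
    split_ifs
    · exact hdiag σ
    · exact le_rfl
  have hA0 : 0 ≤ A := by
    rw [hA]
    refine Finset.sum_nonneg fun σ _ => ?_
    split_ifs
    · exact hdiag σ
    · exact le_rfl
  rw [eD]
  set T := Matrix.trace W with hT
  set r1 := ∑ σ : V → Fin 2, W σ σ * (if σ x = 1 then (1 : ℝ) else 0)
  set r2 := ∑ σ : V → Fin 2, W σ σ * (if σ y = 1 then (1 : ℝ) else 0)
  refine ⟨?_, div_nonneg hD0 hTpos.le⟩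
  have e1 : D / T * (1 - r1 / T - r2 / T) = D * (T - (r1 + r2)) / T ^ 2 := by
    field_simp
    ring
  have e2 : (r1 / T + r2 / T) ^ 2 = (r1 + r2) ^ 2 / T ^ 2 := by
    field_simp
  rw [e1, e2, eS]
  refine div_le_div_of_nonneg_right ?_ (by positivity)
  rw [eT]
  nlinarith [mul_nonneg hD0 hQ0, mul_nonneg hD0 hD0]

/-- **Pair inequality**, `ρ ≤ η ≤ 1/4`. -/
theorem pair_le (L : List (V × V)) {β : ℝ} (hβ : 0 < β) {h : V → ℝ} (hh : ∀ x, 0 ≤ h x)
    {x y : V} (hxy : x ≠ y) {η : ℝ} (hη : η ≤ 1 / 4) (hx : rho L β h x ≤ η)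
    (hy : rho L β h y ≤ η) :
    gib L β h (((1 / 2 : ℝ) • (1 - szM x)) * ((1 / 2 : ℝ) • (1 - szM y))) ≤ 8 * η ^ 2 := by
  obtain ⟨h1, h2⟩ := pair_mul_le L hβ hh hxy
  have hx0 : 0 ≤ rho L β h x := by
    unfold rho
    refine gib_nonneg_of_form L β h ?_
    rw [nM_eq]
    refine Matrix.PosSemidef.diagonal fun σ => ?_
    show (0 : ℝ) ≤ if σ x = 1 then (1 : ℝ) else 0
    split_ifs <;> norm_num
  have hy0 : 0 ≤ rho L β h y := by
    unfold rho
    refine gib_nonneg_of_form L β h ?_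
    rw [nM_eq]
    refine Matrix.PosSemidef.diagonal fun σ => ?_
    show (0 : ℝ) ≤ if σ y = 1 then (1 : ℝ) else 0
    split_ifs <;> norm_num
  set d := gib L β h (((1 / 2 : ℝ) • (1 - szM x)) * ((1 / 2 : ℝ) • (1 - szM y)))
  have h3 : d * (1 / 2) ≤ d * (1 - rho L β h x - rho L β h y) :=
    mul_le_mul_of_nonneg_left (by linarith) h2
  have h4 : (rho L β h x + rho L β h y) ^ 2 ≤ (2 * η) ^ 2 :=
    pow_le_pow_left₀ (by linarith) (by linarith) 2
  nlinarith

end

end Vale.Agent.P361.LRO.PairS
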