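import Vale.Agent.P361.LRO.S3.MeanInv
import Vale.Agent.P361.LRO.S3.Mean
import Vale.Agent.P361.LRO.S3.Fock
import Vale.Agent.P361.LRO.S3.OneBody
import Vale.Agent.P361.LRO.S3.PairIneq
import Vale.Agent.P361.LRO.S3.TorLow

/-!
P361, stage 3, block (M): the inequality for the block mean on a finite torus.
-/

namespace Vale.Agent.P361.LRO.S3.MA

open Finset Matrix

noncomputable section

theorem spectral_of {V : Type} [Fintype V] [DecidableEq V] {a : V → V → ℝ} {al : V → ℝ}
    {e : V → V → ℝ} (hc : ∀ x y, ∑ k, e k x * e k y = if x = y then 1 else 0)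
    (ha : ∀ k u, ∑ v, a u v * e k v = al k * e k u) (u v : V) :
    a u v = ∑ k, al k * (e k u * e k v) := by
  have h1 : ∀ k, al k * (e k u * e k v) = ∑ x, a u x * (e k x * e k v) := by
    intro k
    rw [← mul_assoc, ← ha k u, Finset.sum_mul]
    exact Finset.sum_congr rfl fun x _ => by ring
  rw [Finset.sum_congr rfl fun k _ => h1 k, Finset.sum_comm]
  have h2 : ∀ x, ∑ k, a u x * (e k x * e k v) = if x = v then a u x else 0 := by
    intro x
    rw [← Finset.mul_sum, hc]
    split_ifs <;> simp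
  rw [Finset.sum_congr rfl fun x _ => h2 x, Finset.sum_ite_eq' Finset.univ v,
    if_pos (Finset.mem_univ _)]

variable {n : ℕ} [NeZero n]

theorem edges_ne' (hn : 2 ≤ n) : ∀ e ∈ edges n, e.1 ≠ e.2 := by
  intro e he
  unfold edges at he
  rw [List.mem_map] at he
  obtain ⟨z, _, rfl⟩ := he
  intro hz
  have : Fact (1 < n) := ⟨hn⟩
  have h2 : (Pi.single z.2 1 : Tor n) = 0 := (left_eq_add.1 hz)
  have h3 := congrFun h2 z.2
  rw [Pi.single_eq_same, Pi.zero_apply] at h3
  exact one_ne_zero h3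

theorem tL_eq (u v : Tor n) : Mean.tL (edges n) u v = OB.tmat n u v := by
  unfold Mean.tL OB.tmat
  have : (fun e : Tor n × Tor n => pairK e.1 e.2 u v) = fun e => OB.dd e.1 e.2 u v := rfl
  rw [this]
  ring

theorem oneK_hb (k u : Tor n) : ∑ v, Mean.oneK u v * OB.hb k v = OB.hb k u := by
  unfold Mean.oneK
  simp

theorem one_body_hb (β h lam : ℝ) (w : ℕ) (k u : Tor n) :
    ∑ v, β * (Mean.tL (edges n) u v + h * Mean.oneK u v - lam * OB.gmat n w u v) * OB.hb k v =
      β * (OB.tq k + h - lam * OB.gq w k) * OB.hb k u := by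
  have h1 : ∀ v, β * (Mean.tL (edges n) u v + h * Mean.oneK u v - lam * OB.gmat n w u v) *
      OB.hb k v = β * (OB.tmat n u v * OB.hb k v) + β * h * (Mean.oneK u v * OB.hb k v) -
        β * lam * (OB.gmat n w u v * OB.hb k v) := by
    intro v
    rw [tL_eq]
    ring
  rw [Finset.sum_congr rfl fun v _ => h1 v, Finset.sum_sub_distrib, Finset.sum_add_distrib,
    ← Finset.mul_sum, ← Finset.mul_sum, ← Finset.mul_sum, OB.tmat_hb, oneK_hb, OB.gmat_hb]
  ring

theorem trace_le {w : ℕ} {β h lam μ : ℝ} (hβ : 0 < β) (hh : 0 < h) (hlam : 0 ≤ lam)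
    (hμ : 12 * lam * (w : ℝ) ^ 2 ≤ μ) (hμ1 : μ ≤ 1) :
    trace (NormedSpace.exp (-(hcM fun u v => β * (Mean.tL (edges n) u v +
      h * Mean.oneK u v - lam * OB.gmat n w u v)))) ≤
      Real.exp (∑ k : Tor n, -Real.log (1 - Real.exp
        (-(β * (OB.tq k + h - lam * OB.gq w k))))) := by
  have hc : ∀ x y : Tor n, ∑ k, OB.hb k x * OB.hb k y = if x = y then 1 else 0 :=
    fun x y => OB.hb_compl x y
  have he : Fock.Orth (OB.hb (n := n)) := ⟨hc, fun k l => OB.hb_orth k l⟩
  have hal : ∀ k : Tor n, 0 < β * (OB.tq k + h - lam * OB.gq w k) := fun k => by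
    obtain ⟨h1, h2⟩ := OB.eig_pos (w := w) hβ hh hlam hμ hμ1 k
    exact h2.trans_le h1
  have h1 : (fun u v : Tor n => β * (Mean.tL (edges n) u v +
      h * Mean.oneK u v - lam * OB.gmat n w u v)) =
      fun u v => ∑ k, β * (OB.tq k + h - lam * OB.gq w k) * (OB.hb k u * OB.hb k v) := by
    funext u v
    exact spectral_of hc (one_body_hb β h lam w) u v
  rw [h1]
  refine (Fock.trace_exp_hcM_le he hal).trans (le_of_eq ?_)
  rw [Real.exp_sum]
  refine Finset.prod_congr rfl fun k _ => ?_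
  have h2 : 0 < 1 - Real.exp (-(β * (OB.tq k + h - lam * OB.gq w k))) := by
    have : Real.exp (-(β * (OB.tq k + h - lam * OB.gq w k))) < 1 := by
      rw [Real.exp_lt_one_iff]
      linarith [hal k]
    linarith
  rw [Real.exp_neg (Real.log _), Real.exp_log h2]

theorem gib_pair (β h : ℝ) (x y : Tor n) :
    2 * gib (edges n) β (fun _ => h) (hM x y) ≤
      gib (edges n) β (fun _ => h) (hcM (OB.dd x y)) := by
  by_cases hxy : x = y
  · subst hxy
    have h1 : (OB.dd x x : Tor n → Tor n → ℝ) = fun _ _ => 0 := by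
      funext u v
      unfold OB.dd
      ring
    rw [h1, Mean.hcM_zero, Mean.hM_self]
    have : gib (edges n) β (fun _ => h) (0 : Matrix (Tor n → Fin 2) (Tor n → Fin 2) ℝ) = 0 := by
      unfold gib
      simp
    rw [this]
    norm_num
  · have h1 : hcM (OB.dd x y) = (2 : ℝ) • hM x y + (2 : ℝ) • (nM x * nM y) := hcM_pairK hxy
    rw [h1, Mean.gib_add, Mean.gib_smul, Mean.gib_smul]
    have := gib_nn_nonneg (edges n) β (fun _ => h) x y
    linarith

/-- The average reward of a block is at most the second quantisation of `gmat`. -/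
theorem yb_le_gmat {w : ℕ} (hw : w ≤ n) (hw0 : 0 < w) (β h : ℝ) (x : Tor n) :
    (n : ℝ) ^ 3 * yb (edges n) β (fun _ => h) (cube n x w) ≤
      gib (edges n) β (fun _ => h) (hcM (OB.gmat n w)) := by
  have hw' : (0 : ℝ) < w := by exact_mod_cast hw0
  have h0 : OB.gmat n w = fun u v : Tor n => (1 / (2 * (w : ℝ) ^ 6)) *
      ∑ z : Tor n, ∑ a : Fin 3 → Fin w, ∑ b : Fin 3 → Fin w,
        OB.dd (z + OB.io n a) (z + OB.io n b) u v := by
    funext u v
    unfold OB.gmat
    rw [div_eq_mul_inv, one_div]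
    exact mul_comm _ _
  have h1 : hcM (OB.gmat n w) = (1 / (2 * (w : ℝ) ^ 6)) •
      ∑ z : Tor n, ∑ a : Fin 3 → Fin w, ∑ b : Fin 3 → Fin w,
        hcM (OB.dd (z + OB.io n a) (z + OB.io n b)) := by
    rw [h0, hcM_smul, hcM_sum]
    congr 1
    refine Finset.sum_congr rfl fun z _ => ?_
    rw [hcM_sum]
    refine Finset.sum_congr rfl fun a _ => ?_
    rw [hcM_sum]
  rw [h1, Mean.gib_smul, Mean.gib_sum, yb_eq hw hw0]
  have h2 : ∀ z : Tor n, ∑ a : Fin 3 → Fin w, ∑ b : Fin 3 → Fin w,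
      2 * gib (edges n) β (fun _ => h) (hM (ptc z a) (ptc z b)) ≤
      gib (edges n) β (fun _ => h) (∑ a : Fin 3 → Fin w, ∑ b : Fin 3 → Fin w,
        hcM (OB.dd (z + OB.io n a) (z + OB.io n b))) := by
    intro z
    rw [Mean.gib_sum]
    refine Finset.sum_le_sum fun a _ => ?_
    rw [Mean.gib_sum]
    exact Finset.sum_le_sum fun b _ => gib_pair β h _ _
  have h3 := Finset.sum_le_sum fun z (_ : z ∈ (Finset.univ : Finset (Tor n))) => h2 z
  have h4 : ∑ z : Tor n, ∑ a : Fin 3 → Fin w, ∑ b : Fin 3 → Fin w,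
      2 * gib (edges n) β (fun _ => h) (hM (ptc z a) (ptc z b)) =
      2 * ∑ z : Tor n, ∑ a : Fin 3 → Fin w, ∑ b : Fin 3 → Fin w,
        gib (edges n) β (fun _ => h) (hM (ptc z a) (ptc z b)) := by
    simp only [Finset.mul_sum]
  rw [h4] at h3
  have h5 : (0 : ℝ) ≤ 1 / (2 * (w : ℝ) ^ 6) := by positivity
  have h6 := mul_le_mul_of_nonneg_left h3 h5
  refine le_trans (le_of_eq ?_) h6
  rw [← mul_assoc]
  congr 1
  field_simp

theorem gib_WL_eq (β h : ℝ) : gib (edges n) β (fun _ => h) (Mean.WL (edges n)) =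
    ((edges n).map fun e => gib (edges n) β (fun _ => h) (nM e.1 * nM e.2)).sum := by
  unfold Mean.WL
  have h2 : ∀ L : List (Tor n × Tor n),
      gib (edges n) β (fun _ => h) (L.map fun e => nM e.1 * nM e.2).sum =
        (L.map fun e => gib (edges n) β (fun _ => h) (nM e.1 * nM e.2)).sum := by
    intro L
    induction L with
    | nil =>
      simp only [List.map_nil, List.sum_nil]
      unfold gib
      simp
    | cons a L ih => rw [List.map_cons, List.sum_cons, Mean.gib_add, ih, List.map_cons,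
        List.sum_cons]
  exact h2 _

/-- The inequality for the block mean on a finite torus. -/
theorem mean_fin {w : ℕ} (hn : 2 ≤ n) (hw : w ≤ n) (hw0 : 0 < w) {β h lam μ η : ℝ} (hβ : 0 < β)
    (hh : 0 < h) (hlam : 0 ≤ lam) (hμ : 12 * lam * (w : ℝ) ^ 2 ≤ μ) (hμ1 : μ ≤ 1)
    (hη : η ≤ 1 / 4) (hρ : ∀ x : Tor n, rho (edges n) β (fun _ => h) x ≤ η) (x : Tor n) :
    β * lam * ((n : ℝ) ^ 3 * yb (edges n) β (fun _ => h) (cube n x w)) ≤
      ∑ k : Tor n, -Real.log (1 - Real.exp (-(β * (OB.tq k + h - lam * OB.gq w k)))) -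
        logZ n β h + 24 * β * (n : ℝ) ^ 3 * η ^ 2 := by
  have h1 := Mean.mean_ineq (edges n) (edges_ne' hn) β h lam (OB.gmat n w) (fun u v => by
    unfold OB.gmat
    congr 1
    refine Finset.sum_congr rfl fun z _ => Finset.sum_congr rfl fun a _ =>
      Finset.sum_congr rfl fun b _ => ?_
    unfold OB.dd
    ring) (trace_le hβ hh hlam hμ hμ1)
  have h2 := mul_le_mul_of_nonneg_left (yb_le_gmat hw hw0 β h x) (mul_nonneg hβ.le hlam)
  have h3 : β * gib (edges n) β (fun _ => h) (Mean.WL (edges n)) ≤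
      24 * β * (n : ℝ) ^ 3 * η ^ 2 := by
    rw [gib_WL_eq]
    have h4 := pair_sum_le (n := n) (β := β) (h := h) (ρ := η) (fun a b hab => by
      rw [nM_eq, nM_eq]
      exact PairS.pair_le (edges n) hβ (fun _ => hh.le) hab hη (hρ a) (hρ b)) hn
    have h5 := mul_le_mul_of_nonneg_left h4 hβ.le
    linarith
  have h4 : Real.log (trace (NormedSpace.exp (-β • ham (edges n) fun _ => h))) -
      β * h * (Fintype.card (Tor n) : ℝ) / 2 = logZ n β h := by
    unfold logZ
    rw [Fintype.card_fun, ZMod.card, Fintype.card_fin]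
    push_cast
    ring
  rw [h4] at h1
  linarith

end

end Vale.Agent.P361.LRO.S3.MA
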