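import Vale.Agent.P361.LRO.S3.Mean
import Vale.Agent.P361.LRO.S3.OneBody
import Vale.Agent.P361.LRO.S3.HardCoreHc

/-!
P361, stage 3, block (M), step (B): the free gas bound for `β (t + h - lam g)` on the torus.
-/

namespace Vale.Agent.P361.LRO.S3.MeanB

open Finset Matrix

noncomputable section

variable {n : ℕ} [NeZero n]

theorem pairK_eq_dd {V : Type} [DecidableEq V] (x y u v : V) : pairK x y u v = OB.dd x y u v := by
  simp only [pairK, OB.dd]

theorem tL_eq_tmat (u v : Tor n) : Mean.tL (edges n) u v = OB.tmat n u v := by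
  rw [Mean.tL, OB.tmat]
  simp only [pairK_eq_dd]
  ring

/-- A kernel with the eigenvectors `hb k`. -/
theorem spec_of_eig {a : Tor n → Tor n → ℝ} {al : Tor n → ℝ}
    (h : ∀ k u, ∑ v, a u v * OB.hb k v = al k * OB.hb k u) (x y : Tor n) :
    a x y = ∑ k, al k * (OB.hb k x * OB.hb k y) := by
  have h1 : ∀ k, al k * (OB.hb k x * OB.hb k y) = ∑ v, a x v * (OB.hb k v * OB.hb k y) := by
    intro k
    rw [← mul_assoc, ← h k x, Finset.sum_mul]
    exact Finset.sum_congr rfl fun v _ => mul_assoc _ _ _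
  simp only [h1]
  rw [Finset.sum_comm]
  simp only [← Finset.mul_sum, OB.hb_compl]
  simp

theorem oneK_hb (k u : Tor n) : ∑ v, Mean.oneK u v * OB.hb k v = OB.hb k u := by
  simp [Mean.oneK]

theorem eig (w : ℕ) (β h lam : ℝ) (k u : Tor n) :
    ∑ v, (β * (Mean.tL (edges n) u v + h * Mean.oneK u v - lam * OB.gmat n w u v)) * OB.hb k v =
      (β * (OB.tq k + h - lam * OB.gq w k)) * OB.hb k u := by
  have h1 : ∀ v, (β * (Mean.tL (edges n) u v + h * Mean.oneK u v - lam * OB.gmat n w u v)) *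
      OB.hb k v = β * (OB.tmat n u v * OB.hb k v) + β * h * (Mean.oneK u v * OB.hb k v) -
        β * lam * (OB.gmat n w u v * OB.hb k v) := by
    intro v
    rw [tL_eq_tmat]
    ring
  simp only [h1]
  rw [Finset.sum_sub_distrib, Finset.sum_add_distrib, ← Finset.mul_sum, ← Finset.mul_sum,
    ← Finset.mul_sum, OB.tmat_hb, oneK_hb, OB.gmat_hb]
  ring

theorem trace_exp_tg_le {w : ℕ} {β h lam μ : ℝ} (hβ : 0 < β) (hh : 0 < h) (hlam : 0 ≤ lam)
    (hμ : 12 * lam * (w : ℝ) ^ 2 ≤ μ) (hμ1 : μ ≤ 1) :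
    trace (NormedSpace.exp (-(hcM fun u v : Tor n =>
      β * (Mean.tL (edges n) u v + h * Mean.oneK u v - lam * OB.gmat n w u v)))) ≤
      Real.exp (∑ k : Tor n, -Real.log (1 - Real.exp (-(β * (OB.tq k + h - lam * OB.gq w k))))) := by
  have hal : ∀ k : Tor n, 0 < β * (OB.tq k + h - lam * OB.gq w k) := fun k => by
    obtain ⟨h1, h2⟩ := OB.eig_pos (w := w) hβ hh hlam hμ hμ1 k
    linarith
  have h1 := hcM_trace_le (V := Tor n) (e := OB.hb)
    (al := fun k => β * (OB.tq k + h - lam * OB.gq w k))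
    (a := fun u v => β * (Mean.tL (edges n) u v + h * Mean.oneK u v - lam * OB.gmat n w u v))
    OB.hb_compl OB.hb_orth hal (spec_of_eig fun k u => eig w β h lam k u)
  refine h1.trans (le_of_eq ?_)
  rw [Real.exp_sum]
  refine Finset.prod_congr rfl fun k _ => ?_
  have h2 : Real.exp (-(β * (OB.tq k + h - lam * OB.gq w k))) < 1 := by
    rw [Real.exp_lt_one_iff]
    have := hal k
    linarith
  rw [Real.exp_neg (Real.log _), Real.exp_log (by linarith)]

theorem gmat_symm (w : ℕ) (u v : Tor n) : OB.gmat n w u v = OB.gmat n w v u := by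
  unfold OB.gmat OB.dd
  congr 1
  refine Finset.sum_congr rfl fun z _ => Finset.sum_congr rfl fun a _ =>
    Finset.sum_congr rfl fun b _ => by ring

/-- The variational inequality on the torus with the averaged block reward. -/
theorem mean_ineq_tor (hL : ∀ e ∈ edges n, e.1 ≠ e.2) {w : ℕ} {β h lam μ : ℝ} (hβ : 0 < β)
    (hh : 0 < h) (hlam : 0 ≤ lam) (hμ : 12 * lam * (w : ℝ) ^ 2 ≤ μ) (hμ1 : μ ≤ 1) :
    β * lam * gib (edges n) β (fun _ => h) (hcM (OB.gmat n w)) ≤
      ∑ k : Tor n, -Real.log (1 - Real.exp (-(β * (OB.tq k + h)))) +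
        β * lam * ∑ k : Tor n, 1 / (Real.exp (β * ((1 - μ) * OB.tq k + h)) - 1) -
      (Real.log (Matrix.trace (NormedSpace.exp (-β • ham (edges n) fun _ => h))) -
        β * h * Fintype.card (Tor n) / 2) + β * gib (edges n) β (fun _ => h) (Mean.WL (edges n)) := by
  have h1 := Mean.mean_ineq (edges n) hL β h lam (OB.gmat n w) (gmat_symm w)
    (trace_exp_tg_le hβ hh hlam hμ hμ1)
  have h2 := OB.sum_log_le (n := n) (w := w) hβ hh hlam hμ hμ1
  linarith

end

end Vale.Agent.P361.LRO.S3.MeanB
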