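import Vale.Agent.P361.LRO.Fin.Base
import Vale.Agent.P361.LRO.S3.Iface
import Vale.Agent.P361.LRO.S3.Hc

/-!
P361, stage 3, block (M): translation invariance of the static state in a uniform field, and the
block rewards averaged over all translates.
-/

namespace Vale.Agent.P361.LRO.S3

open Finset Matrix

noncomputable section

section gen

variable {V : Type} [Fintype V] [DecidableEq V]

theorem gib_relab (L : List (V × V)) (g : V ≃ V)
    (hL : ∀ f : V → V → Matrix (V → Fin 2) (V → Fin 2) ℝ,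
      (L.map fun e => f e.1 e.2).sum = (L.map fun e => f (g e.1) (g e.2)).sum)
    (β : ℝ) (h : V → ℝ) (A : Matrix (V → Fin 2) (V → Fin 2) ℝ) :
    gib L β (fun y => h (g y)) (A.submatrix (Bs.relab g) (Bs.relab g)) = gib L β h A := by
  have h1 : (ham L h).submatrix (Bs.relab g) (Bs.relab g) = ham L (fun y => h (g y)) := by
    unfold ham
    rw [Bs.subm_sub]
    congr 1
    · have h2 : ∀ L : List (V × V),
          ((L.map fun e => hM (g e.1) (g e.2)).sum).submatrix (Bs.relab g) (Bs.relab g) =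
            (L.map fun e => hM e.1 e.2).sum := by
        intro L
        induction L with
        | nil => ext i j; rfl
        | cons a L ih =>
          rw [List.map_cons, List.sum_cons, List.map_cons, List.sum_cons, Bs.subm_add, ih,
            Bs.hM_relab]
      conv_lhs => rw [hL hM]
      exact h2 L
    · rw [Bs.subm_sum, ← Equiv.sum_comp g]
      refine Finset.sum_congr rfl fun y _ => ?_
      rw [Bs.subm_smul, Bs.szM_relab]
  have h2 : NormedSpace.exp (-β • ham L (fun y => h (g y))) =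
      (NormedSpace.exp (-β • ham L h)).submatrix (Bs.relab g) (Bs.relab g) := by
    rw [← Bs.exp_submatrix_real, ← h1]
    congr 1
  unfold gib
  rw [h2, Bs.trace_submatrix_real, Matrix.submatrix_mul_equiv, Bs.trace_submatrix_real]

theorem gib_hM_nonneg (L : List (V × V)) (β : ℝ) (h : V → ℝ) (x y : V) :
    0 ≤ gib L β h (hM x y) := Bs.gib_nonneg L β h (Bs.hM_posSemidef x y)

theorem nn_posSemidef (x y : V) : (nM x * nM y).PosSemidef := by
  have h1 : nM x * nM y = Matrix.diagonal fun σ : V → Fin 2 =>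
      (if σ x = 1 then (1 : ℝ) else 0) * (if σ y = 1 then 1 else 0) := by
    unfold nM
    rw [Matrix.diagonal_mul_diagonal]
  rw [h1]
  exact Matrix.PosSemidef.diagonal fun σ => by
    simp only [Pi.zero_apply]
    split_ifs <;> norm_num

theorem gib_nn_nonneg (L : List (V × V)) (β : ℝ) (h : V → ℝ) (x y : V) :
    0 ≤ gib L β h (nM x * nM y) := Bs.gib_nonneg L β h (nn_posSemidef x y)

theorem hM_self (x : V) : hM x x = 0 := by
  unfold hM
  have h1 : swapM x x = 1 := by
    ext σ τ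
    simp only [swapM, Matrix.of_apply, Equiv.swap_self, Matrix.one_apply]
    rfl
  rw [h1, sub_self, smul_zero]

end gen

section torus

variable {n : ℕ} [NeZero n]

theorem gib_hM_translate (β h : ℝ) (x y v : Tor n) :
    gib (edges n) β (fun _ => h) (hM (x + v) (y + v)) = gib (edges n) β (fun _ => h) (hM x y) := by
  have h1 := gib_relab (edges n) (Equiv.addRight v) (fun f => Bs.edges_translate f v) β
    (fun _ => h) (hM (x + v) (y + v))
  have h2 : (hM (x + v) (y + v)).submatrix (Bs.relab (Equiv.addRight v))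
      (Bs.relab (Equiv.addRight v)) = hM x y := Bs.hM_relab (Equiv.addRight v) x y
  rw [h2] at h1
  exact h1.symm

/-- The point `z + a` of the cube. -/
def ptc (z : Tor n) {w : ℕ} (a : Fin 3 → Fin w) : Tor n := z + fun i => ((a i : ℕ) : ZMod n)

omit [NeZero n] in
theorem ptc_injective {w : ℕ} (hw : w ≤ n) (z : Tor n) :
    Function.Injective fun a : Fin 3 → Fin w => ptc z a := by
  intro a b hab
  have h2 := add_left_cancel hab
  funext i
  have h3 := congrFun h2 i
  have h4 : ((a i : ℕ) : ZMod n) = ((b i : ℕ) : ZMod n) := h3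
  rw [ZMod.natCast_eq_natCast_iff'] at h4
  rw [Nat.mod_eq_of_lt ((a i).2.trans_le hw), Nat.mod_eq_of_lt ((b i).2.trans_le hw)] at h4
  exact Fin.ext h4

omit [NeZero n] in
theorem sum_cubeM {w : ℕ} (hw : w ≤ n) {M : Type*} [AddCommMonoid M] (z : Tor n)
    (f : Tor n → M) : ∑ x ∈ cube n z w, f x = ∑ a : Fin 3 → Fin w, f (ptc z a) := by
  unfold cube
  rw [Finset.sum_image]
  · rfl
  · intro a _ b _ hab
    exact ptc_injective hw z hab

omit [NeZero n] in
theorem card_cubeM {w : ℕ} (hw : w ≤ n) (z : Tor n) : (cube n z w).card = w ^ 3 := by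
  rw [Finset.card_eq_sum_ones, sum_cubeM hw, Finset.sum_const, Finset.card_univ, Fintype.card_fun,
    Fintype.card_fin, Fintype.card_fin, smul_eq_mul, mul_one]

theorem gib_CM_eq {w : ℕ} (hw : w ≤ n) (β h : ℝ) (z : Tor n) :
    gib (edges n) β (fun _ => h) (CM (cube n z w)) =
      ∑ a : Fin 3 → Fin w, ∑ b : Fin 3 → Fin w,
        gib (edges n) β (fun _ => h) (hM (ptc z a) (ptc z b)) := by
  unfold CM
  rw [Bs.gib_sum, sum_cubeM hw]
  refine Finset.sum_congr rfl fun a _ => ?_
  rw [Bs.gib_sum, sum_cubeM hw]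

theorem gib_CM_translate {w : ℕ} (hw : w ≤ n) (β h : ℝ) (z z' : Tor n) :
    gib (edges n) β (fun _ => h) (CM (cube n z w)) =
      gib (edges n) β (fun _ => h) (CM (cube n z' w)) := by
  rw [gib_CM_eq hw, gib_CM_eq hw]
  refine Finset.sum_congr rfl fun a _ => Finset.sum_congr rfl fun b _ => ?_
  have h1 : ∀ c : Fin 3 → Fin w, ptc z c = ptc z' c + (z - z') := by
    intro c
    unfold ptc
    abel
  rw [h1 a, h1 b, gib_hM_translate]

/-- The rewards of all translates of the cube together. -/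
theorem yb_eq {w : ℕ} (hw : w ≤ n) (hw0 : 0 < w) (β h : ℝ) (x : Tor n) :
    (n : ℝ) ^ 3 * yb (edges n) β (fun _ => h) (cube n x w) =
      (1 / (w : ℝ) ^ 6) * ∑ z : Tor n, ∑ a : Fin 3 → Fin w, ∑ b : Fin 3 → Fin w,
        gib (edges n) β (fun _ => h) (hM (ptc z a) (ptc z b)) := by
  have h1 : ∀ z : Tor n, ∑ a : Fin 3 → Fin w, ∑ b : Fin 3 → Fin w,
      gib (edges n) β (fun _ => h) (hM (ptc z a) (ptc z b)) =
      gib (edges n) β (fun _ => h) (CM (cube n x w)) := by
    intro z
    rw [← gib_CM_eq hw, gib_CM_translate hw β h z x]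
  simp only [h1, Finset.sum_const, Finset.card_univ, nsmul_eq_mul]
  unfold yb
  rw [card_cubeM hw, Fintype.card_fun, ZMod.card, Fintype.card_fin]
  push_cast
  have : (0 : ℝ) < w := by exact_mod_cast hw0
  field_simp

/-- Sum of the pair terms over the edges. -/
theorem pair_sum_le {β h ρ : ℝ} (hp : ∀ x y : Tor n, x ≠ y →
    gib (edges n) β (fun _ => h) (nM x * nM y) ≤ 8 * ρ ^ 2) (hn : 2 ≤ n) :
    ((edges n).map fun e => gib (edges n) β (fun _ => h) (nM e.1 * nM e.2)).sum ≤
      24 * (n : ℝ) ^ 3 * ρ ^ 2 := by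
  have h1 := Bs.edges_map_sum (n := n)
    (fun x y : Tor n => gib (edges n) β (fun _ => h) (nM x * nM y))
  rw [h1]
  have h2 : ∀ z : Tor n × Fin 3, gib (edges n) β (fun _ => h)
      (nM z.1 * nM (z.1 + Pi.single z.2 1)) ≤ 8 * ρ ^ 2 := by
    intro z
    refine hp _ _ fun hz => ?_
    have : Fact (1 < n) := ⟨hn⟩
    have h2 : (Pi.single z.2 1 : Tor n) = 0 := (left_eq_add.1 hz)
    have h3 := congrFun h2 z.2
    rw [Pi.single_eq_same, Pi.zero_apply] at h3
    exact one_ne_zero h3
  refine (Finset.sum_le_card_nsmul _ _ _ fun z _ => h2 z).trans (le_of_eq ?_)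
  rw [Finset.card_univ, Fintype.card_prod, Fintype.card_fun, ZMod.card, Fintype.card_fin,
    nsmul_eq_mul]
  push_cast
  ring

/-- The density from the bootstrap, uniform field `h`. -/
theorem rho_uniform_of_boot (hB : BootStmt3) : ∃ C7 β0 : ℝ, 0 < C7 ∧ ∀ β : ℝ, β0 ≤ β → ∀ h : ℝ,
    0 < h → β * h ≤ 1 → ∃ n0 : ℕ, ∀ (n : ℕ) [NeZero n], n0 ≤ n → Odd n → ∀ x : Tor n,
      rho (edges n) β (fun _ => h) x ≤ C7 * β ^ (-(3 / 2) : ℝ) := by
  obtain ⟨C7, β0, hC7, H⟩ := hB
  refine ⟨C7, max β0 1, hC7, fun β hβ h hh hβh => ?_⟩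
  have hβ0 : β0 ≤ β := le_trans (le_max_left _ _) hβ
  have hβ1 : 0 < β := lt_of_lt_of_le one_pos (le_trans (le_max_right _ _) hβ)
  obtain ⟨n0, Hn⟩ := H β hβ0
  have hlim : Filter.Tendsto (fun n : ℕ => (n : ℝ) ^ (-(1 / 4) : ℝ)) Filter.atTop
      (nhds 0) :=
    (tendsto_rpow_neg_atTop (by norm_num : (0 : ℝ) < 1 / 4)).comp tendsto_natCast_atTop_atTop
  have hpos : 0 < β * h := by positivity
  obtain ⟨n1, hn1⟩ := Filter.eventually_atTop.1 ((tendsto_order.1 hlim).2 (β * h) hpos)
  refine ⟨max n0 n1, fun n _ hn hodd x => ?_⟩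
  have h1 := Hn n (le_trans (le_max_left _ _) hn) hodd (β * h)
    (hn1 n (le_trans (le_max_right _ _) hn)).le hβh (fun _ => β * h) ?_ x
  · have h2 : (fun _ : Tor n => β * h / β) = fun _ => h := by
      funext _
      field_simp
    simp only [h2] at h1
    exact h1
  · refine ⟨fun _ => ⟨le_rfl, hβh⟩, fun _ _ => ?_⟩
    have e : 0 ≤ β ^ (-(9 / 2) : ℝ) := (Real.rpow_pos_of_pos hβ1 _).le
    have e1 : 1 ≤ Real.exp (β ^ (-(9 / 2) : ℝ)) := Real.one_le_exp e
    constructor <;> nlinarith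

end torus

end

end Vale.Agent.P361.LRO.S3
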