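import Vale.Agent.P361.LRO.S3.OneBody
import Vale.Agent.P361.LRO.S3.MeanInv
import Vale.Agent.P361.LRO.S3.Mean

/-!
P361, stage 3, block (M), item (C): the block rewards averaged over all translates are bounded by
the second quantisation of `gmat` (helper44).
-/

namespace Vale.Agent.P361.LRO.S3

open Finset Matrix

noncomputable section

section gen

variable {V : Type} [Fintype V] [DecidableEq V]

theorem dd_eq_pairK (x y : V) : OB.dd x y = pairK x y := by
  funext u v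
  rfl

theorem gib_hcM_dd (L : List (V × V)) (β : ℝ) (h : V → ℝ) (x y : V) :
    2 * gib L β h (hM x y) ≤ gib L β h (hcM (OB.dd x y)) := by
  rw [dd_eq_pairK]
  by_cases hxy : x = y
  · subst hxy
    have h2 : (pairK x x : V → V → ℝ) = fun _ _ => 0 := by
      funext u v; exact Mean.pairK_self x u v
    rw [h2, Mean.hcM_zero, hM_self]
    simp [gib]
  · rw [hcM_pairK hxy, Mean.gib_add, Mean.gib_smul, Mean.gib_smul]
    have := gib_nn_nonneg L β h x y
    linarith

end gen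

section torus

variable {n : ℕ} [NeZero n]

theorem hcM_gmat (w : ℕ) : hcM (OB.gmat n w) = (1 / (2 * (w : ℝ) ^ 6)) •
    ∑ z : Tor n, ∑ a : Fin 3 → Fin w, ∑ b : Fin 3 → Fin w, hcM (OB.dd (ptc z a) (ptc z b)) := by
  have h0 : OB.gmat n w = fun u v => (1 / (2 * (w : ℝ) ^ 6)) *
      ∑ z : Tor n, ∑ a : Fin 3 → Fin w, ∑ b : Fin 3 → Fin w, OB.dd (ptc z a) (ptc z b) u v := by
    funext u v
    unfold OB.gmat
    rw [div_eq_inv_mul, one_div]
    rfl
  rw [h0, hcM_smul, hcM_sum]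
  congr 1
  refine Finset.sum_congr rfl fun z _ => ?_
  rw [hcM_sum]
  refine Finset.sum_congr rfl fun a _ => ?_
  rw [hcM_sum]

/-- **Item (C)**: `n³ y_b ≤ <dΓ(g)>`. -/
theorem yb_le_gmat {w : ℕ} (hw0 : 1 ≤ w) (hw : w ≤ n) (β h : ℝ) (x : Tor n) :
    (n : ℝ) ^ 3 * yb (edges n) β (fun _ => h) (cube n x w) ≤
      gib (edges n) β (fun _ => h) (hcM (OB.gmat n w)) := by
  rw [yb_eq hw hw0, hcM_gmat, Mean.gib_smul, Mean.gib_sum]
  have h1 : ∀ z : Tor n, 2 * ∑ a : Fin 3 → Fin w, ∑ b : Fin 3 → Fin w,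
      gib (edges n) β (fun _ => h) (hM (ptc z a) (ptc z b)) ≤
      gib (edges n) β (fun _ => h) (∑ a : Fin 3 → Fin w, ∑ b : Fin 3 → Fin w,
        hcM (OB.dd (ptc z a) (ptc z b))) := by
    intro z
    rw [Mean.gib_sum, Finset.mul_sum]
    refine Finset.sum_le_sum fun a _ => ?_
    rw [Mean.gib_sum, Finset.mul_sum]
    exact Finset.sum_le_sum fun b _ => gib_hcM_dd _ _ _ _ _
  have h2 := Finset.sum_le_sum fun (z : Tor n) (_ : z ∈ Finset.univ) => h1 z
  rw [← Finset.mul_sum] at h2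
  have hw6 : (0 : ℝ) < (w : ℝ) ^ 6 := by
    have : (0 : ℝ) < w := by exact_mod_cast hw0
    positivity
  calc (1 / (w : ℝ) ^ 6) * ∑ z : Tor n, ∑ a : Fin 3 → Fin w, ∑ b : Fin 3 → Fin w,
        gib (edges n) β (fun _ => h) (hM (ptc z a) (ptc z b))
      = (1 / (2 * (w : ℝ) ^ 6)) * (2 * ∑ z : Tor n, ∑ a : Fin 3 → Fin w, ∑ b : Fin 3 → Fin w,
        gib (edges n) β (fun _ => h) (hM (ptc z a) (ptc z b))) := by
        field_simp
    _ ≤ _ := mul_le_mul_of_nonneg_left h2 (by positivity)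

end torus

end

end Vale.Agent.P361.LRO.S3
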