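import Vale.Agent.P361.LRO.Tw.OpPart
import Vale.Agent.P361.LRO.Tw.Gibbs
import Vale.Agent.P361.LRO.S3.Iface

/-!
P361, stage 3: conversion between `N_b = J_max - J_b` and the Casimir matrix `CM b`.

`CM b ≤ 2 |b| n_b` and both commute, so `<CM b²> ≤ 4 |b|² <n_b²>`, and the pair bound
`<n_x n_y> ≤ 8 η²` gives `<D_b> ≤ y_b + 16 (8 η² + η / |b|)`.
-/

namespace Vale.Agent.P361.LRO.S3

open Finset Matrix Tw

noncomputable section

open scoped MatrixOrder in
/-- Product of commuting nonnegative matrices. -/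
theorem psd_mul_of_commute {m : Type*} [Fintype m] [DecidableEq m] {A B : Matrix m m ℝ}
    (hA : A.PosSemidef) (hB : B.PosSemidef) (h : Commute A B) : (A * B).PosSemidef := by
  have h1 : 0 ≤ A * B := Commute.mul_nonneg hA.nonneg hB.nonneg h
  exact h1.posSemidef

variable {V : Type} [Fintype V] [DecidableEq V]

/-- The projection on a down spin at `x`. -/
abbrev nX (x : V) : Matrix (V → Fin 2) (V → Fin 2) ℝ := (1 / 2 : ℝ) • (1 - szM x)

/-- `1` if `σ x ≠ σ y`, else `0`. -/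
def neqM (x y : V) : Matrix (V → Fin 2) (V → Fin 2) ℝ :=
  Matrix.diagonal fun σ => if σ x = σ y then 0 else 1

theorem swapM_mul_diagonal (x y : V) (d : (V → Fin 2) → ℝ)
    (hd : ∀ τ, d (τ ∘ Equiv.swap x y) = d τ) :
    swapM x y * Matrix.diagonal d = Matrix.diagonal d * swapM x y := by
  ext σ τ
  rw [Matrix.mul_diagonal, Matrix.diagonal_mul]
  unfold swapM
  simp only [Matrix.of_apply]
  split_ifs with h
  · rw [h, hd]; ring
  · ring

theorem hM_eq_neq (x y : V) : (hM x y : Matrix (V → Fin 2) (V → Fin 2) ℝ) =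
    (1 / 2 : ℝ) • (neqM x y - swapM x y * neqM x y) := by
  unfold hM
  congr 1
  ext σ τ
  unfold neqM
  rw [Matrix.sub_apply, Matrix.sub_apply, Matrix.mul_diagonal, Matrix.diagonal_apply,
    Matrix.one_apply]
  unfold swapM
  simp only [Matrix.of_apply]
  by_cases h : τ x = τ y
  · have hs : τ ∘ Equiv.swap x y = τ := by
      funext z
      simp only [Function.comp_apply]
      by_cases hx : z = x
      · subst hx; rw [Equiv.swap_apply_left, h]
      · by_cases hy : z = y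
        · subst hy; rw [Equiv.swap_apply_right, h]
        · rw [Equiv.swap_apply_of_ne_of_ne hx hy]
    rw [hs, if_pos h]
    by_cases hst : σ = τ
    · subst hst; simp [h]
    · simp [hst]
  · rw [if_neg h]
    by_cases hst : σ = τ
    · subst hst; simp [h]
    · simp [hst]

theorem nX_eq (x : V) : (nX x : Matrix (V → Fin 2) (V → Fin 2) ℝ)
    = Matrix.diagonal fun σ : V → Fin 2 => ((σ x : ℕ) : ℝ) := half_sub_szM x

/-- `h_xy ≤ n_x + n_y`. -/
theorem pair_psd (x y : V) :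
    ((nX x + nX y) - hM x y : Matrix (V → Fin 2) (V → Fin 2) ℝ).PosSemidef := by
  have hc : swapM x y * neqM x y = neqM x y * swapM x y := by
    refine swapM_mul_diagonal x y _ fun τ => ?_
    simp only [Function.comp_apply, Equiv.swap_apply_left, Equiv.swap_apply_right]
    by_cases h : τ x = τ y
    · rw [if_pos h, if_pos h.symm]
    · rw [if_neg h, if_neg (Ne.symm h)]
  have hDD : neqM x y * neqM x y = (neqM x y : Matrix (V → Fin 2) (V → Fin 2) ℝ) := by
    unfold neqM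
    rw [Matrix.diagonal_mul_diagonal]
    congr 1
    funext σ
    split_ifs <;> norm_num
  have hDt : (neqM x y : Matrix (V → Fin 2) (V → Fin 2) ℝ)ᵀ = neqM x y := by
    unfold neqM
    rw [Matrix.diagonal_transpose]
  have hn : (nX x + nX y : Matrix (V → Fin 2) (V → Fin 2) ℝ) =
      neqM x y + Matrix.diagonal fun σ : V → Fin 2 =>
        if σ x = σ y then 2 * ((σ x : ℕ) : ℝ) else 0 := by
    rw [nX_eq, nX_eq]
    unfold neqM
    rw [Matrix.diagonal_add, Matrix.diagonal_add]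
    congr 1
    funext σ
    by_cases h : σ x = σ y
    · rw [if_pos h, if_pos h, h]; ring
    · rw [if_neg h, if_neg h]
      rcases Fin.exists_fin_two.1 ⟨σ x, rfl⟩ with h1 | h1 <;>
        rcases Fin.exists_fin_two.1 ⟨σ y, rfl⟩ with h2 | h2 <;>
        rw [h1, h2] at h ⊢ <;> first | exact absurd rfl h | norm_num
  have key : ((nX x + nX y) - hM x y : Matrix (V → Fin 2) (V → Fin 2) ℝ) =
      (Matrix.diagonal fun σ : V → Fin 2 => if σ x = σ y then 2 * ((σ x : ℕ) : ℝ) else 0) +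
      (1 / 4 : ℝ) • (((1 + swapM x y) * neqM x y)ᴴ * ((1 + swapM x y) * neqM x y)) := by
    rw [Matrix.conjTranspose_eq_transpose_of_trivial, Matrix.transpose_mul, Matrix.transpose_add,
      Matrix.transpose_one, swapM_transpose, hDt, hn, hM_eq_neq]
    have e : neqM x y * (1 + swapM x y) * ((1 + swapM x y) * neqM x y) =
        (2 : ℝ) • (neqM x y + swapM x y * neqM x y : Matrix (V → Fin 2) (V → Fin 2) ℝ) := by
      have e0 : neqM x y * (1 + swapM x y) = (1 + swapM x y) * neqM x y := by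
        rw [mul_add, add_mul, hc, mul_one, one_mul]
      rw [e0, mul_assoc, ← mul_assoc (neqM x y) _ _, e0, mul_assoc _ (neqM x y) (neqM x y), hDD,
        ← mul_assoc]
      have e1 : (1 + swapM x y) * (1 + swapM x y) =
          (2 : ℝ) • (1 + swapM x y : Matrix (V → Fin 2) (V → Fin 2) ℝ) := by
        rw [mul_add, add_mul, add_mul, swapM_mul_self, one_mul, one_mul, mul_one, two_smul]
        abel
      rw [e1, Matrix.smul_mul, add_mul, one_mul]
    rw [e, smul_smul]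
    ext σ τ
    simp only [Matrix.sub_apply, Matrix.add_apply, Matrix.smul_apply, smul_eq_mul]
    ring
  rw [key]
  refine Matrix.PosSemidef.add ?_ ?_
  · refine Matrix.PosSemidef.diagonal fun σ => ?_
    simp only [Pi.zero_apply]
    split_ifs
    · positivity
    · exact le_rfl
  · exact (Matrix.posSemidef_conjTranspose_mul_self _).smul (by norm_num)

theorem two_card_NM_sub_CM (b : Finset V) :
    ((2 * (b.card : ℝ)) • NM b - CM b : Matrix (V → Fin 2) (V → Fin 2) ℝ).PosSemidef := by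
  have e : ((2 * (b.card : ℝ)) • NM b - CM b : Matrix (V → Fin 2) (V → Fin 2) ℝ) =
      ∑ x ∈ b, ∑ y ∈ b, ((nX x + nX y) - hM x y) := by
    simp only [Finset.sum_sub_distrib, Finset.sum_add_distrib]
    unfold CM
    congr 1
    rw [Finset.sum_congr rfl (fun x _ => Finset.sum_const (nX x)), Finset.sum_const,
      ← Finset.smul_sum, ← NM_eq_sum, two_mul, add_smul, Nat.cast_smul_eq_nsmul]
  rw [e]
  exact Matrix.posSemidef_sum _ fun x _ => Matrix.posSemidef_sum _ fun y _ => pair_psd x y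

theorem NM_posSemidef (b : Finset V) : (NM b : Matrix (V → Fin 2) (V → Fin 2) ℝ).PosSemidef := by
  unfold NM
  refine Matrix.PosSemidef.diagonal fun σ => ?_
  simp only [Pi.zero_apply]
  positivity

theorem CM_posSemidef (b : Finset V) : (CM b : Matrix (V → Fin 2) (V → Fin 2) ℝ).PosSemidef :=
  Matrix.posSemidef_sum _ fun x _ => Matrix.posSemidef_sum _ fun y _ => hM_posSemidef x y

theorem dn_swap (b : Finset V) {x y : V} (hx : x ∈ b) (hy : y ∈ b) (τ : V → Fin 2) :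
    dn b (τ ∘ Equiv.swap x y) = dn b τ := by
  unfold dn
  refine Finset.sum_bij (fun z _ => Equiv.swap x y z) ?_ ?_ ?_ ?_
  · intro z hz
    by_cases h1 : z = x
    · subst h1; rwa [Equiv.swap_apply_left]
    · by_cases h2 : z = y
      · subst h2; rwa [Equiv.swap_apply_right]
      · rwa [Equiv.swap_apply_of_ne_of_ne h1 h2]
  · intro z _ z' _ h
    exact (Equiv.swap x y).injective h
  · intro z hz
    refine ⟨Equiv.swap x y z, ?_, Equiv.swap_apply_self x y z⟩
    by_cases h1 : z = x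
    · subst h1; rwa [Equiv.swap_apply_left]
    · by_cases h2 : z = y
      · subst h2; rwa [Equiv.swap_apply_right]
      · rwa [Equiv.swap_apply_of_ne_of_ne h1 h2]
  · intro z _
    rfl

theorem commute_NM_CM (b : Finset V) :
    Commute (NM b : Matrix (V → Fin 2) (V → Fin 2) ℝ) (CM b) := by
  unfold CM
  refine Commute.sum_right _ _ _ fun x hx => Commute.sum_right _ _ _ fun y hy => ?_
  unfold hM
  refine Commute.smul_right ?_ _
  refine (Commute.one_right _).sub_right ?_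
  unfold NM
  exact (swapM_mul_diagonal x y _ fun τ => by rw [dn_swap b hx hy]).symm

/-- `CM b² ≤ 4 |b|² n_b²`. -/
theorem CM_sq_psd (b : Finset V) :
    ((4 * (b.card : ℝ) ^ 2) • (NM b * NM b) - CM b * CM b :
      Matrix (V → Fin 2) (V → Fin 2) ℝ).PosSemidef := by
  have hcom := commute_NM_CM b
  have e : ((4 * (b.card : ℝ) ^ 2) • (NM b * NM b) - CM b * CM b :
      Matrix (V → Fin 2) (V → Fin 2) ℝ) =
      ((2 * (b.card : ℝ)) • NM b - CM b) * ((2 * (b.card : ℝ)) • NM b + CM b) := by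
    rw [sub_mul, mul_add, mul_add, Matrix.smul_mul, Matrix.smul_mul, Matrix.mul_smul,
      Matrix.mul_smul, ← hcom.eq, smul_smul]
    have : (2 * (b.card : ℝ)) * (2 * b.card) = 4 * (b.card : ℝ) ^ 2 := by ring
    rw [this]
    abel
  rw [e]
  refine psd_mul_of_commute (two_card_NM_sub_CM b) ?_ ?_
  · exact ((NM_posSemidef b).smul (by positivity)).add (CM_posSemidef b)
  · have h1 : Commute ((2 * (b.card : ℝ)) • NM b) (CM b) := hcom.smul_left _
    exact (((Commute.refl _).add_right h1).sub_left (h1.symm.add_right (Commute.refl _)))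

/-! ### Gibbs state -/

theorem gib_nonneg (L : List (V × V)) (β : ℝ) (h : V → ℝ)
    {A : Matrix (V → Fin 2) (V → Fin 2) ℝ} (hA : A.PosSemidef) : 0 ≤ gib L β h A :=
  div_nonneg (tr_mul_nonneg (expH_psd L β h) hA) (trace_expH_pos L β h).le

theorem gib_sub (L : List (V × V)) (β : ℝ) (h : V → ℝ)
    (A B : Matrix (V → Fin 2) (V → Fin 2) ℝ) : gib L β h (A - B) = gib L β h A - gib L β h B := by
  unfold gib
  rw [Matrix.mul_sub, Matrix.trace_sub, sub_div]

theorem gib_smul' (L : List (V × V)) (β : ℝ) (h : V → ℝ) (c : ℝ)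
    (A : Matrix (V → Fin 2) (V → Fin 2) ℝ) : gib L β h (c • A) = c * gib L β h A := by
  unfold gib
  rw [Matrix.mul_smul, Matrix.trace_smul, smul_eq_mul, mul_div_assoc]

theorem gib_sum' {ι : Type*} (L : List (V × V)) (β : ℝ) (h : V → ℝ) (s : Finset ι)
    (A : ι → Matrix (V → Fin 2) (V → Fin 2) ℝ) :
    gib L β h (∑ i ∈ s, A i) = ∑ i ∈ s, gib L β h (A i) := by
  unfold gib
  rw [Matrix.mul_sum, Matrix.trace_sum, Finset.sum_div]

/-- `<CM b²> ≤ 4 |b|² ∑_{x,y in b} <n_x n_y>`. -/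
theorem gib_CM_sq_le (L : List (V × V)) (β : ℝ) (h : V → ℝ) (b : Finset V) :
    gib L β h (CM b * CM b) ≤
      4 * (b.card : ℝ) ^ 2 * ∑ x ∈ b, ∑ y ∈ b, gib L β h (nX x * nX y) := by
  have h1 := gib_nonneg L β h (CM_sq_psd b)
  rw [gib_sub, gib_smul'] at h1
  have h2 : gib L β h (NM b * NM b) = ∑ x ∈ b, ∑ y ∈ b, gib L β h (nX x * nX y) := by
    rw [NM_eq_sum, Finset.sum_mul_sum, gib_sum']
    refine Finset.sum_congr rfl fun x _ => ?_
    rw [gib_sum']
  rw [← h2]
  linarith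

theorem gib_nX_sq (L : List (V × V)) (β : ℝ) (h : V → ℝ) (x : V) :
    gib L β h (nX x * nX x) = rho L β h x := by
  have e : (nX x * nX x : Matrix (V → Fin 2) (V → Fin 2) ℝ) = nX x := by
    rw [nX_eq, Matrix.diagonal_mul_diagonal]
    congr 1
    funext σ
    rcases Fin.exists_fin_two.1 ⟨σ x, rfl⟩ with h1 | h1 <;> rw [h1] <;> norm_num
  rw [e]
  rfl

/-- `<CM b²> ≤ 4 |b|⁴ (8 η² + η / |b|)`. -/
theorem gib_CM_sq_le' (L : List (V × V)) (β : ℝ) (h : V → ℝ) {b : Finset V} (hb : b.Nonempty)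
    {η : ℝ} (hρ : ∀ x ∈ b, rho L β h x ≤ η)
    (hP : ∀ x ∈ b, ∀ y ∈ b, x ≠ y → gib L β h (nX x * nX y) ≤ 8 * η ^ 2) :
    gib L β h (CM b * CM b) ≤ 4 * (b.card : ℝ) ^ 4 * (8 * η ^ 2 + η / b.card) := by
  have hcard : (0 : ℝ) < b.card := by exact_mod_cast hb.card_pos
  refine (gib_CM_sq_le L β h b).trans ?_
  have h1 : ∀ x ∈ b, ∑ y ∈ b, gib L β h (nX x * nX y) ≤ η + b.card * (8 * η ^ 2) := by
    intro x hx
    rw [← Finset.add_sum_erase _ _ hx, gib_nX_sq]
    refine add_le_add (hρ x hx) ?_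
    calc ∑ y ∈ b.erase x, gib L β h (nX x * nX y) ≤ ∑ _y ∈ b.erase x, 8 * η ^ 2 :=
          Finset.sum_le_sum fun y hy => hP x hx y (Finset.mem_of_mem_erase hy)
            (Finset.ne_of_mem_erase hy).symm
      _ = ((b.erase x).card : ℝ) * (8 * η ^ 2) := by rw [Finset.sum_const, nsmul_eq_mul]
      _ ≤ b.card * (8 * η ^ 2) := by
          refine mul_le_mul_of_nonneg_right ?_ (by positivity)
          exact_mod_cast Finset.card_le_card (Finset.erase_subset _ _)
  have h2 : ∑ x ∈ b, ∑ y ∈ b, gib L β h (nX x * nX y) ≤ b.card * (η + b.card * (8 * η ^ 2)) := by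
    calc _ ≤ ∑ _x ∈ b, (η + b.card * (8 * η ^ 2)) := Finset.sum_le_sum h1
      _ = _ := by rw [Finset.sum_const, nsmul_eq_mul]
  refine (mul_le_mul_of_nonneg_left h2 (by positivity)).trans (le_of_eq ?_)
  field_simp
  ring

section Law

variable {ι : Type} [Fintype ι] {μ : ι → ℝ} {r : ι → ℕ}

/-- Second moment of `D = r / |b|` in terms of the square of the Casimir matrix. -/
theorem second_moment_le (L : List (V × V)) (β : ℝ) (h : V → ℝ) {b : Finset V} (hb : b.Nonempty)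
    (hμ : ∀ i, 0 ≤ μ i) (hr : ∀ i, 2 * r i ≤ b.card)
    (hpol : ∀ P : Polynomial ℝ, ∑ i, μ i * P.eval ((r i : ℝ) * ((b.card : ℝ) - r i + 1)) =
        gib L β h (Polynomial.aeval (CM b) P)) :
    ∑ i, μ i * ((r i : ℝ) / b.card) ^ 2 ≤ 4 * gib L β h (CM b * CM b) / (b.card : ℝ) ^ 4 := by
  have hcard : (0 : ℝ) < b.card := by exact_mod_cast hb.card_pos
  have h2 := hpol (Polynomial.X ^ 2)
  rw [map_pow, Polynomial.aeval_X, pow_two (CM b)] at h2
  rw [← h2]
  rw [mul_div_assoc, Finset.sum_div, Finset.mul_sum]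
  refine Finset.sum_le_sum fun i _ => ?_
  have hri : (2 : ℝ) * r i ≤ b.card := by exact_mod_cast hr i
  have hr0 : (0 : ℝ) ≤ r i := Nat.cast_nonneg _
  rw [Polynomial.eval_pow, Polynomial.eval_X]
  have h3 : (r i : ℝ) * b.card ≤ 2 * ((r i : ℝ) * ((b.card : ℝ) - r i + 1)) := by nlinarith
  have h4 : ((r i : ℝ) / b.card) ^ 2 ≤
      4 * (((r i : ℝ) * ((b.card : ℝ) - r i + 1)) ^ 2 / (b.card : ℝ) ^ 4) := by
    rw [div_pow, ← mul_div_assoc, div_le_div_iff₀ (by positivity) (by positivity)]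
    have h5 : ((r i : ℝ) * b.card) ^ 2 ≤ (2 * ((r i : ℝ) * ((b.card : ℝ) - r i + 1))) ^ 2 :=
      pow_le_pow_left₀ (by positivity) h3 2
    have h6 : (0 : ℝ) ≤ (b.card : ℝ) ^ 2 := by positivity
    nlinarith [mul_le_mul_of_nonneg_right h5 h6]
  calc μ i * ((r i : ℝ) / b.card) ^ 2 ≤
        μ i * (4 * (((r i : ℝ) * ((b.card : ℝ) - r i + 1)) ^ 2 / (b.card : ℝ) ^ 4)) :=
        mul_le_mul_of_nonneg_left h4 (hμ i)
    _ = _ := by ring

/-- `m = <D_b> ≤ y_b + <D_b²>`. -/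
theorem mean_le_yb (L : List (V × V)) (β : ℝ) (h : V → ℝ) {b : Finset V} (hb : b.Nonempty)
    (hμ : ∀ i, 0 ≤ μ i)
    (hpol : ∀ P : Polynomial ℝ, ∑ i, μ i * P.eval ((r i : ℝ) * ((b.card : ℝ) - r i + 1)) =
        gib L β h (Polynomial.aeval (CM b) P)) :
    (∑ i, μ i * (r i : ℝ)) / b.card ≤ yb L β h b + ∑ i, μ i * ((r i : ℝ) / b.card) ^ 2 := by
  have hcard : (0 : ℝ) < b.card := by exact_mod_cast hb.card_pos
  have h1 := hpol Polynomial.X
  rw [Polynomial.aeval_X] at h1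
  unfold yb
  rw [← h1, Finset.sum_div, Finset.sum_div, ← Finset.sum_add_distrib]
  refine Finset.sum_le_sum fun i _ => ?_
  have hr0 : (0 : ℝ) ≤ r i := Nat.cast_nonneg _
  rw [Polynomial.eval_X]
  have e : μ i * ((r i : ℝ) * ((b.card : ℝ) - r i + 1)) / (b.card : ℝ) ^ 2 +
      μ i * ((r i : ℝ) / b.card) ^ 2 = μ i * (r i : ℝ) / b.card +
        μ i * r i / (b.card : ℝ) ^ 2 := by
    field_simp
    ring
  rw [e]
  have : 0 ≤ μ i * r i / (b.card : ℝ) ^ 2 := by
    have := mul_nonneg (hμ i) hr0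
    positivity
  linarith

/-- **Conversion.** `<D_b> ≤ y_b + 16 (8 η² + η / |b|)`. -/
theorem mean_le (L : List (V × V)) (β : ℝ) (h : V → ℝ) {b : Finset V} (hb : b.Nonempty)
    (hμ : ∀ i, 0 ≤ μ i) (hr : ∀ i, 2 * r i ≤ b.card)
    (hpol : ∀ P : Polynomial ℝ, ∑ i, μ i * P.eval ((r i : ℝ) * ((b.card : ℝ) - r i + 1)) =
        gib L β h (Polynomial.aeval (CM b) P))
    {η : ℝ} (hρ : ∀ x ∈ b, rho L β h x ≤ η)
    (hP : ∀ x ∈ b, ∀ y ∈ b, x ≠ y → gib L β h (nX x * nX y) ≤ 8 * η ^ 2) :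
    (∑ i, μ i * (r i : ℝ)) / b.card ≤ yb L β h b + 16 * (8 * η ^ 2 + η / b.card) := by
  have hcard : (0 : ℝ) < b.card := by exact_mod_cast hb.card_pos
  have h1 := mean_le_yb L β h hb hμ hpol
  have h2 := second_moment_le L β h hb hμ hr hpol
  have h3 := gib_CM_sq_le' L β h hb hρ hP
  have h4 : 4 * gib L β h (CM b * CM b) / (b.card : ℝ) ^ 4 ≤ 16 * (8 * η ^ 2 + η / b.card) := by
    rw [div_le_iff₀ (by positivity)]
    linarith
  linarith

/-- Second moment of `D_b` from the pair bound. -/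
theorem second_moment_le' (L : List (V × V)) (β : ℝ) (h : V → ℝ) {b : Finset V}
    (hb : b.Nonempty)
    (hμ : ∀ i, 0 ≤ μ i) (hr : ∀ i, 2 * r i ≤ b.card)
    (hpol : ∀ P : Polynomial ℝ, ∑ i, μ i * P.eval ((r i : ℝ) * ((b.card : ℝ) - r i + 1)) =
        gib L β h (Polynomial.aeval (CM b) P))
    {η : ℝ} (hρ : ∀ x ∈ b, rho L β h x ≤ η)
    (hP : ∀ x ∈ b, ∀ y ∈ b, x ≠ y → gib L β h (nX x * nX y) ≤ 8 * η ^ 2) :
    ∑ i, μ i * ((r i : ℝ) / b.card) ^ 2 ≤ 16 * (8 * η ^ 2 + η / b.card) := by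
  have hcard : (0 : ℝ) < b.card := by exact_mod_cast hb.card_pos
  have h2 := second_moment_le L β h hb hμ hr hpol
  have h3 := gib_CM_sq_le' L β h hb hρ hP
  have h4 : 4 * gib L β h (CM b * CM b) / (b.card : ℝ) ^ 4 ≤ 16 * (8 * η ^ 2 + η / b.card) := by
    rw [div_le_iff₀ (by positivity)]
    linarith
  linarith

/-- Upper tail of `D_b`. -/
theorem upper_tail_le (L : List (V × V)) (β : ℝ) (h : V → ℝ) {b : Finset V}
    (hb : b.Nonempty)
    (hμ : ∀ i, 0 ≤ μ i) (hr : ∀ i, 2 * r i ≤ b.card)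
    (hpol : ∀ P : Polynomial ℝ, ∑ i, μ i * P.eval ((r i : ℝ) * ((b.card : ℝ) - r i + 1)) =
        gib L β h (Polynomial.aeval (CM b) P))
    {η : ℝ} (hρ : ∀ x ∈ b, rho L β h x ≤ η)
    (hP : ∀ x ∈ b, ∀ y ∈ b, x ≠ y → gib L β h (nX x * nX y) ≤ 8 * η ^ 2) {s : ℝ} (hs : 0 < s) :
    (∑ i, if s * b.card < (r i : ℝ) then μ i else 0) ≤
      16 * (8 * η ^ 2 + η / b.card) / s ^ 2 := by
  have hcard : (0 : ℝ) < b.card := by exact_mod_cast hb.card_pos
  have h2 := second_moment_le' L β h hb hμ hr hpol hρ hP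
  rw [le_div_iff₀ (by positivity)]
  refine le_trans ?_ h2
  rw [Finset.sum_mul]
  refine Finset.sum_le_sum fun i _ => ?_
  split_ifs with hi
  · refine mul_le_mul_of_nonneg_left ?_ (hμ i)
    have : s ≤ (r i : ℝ) / b.card := by
      rw [le_div_iff₀ hcard]
      exact hi.le
    exact pow_le_pow_left₀ hs.le this 2
  · rw [zero_mul]
    exact mul_nonneg (hμ i) (sq_nonneg _)

end Law

end

end Vale.Agent.P361.LRO.S3
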