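import Vale.Agent.P361.LRO.S3.MeanConv
import Vale.Agent.P361.LRO.S3.PairIneq

/-!
P361, stage 3: `MeanConv.lean` with the pair inequality inserted.
-/

namespace Vale.Agent.P361.LRO.S3

open Finset Matrix

noncomputable section

variable {V : Type} [Fintype V] [DecidableEq V] {ι : Type} [Fintype ι] {μ : ι → ℝ} {r : ι → ℕ}

/-- `<D_b> ≤ y_b + 16 (8 η² + η / |b|)`. -/
theorem mean_le_of_rho (L : List (V × V)) {β : ℝ} (hβ : 0 < β) {h : V → ℝ} (hh : ∀ x, 0 ≤ h x)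
    {b : Finset V} (hb : b.Nonempty) (hμ : ∀ i, 0 ≤ μ i) (hr : ∀ i, 2 * r i ≤ b.card)
    (hpol : ∀ P : Polynomial ℝ, ∑ i, μ i * P.eval ((r i : ℝ) * ((b.card : ℝ) - r i + 1)) =
        gib L β h (Polynomial.aeval (CM b) P))
    {η : ℝ} (hη : η ≤ 1 / 4) (hρ : ∀ x ∈ b, rho L β h x ≤ η) :
    (∑ i, μ i * (r i : ℝ)) / b.card ≤ yb L β h b + 16 * (8 * η ^ 2 + η / b.card) :=
  mean_le L β h hb hμ hr hpol hρ fun x hx y hy hxy =>
    PairS.pair_le L hβ hh hxy hη (hρ x hx) (hρ y hy)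

/-- `<D_b²> ≤ 16 (8 η² + η / |b|)`. -/
theorem second_moment_le_of_rho (L : List (V × V)) {β : ℝ} (hβ : 0 < β) {h : V → ℝ}
    (hh : ∀ x, 0 ≤ h x) {b : Finset V} (hb : b.Nonempty) (hμ : ∀ i, 0 ≤ μ i)
    (hr : ∀ i, 2 * r i ≤ b.card)
    (hpol : ∀ P : Polynomial ℝ, ∑ i, μ i * P.eval ((r i : ℝ) * ((b.card : ℝ) - r i + 1)) =
        gib L β h (Polynomial.aeval (CM b) P))
    {η : ℝ} (hη : η ≤ 1 / 4) (hρ : ∀ x ∈ b, rho L β h x ≤ η) :
    ∑ i, μ i * ((r i : ℝ) / b.card) ^ 2 ≤ 16 * (8 * η ^ 2 + η / b.card) :=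
  second_moment_le' L β h hb hμ hr hpol hρ fun x hx y hy hxy =>
    PairS.pair_le L hβ hh hxy hη (hρ x hx) (hρ y hy)

/-- Upper tail of `D_b`. -/
theorem upper_tail_le_of_rho (L : List (V × V)) {β : ℝ} (hβ : 0 < β) {h : V → ℝ}
    (hh : ∀ x, 0 ≤ h x) {b : Finset V} (hb : b.Nonempty) (hμ : ∀ i, 0 ≤ μ i)
    (hr : ∀ i, 2 * r i ≤ b.card)
    (hpol : ∀ P : Polynomial ℝ, ∑ i, μ i * P.eval ((r i : ℝ) * ((b.card : ℝ) - r i + 1)) =
        gib L β h (Polynomial.aeval (CM b) P))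
    {η : ℝ} (hη : η ≤ 1 / 4) (hρ : ∀ x ∈ b, rho L β h x ≤ η) {s : ℝ} (hs : 0 < s) :
    (∑ i, if s * b.card < (r i : ℝ) then μ i else 0) ≤
      16 * (8 * η ^ 2 + η / b.card) / s ^ 2 :=
  upper_tail_le L β h hb hμ hr hpol hρ (fun x hx y hy hxy =>
    PairS.pair_le L hβ hh hxy hη (hρ x hx) (hρ y hy)) hs

/-- `y_b ≤ <D_b> (1 + 1/|b|)`; together with `mean_le_of_rho` the two means agree to leading
order. -/
theorem yb_le_mean (L : List (V × V)) (β : ℝ) (h : V → ℝ) {b : Finset V} (hb : b.Nonempty)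
    (hμ : ∀ i, 0 ≤ μ i)
    (hpol : ∀ P : Polynomial ℝ, ∑ i, μ i * P.eval ((r i : ℝ) * ((b.card : ℝ) - r i + 1)) =
        gib L β h (Polynomial.aeval (CM b) P)) :
    yb L β h b ≤ (∑ i, μ i * (r i : ℝ)) / b.card * (1 + 1 / b.card) := by
  have hcard : (0 : ℝ) < b.card := by exact_mod_cast hb.card_pos
  have h1 := hpol Polynomial.X
  rw [Polynomial.aeval_X] at h1
  unfold yb
  rw [← h1, div_mul_eq_mul_div, Finset.sum_div, Finset.sum_mul, Finset.sum_div]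
  refine Finset.sum_le_sum fun i _ => ?_
  have hr0 : (0 : ℝ) ≤ r i := Nat.cast_nonneg _
  rw [Polynomial.eval_X]
  rw [div_le_div_iff₀ (by positivity) hcard]
  have e1 : μ i * (r i : ℝ) * (1 + 1 / b.card) * (b.card : ℝ) ^ 2 =
      μ i * r i * (b.card + 1) * b.card := by
    field_simp
  rw [e1]
  have := mul_nonneg (hμ i) hr0
  have h3 := mul_nonneg this hr0
  nlinarith

end

end Vale.Agent.P361.LRO.S3
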