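import Vale.Agent.P361.B.Asym

/-!
P361 stage 3: ideal Bose gas sums over the dual torus `Fin 3 → ZMod m`, explicit in `m`.

`tK m k = ∑ j, (1 - cos (2π k_j / m))`; `n` is the spin parameter (`n = 2 S`).
* `tor_log_le`  : `∑_k -log (1 - exp (-(β n t(k) + s))) ≤ bosSer n m β s`;
* `tor_dens_le` : `∑_k 1 / (exp (β n t(k) + s) - 1) ≤ densSer n m β s`;
* `densSer_le`  : asymptotics of `densSer` (the one of `bosSer` is `B.bosSer_le`).
-/

namespace Vale.Agent.P361.LRO.S3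

open MeasureTheory Filter Topology Vale.Agent.P361.B
open Vale.Agent.P361 (H.bJ H.bJ_nonneg)

/-- Dispersion on the dual torus. -/
noncomputable def tK (m : ℕ) (k : Fin 3 → ZMod m) : ℝ :=
  ∑ j, (1 - Real.cos (2 * Real.pi * ((k j).val : ℝ) / m))

theorem tK_nonneg (m : ℕ) (k : Fin 3 → ZMod m) : 0 ≤ tK m k :=
  Finset.sum_nonneg fun j _ => by
    have := Real.cos_le_one (2 * Real.pi * ((k j).val : ℝ) / m)
    linarith

theorem riemann_upper_real {L : ℝ} (hL' : 0 < L) {t : ℝ} (ht : 0 ≤ t) {M : ℕ} (hM : (M : ℝ) ≤ L) :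
    ∑ i ∈ Finset.range M, Real.exp (-t * (1 - Real.cos (Real.pi * ((i + 1 : ℕ) : ℝ) / L))) ≤
      L * H.bJ t := by
  set f : ℝ → ℝ := fun x => Real.exp (-t * (1 - Real.cos (Real.pi * x / L))) with hf
  have hanti : AntitoneOn f (Set.Icc 0 (0 + (M : ℝ))) := by
    intro x hx y hy hxy
    simp only [hf]
    apply Real.exp_le_exp.2
    rw [zero_add] at hx hy
    have h1 : Real.cos (Real.pi * y / L) ≤ Real.cos (Real.pi * x / L) := by
      refine Real.cos_le_cos_of_nonneg_of_le_pi ?_ ?_ ?_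
      · have := hx.1; have := Real.pi_pos; positivity
      · rw [div_le_iff₀ hL']
        exact mul_le_mul_of_nonneg_left (hy.2.trans hM) Real.pi_pos.le
      · gcongr
    nlinarith
  have h1 := hanti.sum_le_integral
  simp only [zero_add] at h1
  have hcont : Continuous f := by
    simp only [hf]; fun_prop
  have h2 : ∫ x in (0 : ℝ)..M, f x ≤ ∫ x in (0 : ℝ)..L, f x := by
    have h3 : ∫ x in (0 : ℝ)..L, f x = (∫ x in (0 : ℝ)..M, f x) + ∫ x in (M : ℝ)..L, f x :=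
      (intervalIntegral.integral_add_adjacent_intervals (hcont.intervalIntegrable _ _)
        (hcont.intervalIntegrable _ _)).symm
    have h4 : 0 ≤ ∫ x in (M : ℝ)..L, f x :=
      intervalIntegral.integral_nonneg hM fun x _ => (Real.exp_pos _).le
    linarith
  have h3 : ∫ x in (0 : ℝ)..L, f x = L * H.bJ t := by
    have h4 : ∀ x, f x = (fun θ => Real.exp (-t * (1 - Real.cos θ))) (Real.pi / L * x) := by
      intro x
      simp only [hf]
      congr 4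
      ring
    have hc : Real.pi / L ≠ 0 := by have := Real.pi_pos; positivity
    rw [intervalIntegral.integral_congr (fun x _ => h4 x),
      intervalIntegral.integral_comp_mul_left (fun θ => Real.exp (-t * (1 - Real.cos θ))) hc,
      mul_zero, H.bJ, smul_eq_mul]
    have h5 : Real.pi / L * L = Real.pi := by field_simp
    rw [h5]
    field_simp
  calc _ ≤ ∫ x in (0 : ℝ)..M, f x := h1
    _ ≤ _ := h2
    _ = _ := h3

theorem sum_range_three {m M1 M2 : ℕ} (hm : m = M1 + M2 + 1) (g : ℕ → ℝ) :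
    ∑ p ∈ Finset.range m, g p = g 0 + ∑ i ∈ Finset.range M1, g (i + 1) +
      ∑ i ∈ Finset.range M2, g (m - (i + 1)) := by
  subst hm
  rw [Finset.sum_range_succ', Finset.sum_range_add, add_comm, add_assoc]
  congr 1
  congr 1
  rw [← Finset.sum_range_reflect]
  refine Finset.sum_congr rfl fun i hi => ?_
  have := Finset.mem_range.1 hi
  congr 1
  omega

/-- One-dimensional torus sum. -/
theorem tor_one_dim (m : ℕ) [NeZero m] {a : ℝ} (ha : 0 ≤ a) :
    ∑ p : ZMod m, Real.exp (-a * (1 - Real.cos (2 * Real.pi * (p.val : ℝ) / m))) ≤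
      1 + m * H.bJ a := by
  have hm0 : 0 < m := Nat.pos_of_ne_zero (NeZero.ne m)
  have hmR : (0 : ℝ) < m := by exact_mod_cast hm0
  set g : ℕ → ℝ := fun p => Real.exp (-a * (1 - Real.cos (2 * Real.pi * (p : ℝ) / m))) with hg
  have h0 : ∑ p : ZMod m, Real.exp (-a * (1 - Real.cos (2 * Real.pi * (p.val : ℝ) / m))) =
      ∑ p ∈ Finset.range m, g p := by
    obtain ⟨k, rfl⟩ : ∃ k, m = k + 1 := ⟨m - 1, by omega⟩
    rw [← Fin.sum_univ_eq_sum_range]
    rfl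
  rw [h0]
  have hsplit := sum_range_three (m := m) (M1 := m / 2) (M2 := m - 1 - m / 2) (by omega) g
  rw [hsplit]
  have hL : (0 : ℝ) < (m : ℝ) / 2 := by positivity
  have e1 : ∀ i : ℕ, g (i + 1) =
      Real.exp (-a * (1 - Real.cos (Real.pi * ((i + 1 : ℕ) : ℝ) / ((m : ℝ) / 2)))) := by
    intro i
    simp only [hg]
    congr 4
    field_simp
  have e2 : ∀ i ∈ Finset.range (m - 1 - m / 2), g (m - (i + 1)) =
      Real.exp (-a * (1 - Real.cos (Real.pi * ((i + 1 : ℕ) : ℝ) / ((m : ℝ) / 2)))) := by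
    intro i hi
    have hi' := Finset.mem_range.1 hi
    simp only [hg]
    congr 3
    rw [Nat.cast_sub (by omega)]
    rw [show 2 * Real.pi * ((m : ℝ) - ((i + 1 : ℕ) : ℝ)) / m =
      2 * Real.pi - Real.pi * ((i + 1 : ℕ) : ℝ) / ((m : ℝ) / 2) by field_simp,
      Real.cos_two_pi_sub]
  have g0 : g 0 = 1 := by simp [hg]
  rw [g0, Finset.sum_congr rfl fun i _ => e1 i, Finset.sum_congr rfl e2]
  have h1 := riemann_upper_real hL ha (M := m / 2) (by
    rw [le_div_iff₀ (by norm_num)]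
    exact_mod_cast Nat.div_mul_le_self m 2)
  have h2 := riemann_upper_real hL ha (M := m - 1 - m / 2) (by
    rw [le_div_iff₀ (by norm_num)]
    have : (m - 1 - m / 2) * 2 ≤ m := by omega
    exact_mod_cast this)
  linarith

/-- Three-dimensional torus sum. -/
theorem tor_three_dim (m : ℕ) [NeZero m] {a : ℝ} (ha : 0 ≤ a) :
    ∑ k : Fin 3 → ZMod m, Real.exp (-(a * tK m k)) ≤ (1 + m * H.bJ a) ^ 3 := by
  have h1 : ∀ k : Fin 3 → ZMod m, Real.exp (-(a * tK m k)) =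
      ∏ j, Real.exp (-a * (1 - Real.cos (2 * Real.pi * ((k j).val : ℝ) / m))) := by
    intro k
    rw [← Real.exp_sum, tK, Finset.mul_sum, ← Finset.sum_neg_distrib]
    congr 1
    exact Finset.sum_congr rfl fun j _ => by ring
  have h2 : ∑ k : Fin 3 → ZMod m, Real.exp (-(a * tK m k)) =
      (∑ p : ZMod m, Real.exp (-a * (1 - Real.cos (2 * Real.pi * (p.val : ℝ) / m)))) ^ 3 := by
    rw [Finset.sum_congr rfl fun k _ => h1 k]
    have := (Finset.prod_univ_sum (fun _ : Fin 3 => (Finset.univ : Finset (ZMod m)))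
      (fun _ p => Real.exp (-a * (1 - Real.cos (2 * Real.pi * (p.val : ℝ) / m))))).symm
    rw [Fintype.piFinset_univ] at this
    rw [this, Finset.prod_const, Finset.card_univ, Fintype.card_fin]
  rw [h2]
  exact pow_le_pow_left₀ (Finset.sum_nonneg fun _ _ => (Real.exp_pos _).le) (tor_one_dim m ha) 3

/-- Ideal pressure on the torus. -/
theorem tor_log_le {n : ℕ} (m : ℕ) [NeZero m] {β s : ℝ} (hβ : 0 ≤ β) (hs : 0 < s) :
    ∑ k : Fin 3 → ZMod m, -Real.log (1 - Real.exp (-(β * (n * tK m k) + s))) ≤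
      bosSer n m β s := by
  set q : (Fin 3 → ZMod m) → ℝ := fun k => Real.exp (-(β * (n * tK m k) + s)) with hq
  have hq0 : ∀ k, 0 < q k := fun k => Real.exp_pos _
  have hq1 : ∀ k, q k < 1 := by
    intro k
    simp only [hq]
    rw [Real.exp_lt_one_iff]
    have : 0 ≤ β * (n * tK m k) := mul_nonneg hβ (mul_nonneg (by positivity) (tK_nonneg m k))
    linarith
  have h2 : HasSum (fun j : ℕ => ∑ k, q k ^ (j + 1) / ((j : ℝ) + 1))
      (∑ k, - Real.log (1 - q k)) := by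
    refine hasSum_sum fun k _ => ?_
    exact Real.hasSum_pow_div_log_of_abs_lt_one (by rw [abs_of_pos (hq0 k)]; exact hq1 k)
  rw [← h2.tsum_eq, bosSer]
  refine h2.summable.tsum_le_tsum (fun j => ?_) (bosSer_summable n m hβ hs)
  have h3 : ∑ k, q k ^ (j + 1) / ((j : ℝ) + 1) = Real.exp (-(((j : ℝ) + 1) * s)) / ((j : ℝ) + 1) *
      ∑ k : Fin 3 → ZMod m, Real.exp (-((((j : ℝ) + 1) * (n * β)) * tK m k)) := by
    rw [Finset.mul_sum]
    refine Finset.sum_congr rfl fun k _ => ?_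
    simp only [hq]
    have e7 : Real.exp (-(β * (n * tK m k) + s)) ^ (j + 1) =
        Real.exp (-(((j : ℝ) + 1) * s)) *
          Real.exp (-((((j : ℝ) + 1) * (n * β)) * tK m k)) := by
      rw [← Real.exp_nat_mul, ← Real.exp_add]
      congr 1
      push_cast
      ring
    rw [e7]
    ring
  rw [h3]
  exact mul_le_mul_of_nonneg_left (tor_three_dim m (by positivity)) (by positivity)

/-- Free boson density series. -/
noncomputable def densSer (n L : ℕ) (β s : ℝ) : ℝ :=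
  ∑' j : ℕ, Real.exp (-(((j : ℝ) + 1) * s)) *
    (1 + L * H.bJ (((j : ℝ) + 1) * (n * β))) ^ 3

theorem hasSum_exp {s : ℝ} (hs : 0 < s) :
    HasSum (fun r : ℕ => Real.exp (-(((r : ℝ) + 1) * s))) (1 / (Real.exp s - 1)) := by
  have hlt : Real.exp (-s) < 1 := by rw [Real.exp_lt_one_iff]; linarith
  have h2 := (hasSum_geometric_of_lt_one (Real.exp_pos (-s)).le hlt).mul_left (Real.exp (-s))
  have e1 : Real.exp (-s) * (1 - Real.exp (-s))⁻¹ = 1 / (Real.exp s - 1) := by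
    have h3 : Real.exp s * Real.exp (-s) = 1 := by rw [← Real.exp_add]; simp
    have h4 : 1 < Real.exp s := by rw [Real.one_lt_exp_iff]; exact hs
    have h5 : 0 < 1 - Real.exp (-s) := by linarith
    rw [eq_div_iff (by linarith), ← div_eq_mul_inv, div_mul_eq_mul_div, div_eq_iff h5.ne']
    linear_combination h3
  rw [e1] at h2
  have e2 : (fun r : ℕ => Real.exp (-(((r : ℝ) + 1) * s))) =
      fun r : ℕ => Real.exp (-s) * Real.exp (-s) ^ r := by
    ext1 r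
    rw [← Real.exp_nat_mul, ← Real.exp_add]
    congr 1; ring
  rw [e2]
  exact h2

theorem densSer_summable (n L : ℕ) {β s : ℝ} (hβ : 0 ≤ β) (hs : 0 < s) :
    Summable fun j : ℕ => Real.exp (-(((j : ℝ) + 1) * s)) *
    (1 + L * H.bJ (((j : ℝ) + 1) * (n * β))) ^ 3 := by
  refine Summable.of_nonneg_of_le (fun j => ?_) (fun j => ?_)
    ((hasSum_exp hs).summable.mul_right ((1 + (L : ℝ)) ^ 3))
  · have := H.bJ_nonneg (((j : ℝ) + 1) * (n * β))
    positivity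
  · refine mul_le_mul_of_nonneg_left ?_ (Real.exp_pos _).le
    have hb := H.bJ_nonneg (((j : ℝ) + 1) * (n * β))
    refine pow_le_pow_left₀ (by positivity) ?_ 3
    have h3 := bJ_le_one (t := ((j : ℝ) + 1) * (n * β)) (by positivity)
    have : (L : ℝ) * H.bJ (((j : ℝ) + 1) * (n * β)) ≤ L * 1 :=
      mul_le_mul_of_nonneg_left h3 (by positivity)
    linarith

/-- Ideal density on the torus. -/
theorem tor_dens_le {n : ℕ} (m : ℕ) [NeZero m] {β s : ℝ} (hβ : 0 ≤ β) (hs : 0 < s) :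
    ∑ k : Fin 3 → ZMod m, 1 / (Real.exp (β * (n * tK m k) + s) - 1) ≤ densSer n m β s := by
  have hpos : ∀ k : Fin 3 → ZMod m, 0 < β * (n * tK m k) + s := by
    intro k
    have : 0 ≤ β * (n * tK m k) := mul_nonneg hβ (mul_nonneg (by positivity) (tK_nonneg m k))
    linarith
  have h2 : HasSum (fun j : ℕ => ∑ k : Fin 3 → ZMod m,
      Real.exp (-(((j : ℝ) + 1) * (β * (n * tK m k) + s))))
      (∑ k : Fin 3 → ZMod m, 1 / (Real.exp (β * (n * tK m k) + s) - 1)) :=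
    hasSum_sum fun k _ => hasSum_exp (hpos k)
  rw [← h2.tsum_eq, densSer]
  refine h2.summable.tsum_le_tsum (fun j => ?_) (densSer_summable n m hβ hs)
  have h3 : ∑ k : Fin 3 → ZMod m, Real.exp (-(((j : ℝ) + 1) * (β * (n * tK m k) + s))) =
      Real.exp (-(((j : ℝ) + 1) * s)) *
      ∑ k : Fin 3 → ZMod m, Real.exp (-((((j : ℝ) + 1) * (n * β)) * tK m k)) := by
    rw [Finset.mul_sum]
    refine Finset.sum_congr rfl fun k _ => ?_
    rw [← Real.exp_add]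
    congr 1
    ring
  rw [h3]
  exact mul_le_mul_of_nonneg_left (tor_three_dim m (by positivity)) (by positivity)

/-- Asymptotics of the free boson density. -/
theorem densSer_le {n : ℕ} (hn : 1 ≤ n) : ∃ C : ℝ, 0 ≤ C ∧ ∀ β : ℝ, 448 ≤ β → ∀ L : ℕ, 0 < L →
    ∀ s : ℝ, 0 < s →
    Real.sqrt β ^ 3 / (L : ℝ) ^ 3 * densSer n L β s ≤
    fS ((n : ℝ) / 2) s + C / β +
      C * (Real.sqrt β / L + β / (L : ℝ) ^ 2 + Real.sqrt β ^ 3 / (L : ℝ) ^ 3) / s := by
  set A := Real.sqrt (4 * Real.pi * ((n : ℝ) / 2)) with hA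
  have hnR : (1 : ℝ) ≤ n := by exact_mod_cast hn
  have hpi := Real.pi_pos
  have hA0 : 0 < A := Real.sqrt_pos.2 (by positivity)
  have haS0 : 0 ≤ aS ((n : ℝ) / 2) := by
    rw [← fS_zero]; exact fS_nonneg _ _
  refine ⟨7 * 448 * aS ((n : ℝ) / 2) + 12 * (A ^ 2)⁻¹ + 6 * A⁻¹ + 1, by positivity, ?_⟩
  intro β hβ L hL s hs
  have hβ0 : 0 < β := by linarith
  have hLR : (0 : ℝ) < L := by exact_mod_cast hL
  have hsb : 0 < Real.sqrt β := Real.sqrt_pos.2 hβ0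
  have h1 := ((densSer_summable n L hβ0.le hs).hasSum).mul_left (Real.sqrt β ^ 3 / (L : ℝ) ^ 3)
  have hgeo := hasSum_exp hs
  have hF := (summable_f hs.le).hasSum
  have h2 := (((hF.mul_left ((A ^ 3)⁻¹ * (1 + 7 * (448 / β)))).add
    (hgeo.mul_left (12 * (A ^ 2)⁻¹ * (Real.sqrt β / L)))).add
    (hgeo.mul_left (6 * A⁻¹ * (β / (L : ℝ) ^ 2)))).add
    (hgeo.mul_left (Real.sqrt β ^ 3 / (L : ℝ) ^ 3))
  have h3 := hasSum_le (fun r => ?_) h1 h2
  · refine h3.trans ?_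
    have e1 : (A ^ 3)⁻¹ * ∑' r : ℕ, Real.exp (-(((r : ℝ) + 1) * s)) /
        Real.sqrt ((r : ℝ) + 1) ^ 3 = fS ((n : ℝ) / 2) s := rfl
    have e2 : (A ^ 3)⁻¹ * (1 + 7 * (448 / β)) * ∑' r : ℕ, Real.exp (-(((r : ℝ) + 1) * s)) /
        Real.sqrt ((r : ℝ) + 1) ^ 3 = fS ((n : ℝ) / 2) s +
        7 * 448 * fS ((n : ℝ) / 2) s * (1 / β) := by
      rw [← e1]; ring
    have e3 := fS_le ((n : ℝ) / 2) hs.le
    have e4 : 7 * 448 * fS ((n : ℝ) / 2) s * (1 / β) ≤ 7 * 448 * aS ((n : ℝ) / 2) * (1 / β) := by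
      refine mul_le_mul_of_nonneg_right ?_ (by positivity)
      linarith
    have e5 : 1 / (Real.exp s - 1) ≤ 1 / s := by
      refine one_div_le_one_div_of_le hs ?_
      linarith [Real.add_one_le_exp s]
    have p1 : 0 ≤ 12 * (A ^ 2)⁻¹ := by positivity
    have p2 : 0 ≤ 6 * A⁻¹ := by positivity
    have p3 : 0 ≤ 7 * 448 * aS ((n : ℝ) / 2) := by positivity
    have q1 : 0 ≤ 1 / β := by positivity
    have q2 : 0 ≤ Real.sqrt β / L := by positivity
    have q3 : 0 ≤ β / (L : ℝ) ^ 2 := by positivity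
    have q4 : 0 ≤ Real.sqrt β ^ 3 / (L : ℝ) ^ 3 := by positivity
    have q5 : 0 ≤ 1 / s := by positivity
    rw [e2]
    generalize 1 / (Real.exp s - 1) = G at e5 ⊢
    have f1 : 12 * (A ^ 2)⁻¹ * (Real.sqrt β / L) * G ≤ 12 * (A ^ 2)⁻¹ * (Real.sqrt β / L) * (1 / s) :=
      mul_le_mul_of_nonneg_left e5 (by positivity)
    have f2 : 6 * A⁻¹ * (β / (L : ℝ) ^ 2) * G ≤ 6 * A⁻¹ * (β / (L : ℝ) ^ 2) * (1 / s) :=
      mul_le_mul_of_nonneg_left e5 (by positivity)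
    have f3 : Real.sqrt β ^ 3 / (L : ℝ) ^ 3 * G ≤ Real.sqrt β ^ 3 / (L : ℝ) ^ 3 * (1 / s) :=
      mul_le_mul_of_nonneg_left e5 (by positivity)
    have e6 : (7 * 448 * aS ((n : ℝ) / 2) + 12 * (A ^ 2)⁻¹ + 6 * A⁻¹ + 1) / β =
        (7 * 448 * aS ((n : ℝ) / 2) + 12 * (A ^ 2)⁻¹ + 6 * A⁻¹ + 1) * (1 / β) := by ring
    have e7 : (7 * 448 * aS ((n : ℝ) / 2) + 12 * (A ^ 2)⁻¹ + 6 * A⁻¹ + 1) *
        (Real.sqrt β / L + β / (L : ℝ) ^ 2 + Real.sqrt β ^ 3 / (L : ℝ) ^ 3) / s =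
        (7 * 448 * aS ((n : ℝ) / 2) + 12 * (A ^ 2)⁻¹ + 6 * A⁻¹ + 1) *
        (Real.sqrt β / L + β / (L : ℝ) ^ 2 + Real.sqrt β ^ 3 / (L : ℝ) ^ 3) * (1 / s) := by ring
    rw [e6, e7]
    generalize 12 * (A ^ 2)⁻¹ = P1 at *
    generalize 6 * A⁻¹ = P2 at *
    generalize 7 * 448 * aS ((n : ℝ) / 2) = P3 at *
    generalize Real.sqrt β / L = Q2 at *
    generalize β / (L : ℝ) ^ 2 = Q3 at *
    generalize Real.sqrt β ^ 3 / (L : ℝ) ^ 3 = Q4 at *
    generalize 1 / β = Q1 at *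
    generalize 1 / s = Q5 at *
    have g1 : 0 ≤ P1 * Q1 := mul_nonneg p1 q1
    have g2 : 0 ≤ P2 * Q1 := mul_nonneg p2 q1
    have g3 : 0 ≤ P3 * (Q2 + Q3 + Q4) * Q5 := by positivity
    have g4 : 0 ≤ P1 * (Q3 + Q4) * Q5 := by positivity
    have g5 : 0 ≤ P2 * (Q2 + Q4) * Q5 := by positivity
    have g6 : 0 ≤ (Q2 + Q3) * Q5 := by positivity
    have k1 : (P3 + P1 + P2 + 1) * (Q2 + Q3 + Q4) * Q5 = P1 * Q2 * Q5 + P2 * Q3 * Q5 + Q4 * Q5 +
        (P3 * (Q2 + Q3 + Q4) * Q5 + P1 * (Q3 + Q4) * Q5 + P2 * (Q2 + Q4) * Q5 +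
          (Q2 + Q3) * Q5) := by ring
    have k2 : (P3 + P1 + P2 + 1) * Q1 = P3 * Q1 + (P1 * Q1 + P2 * Q1 + Q1) := by ring
    rw [k1, k2]
    linarith
  · -- termwise
    have hr1 : (1 : ℝ) ≤ (r : ℝ) + 1 := by linarith [Nat.cast_nonneg (α := ℝ) r]
    have hsr : 0 < Real.sqrt ((r : ℝ) + 1) := Real.sqrt_pos.2 (by positivity)
    have hsr1 : 1 ≤ Real.sqrt ((r : ℝ) + 1) := by rw [Real.one_le_sqrt]; exact hr1
    rw [mul_left_comm]
    have h4 := mul_le_mul_of_nonneg_left (order_bound hn hβ hL r)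
      (a := Real.exp (-(((r : ℝ) + 1) * s))) (by positivity)
    refine h4.trans ?_
    rw [← hA]
    have hE0 := Real.exp_pos (-(((r : ℝ) + 1) * s))
    set e := Real.exp (-(((r : ℝ) + 1) * s)) with he
    rw [mul_add, mul_add, mul_add]
    have i1 : 1 / Real.sqrt ((r : ℝ) + 1) ≤ 1 := by rw [div_le_one hsr]; exact hsr1
    have i2 : 1 / Real.sqrt ((r : ℝ) + 1) ^ 2 ≤ 1 := by
      rw [div_le_one (by positivity)]; exact one_le_pow₀ hsr1
    refine add_le_add (add_le_add (add_le_add ?_ ?_) ?_) ?_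
    · apply le_of_eq
      field_simp
    · have : e * (12 * (A ^ 2)⁻¹ * (Real.sqrt β / L) *
          (1 / Real.sqrt ((r : ℝ) + 1) ^ 2)) = (12 * (A ^ 2)⁻¹ * (Real.sqrt β / L) * e) *
          (1 / Real.sqrt ((r : ℝ) + 1) ^ 2) := by ring
      rw [this]
      exact mul_le_of_le_one_right (by positivity) i2
    · have : e * (6 * A⁻¹ * (β / (L : ℝ) ^ 2) *
          (1 / Real.sqrt ((r : ℝ) + 1))) = (6 * A⁻¹ * (β / (L : ℝ) ^ 2) * e) *
          (1 / Real.sqrt ((r : ℝ) + 1)) := by ring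
      rw [this]
      exact mul_le_of_le_one_right (by positivity) i1
    · rw [mul_comm]

/-- Torus pressure, final form. -/
theorem tor_log_asymp {n : ℕ} (hn : 1 ≤ n) : ∃ C : ℝ, 0 ≤ C ∧ ∀ β : ℝ, 448 ≤ β →
    ∀ (m : ℕ) [NeZero m] (s : ℝ), 0 < s →
    Real.sqrt β ^ 3 / (m : ℝ) ^ 3 *
      ∑ k : Fin 3 → ZMod m, -Real.log (1 - Real.exp (-(β * (n * tK m k) + s))) ≤
    FS ((n : ℝ) / 2) s + C * (1 / β + Real.sqrt β / m + β / (m : ℝ) ^ 2) +
      Real.sqrt β ^ 3 / (m : ℝ) ^ 3 / s := by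
  obtain ⟨C, hC, h⟩ := bosSer_le hn
  refine ⟨C, hC, fun β hβ m _ s hs => ?_⟩
  refine le_trans (mul_le_mul_of_nonneg_left (tor_log_le m (by linarith) hs) (by positivity)) ?_
  exact h β hβ m (Nat.pos_of_ne_zero (NeZero.ne m)) s hs

/-- Torus density, final form. -/
theorem tor_dens_asymp {n : ℕ} (hn : 1 ≤ n) : ∃ C : ℝ, 0 ≤ C ∧ ∀ β : ℝ, 448 ≤ β →
    ∀ (m : ℕ) [NeZero m] (s : ℝ), 0 < s →
    Real.sqrt β ^ 3 / (m : ℝ) ^ 3 *
      ∑ k : Fin 3 → ZMod m, 1 / (Real.exp (β * (n * tK m k) + s) - 1) ≤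
    fS ((n : ℝ) / 2) s + C / β +
      C * (Real.sqrt β / m + β / (m : ℝ) ^ 2 + Real.sqrt β ^ 3 / (m : ℝ) ^ 3) / s := by
  obtain ⟨C, hC, h⟩ := densSer_le hn
  refine ⟨C, hC, fun β hβ m _ s hs => ?_⟩
  refine le_trans (mul_le_mul_of_nonneg_left (tor_dens_le m (by linarith) hs) (by positivity)) ?_
  exact h β hβ m (Nat.pos_of_ne_zero (NeZero.ne m)) s hs

/-- The finite size errors vanish as `m → ∞`. -/
theorem err_tendsto (β C s : ℝ) : Tendsto (fun m : ℕ =>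
    C * (Real.sqrt β / m + β / (m : ℝ) ^ 2 + Real.sqrt β ^ 3 / (m : ℝ) ^ 3) / s) atTop (𝓝 0) := by
  have h1 : Tendsto (fun m : ℕ => Real.sqrt β / (m : ℝ)) atTop (𝓝 0) :=
    tendsto_const_div_atTop_nhds_zero_nat _
  have h2 : Tendsto (fun m : ℕ => β / (m : ℝ) ^ 2) atTop (𝓝 0) :=
    tendsto_const_nhds.div_atTop
      ((tendsto_pow_atTop (by norm_num)).comp tendsto_natCast_atTop_atTop)
  have h3 : Tendsto (fun m : ℕ => Real.sqrt β ^ 3 / (m : ℝ) ^ 3) atTop (𝓝 0) :=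
    tendsto_const_nhds.div_atTop
      ((tendsto_pow_atTop (by norm_num)).comp tendsto_natCast_atTop_atTop)
  have h4 := (((h1.add h2).add h3).const_mul C).div_const s
  simpa using h4

/-- Density: for each `β` and `s`, all large tori. -/
theorem tor_dens_eventually {n : ℕ} (hn : 1 ≤ n) : ∃ C : ℝ, 0 ≤ C ∧ ∀ β : ℝ, 448 ≤ β →
    ∀ s : ℝ, 0 < s → ∀ ε : ℝ, 0 < ε → ∀ᶠ m : ℕ in atTop, ∀ [NeZero m],
    Real.sqrt β ^ 3 / (m : ℝ) ^ 3 *
      ∑ k : Fin 3 → ZMod m, 1 / (Real.exp (β * (n * tK m k) + s) - 1) ≤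
    fS ((n : ℝ) / 2) s + C / β + ε := by
  obtain ⟨C, hC, h⟩ := tor_dens_asymp hn
  refine ⟨C, hC, fun β hβ s hs ε hε => ?_⟩
  filter_upwards [(err_tendsto β C s).eventually (ge_mem_nhds hε)] with m hm
  intro _
  have := h β hβ m s hs
  linarith

/-- Pressure: for each `β` and `s`, all large tori. -/
theorem tor_log_eventually {n : ℕ} (hn : 1 ≤ n) : ∃ C : ℝ, 0 ≤ C ∧ ∀ β : ℝ, 448 ≤ β →
    ∀ s : ℝ, 0 < s → ∀ ε : ℝ, 0 < ε → ∀ᶠ m : ℕ in atTop, ∀ [NeZero m],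
    Real.sqrt β ^ 3 / (m : ℝ) ^ 3 *
      ∑ k : Fin 3 → ZMod m, -Real.log (1 - Real.exp (-(β * (n * tK m k) + s))) ≤
    FS ((n : ℝ) / 2) s + C / β + ε := by
  obtain ⟨C, hC, h⟩ := tor_log_asymp hn
  refine ⟨C, hC, fun β hβ s hs ε hε => ?_⟩
  have h1 : Tendsto (fun m : ℕ => C * (Real.sqrt β / m + β / (m : ℝ) ^ 2) +
      Real.sqrt β ^ 3 / (m : ℝ) ^ 3 / s) atTop (𝓝 0) := by
    have g1 : Tendsto (fun m : ℕ => Real.sqrt β / (m : ℝ)) atTop (𝓝 0) :=
      tendsto_const_div_atTop_nhds_zero_nat _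
    have g2 : Tendsto (fun m : ℕ => β / (m : ℝ) ^ 2) atTop (𝓝 0) :=
      tendsto_const_nhds.div_atTop
        ((tendsto_pow_atTop (by norm_num)).comp tendsto_natCast_atTop_atTop)
    have g3 : Tendsto (fun m : ℕ => Real.sqrt β ^ 3 / (m : ℝ) ^ 3) atTop (𝓝 0) :=
      tendsto_const_nhds.div_atTop
        ((tendsto_pow_atTop (by norm_num)).comp tendsto_natCast_atTop_atTop)
    have g4 := ((g1.add g2).const_mul C).add (g3.div_const s)
    simpa using g4
  filter_upwards [h1.eventually (ge_mem_nhds hε)] with m hm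
  intro _
  have := h β hβ m s hs
  have e : C * (1 / β + Real.sqrt β / m + β / (m : ℝ) ^ 2) =
      C / β + C * (Real.sqrt β / m + β / (m : ℝ) ^ 2) := by ring
  rw [e] at this
  linarith

end Vale.Agent.P361.LRO.S3
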