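import Vale.Agent.P361.LRO.S3.Iface
import Vale.Agent.P361.LRO.S3.Mean
import Vale.Agent.P361.LRO.S3.OneBody
import Vale.Agent.P361.LRO.S3.TorSum
import Vale.Agent.P361.LRO.S3.TorLow
import Vale.Agent.P361.LRO.S3.Fock

/-!
P361, stage 3, block (M): the sharp mean of `C_b / |b|²` on large tori (helper836).
Assembly of the variational inequality, the momentum sums and the free energy bound.
-/

set_option linter.unusedSectionVars false

namespace Vale.Agent.P361.LRO.S3.Mean

open Finset Matrix Filter Topology OB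

noncomputable section

/-- (B): free gas bound for the torus. -/
def HB : Prop := ∀ (n : ℕ) [NeZero n] (w : ℕ) (β h lam μ : ℝ), 0 < β → 0 < h → 0 ≤ lam →
  12 * lam * (w : ℝ) ^ 2 ≤ μ → μ < 1 →
  Matrix.trace (NormedSpace.exp (-(hcM fun u v =>
    β * (tL (edges n) u v + h * oneK u v - lam * gmat n w u v)))) ≤
    Real.exp (∑ k : Tor n, -Real.log (1 - Real.exp (-(β * (tq k + h - lam * gq w k)))))

/-- (C): translation average. -/
def HC : Prop := ∀ (n : ℕ) [NeZero n] (w : ℕ) (β h : ℝ), 1 ≤ w → w ≤ n → 3 ≤ n → 0 < β →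
  ∀ x : Tor n, (n : ℝ) ^ 3 * yb (edges n) β (fun _ => h) (cube n x w) ≤
    gib (edges n) β (fun _ => h) (hcM (gmat n w))

/-- (D): pair bound. -/
def HD : Prop := ∀ (n : ℕ) [NeZero n] (β h η : ℝ), 3 ≤ n → 0 < β → 0 ≤ h → h ≤ 1 → 0 ≤ η →
  η ≤ 1 / 4 → (∀ x : Tor n, rho (edges n) β (fun _ => h) x ≤ η) →
  gib (edges n) β (fun _ => h) (WL (edges n)) ≤ 24 * (n : ℝ) ^ 3 * η ^ 2

variable {n : ℕ} [NeZero n]

theorem gmat_symm (n : ℕ) [NeZero n] (w : ℕ) (u v : Tor n) : gmat n w u v = gmat n w v u := by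
  unfold gmat
  congr 1
  refine Finset.sum_congr rfl fun z _ => Finset.sum_congr rfl fun a _ =>
    Finset.sum_congr rfl fun b _ => ?_
  unfold dd
  ring

theorem edges_ne {n : ℕ} [NeZero n] (hn : 3 ≤ n) : ∀ e ∈ edges n, e.1 ≠ e.2 := by
  intro e he
  unfold edges at he
  obtain ⟨z, _, rfl⟩ := List.mem_map.1 he
  intro h
  have h1 := congrFun h z.2
  simp only [Pi.add_apply, Pi.single_eq_same] at h1
  have h2 : (1 : ZMod n) = 0 := by
    have : z.1 z.2 + 0 = z.1 z.2 + 1 := by rw [add_zero]; exact h1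
    exact (add_left_cancel this).symm
  have : Fact (1 < n) := ⟨by omega⟩
  exact one_ne_zero h2

theorem kernel_eq {A : Tor n → Tor n → ℝ} {al : Tor n → ℝ}
    (h : ∀ k u, ∑ v, A u v * hb k v = al k * hb k u) (u v : Tor n) :
    A u v = ∑ k, al k * (hb k u * hb k v) := by
  calc A u v = ∑ v', A u v' * ∑ k, hb k v' * hb k v := by
        simp only [hb_compl]
        simp
    _ = ∑ k, ∑ v', A u v' * (hb k v' * hb k v) := by
        simp only [Finset.mul_sum]
        exact Finset.sum_comm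
    _ = ∑ k, al k * (hb k u * hb k v) := by
        refine Finset.sum_congr rfl fun k _ => ?_
        rw [← mul_assoc, ← h k u, Finset.sum_mul]
        exact Finset.sum_congr rfl fun v' _ => by ring

theorem tL_eq_tmat (u v : Tor n) : tL (edges n) u v = tmat n u v := by
  unfold tL tmat
  have h1 : (fun e : Tor n × Tor n => pairK e.1 e.2 u v) =
      fun e : Tor n × Tor n => dd e.1 e.2 u v := by
    funext e
    rfl
  rw [h1]
  ring

theorem holds_B : HB := by
  intro n _ w β h lam μ hβ hh hlam hμ hμ1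
  set al : Tor n → ℝ := fun k => β * (tq k + h - lam * gq w k) with hal
  have hpos : ∀ k, 0 < al k := fun k =>
    lt_of_lt_of_le (eig_pos hβ hh hlam hμ hμ1.le k).2 (eig_pos hβ hh hlam hμ hμ1.le k).1
  have hK : (fun u v => β * (tL (edges n) u v + h * oneK u v - lam * gmat n w u v)) =
      fun u v => ∑ k, al k * (hb k u * hb k v) := by
    funext u v
    refine kernel_eq (n := n) (A := fun u v =>
      β * (tL (edges n) u v + h * oneK u v - lam * gmat n w u v)) (fun k u => ?_) u v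
    have e1 : ∀ v, β * (tL (edges n) u v + h * oneK u v - lam * gmat n w u v) * hb k v =
        β * (tmat n u v * hb k v) + β * h * (oneK u v * hb k v) -
          β * lam * (gmat n w u v * hb k v) := by
      intro v
      rw [tL_eq_tmat]
      ring
    simp only [e1]
    rw [Finset.sum_sub_distrib, Finset.sum_add_distrib, ← Finset.mul_sum, ← Finset.mul_sum,
      ← Finset.mul_sum, tmat_hb, gmat_hb]
    have e2 : ∑ v, oneK u v * hb k v = hb k u := by
      simp [oneK]
    rw [e2, hal]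
    ring
  rw [hK]
  refine (Fock.trace_exp_hcM_le ⟨fun x y => hb_compl x y, fun k l => hb_orth k l⟩ hpos).trans ?_
  rw [Real.exp_sum]
  refine le_of_eq (Finset.prod_congr rfl fun k _ => ?_)
  have h1 : 0 < 1 - Real.exp (-al k) := by
    have : Real.exp (-al k) < 1 := by
      rw [Real.exp_lt_one_iff]
      linarith [hpos k]
    linarith
  rw [Real.exp_neg (Real.log (1 - Real.exp (-al k))), Real.exp_log h1]

/-- One inequality at finite `n`. -/
theorem finite_ineq (hB : HB) (hC : HC) (hD : HD) {n : ℕ} [NeZero n] {w : ℕ} {β h lam μ η : ℝ}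
    (hn : 3 ≤ n) (hw : 1 ≤ w) (hwn : w ≤ n) (hβ : 0 < β) (hh : 0 < h) (hh1 : h ≤ 1)
    (hlam : 0 ≤ lam) (hμ : 12 * lam * (w : ℝ) ^ 2 ≤ μ) (hμ1 : μ < 1) (hη : 0 ≤ η)
    (hη4 : η ≤ 1 / 4) (hrho : ∀ x : Tor n, rho (edges n) β (fun _ => h) x ≤ η) (x : Tor n) :
    β * lam * ((n : ℝ) ^ 3 * yb (edges n) β (fun _ => h) (cube n x w)) ≤
      ∑ k : Tor n, -Real.log (1 - Real.exp (-(β * (tq k + h)))) +
        β * lam * ∑ k : Tor n, 1 / (Real.exp (β * ((1 - μ) * tq k + h)) - 1) -
        logZ n β h + β * (24 * (n : ℝ) ^ 3 * η ^ 2) := by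
  have h1 := mean_ineq (edges n) (edges_ne hn) β h lam (gmat n w) (gmat_symm n w)
    (hB n w β h lam μ hβ hh hlam hμ hμ1)
  have h2 := sum_log_le (n := n) (w := w) (β := β) (h := h) (lam := lam) (μ := μ) hβ hh hlam hμ
    hμ1.le
  have h3 := mul_le_mul_of_nonneg_left (hC n w β h hw hwn hn hβ x)
    (mul_nonneg hβ.le hlam)
  have h4 := mul_le_mul_of_nonneg_left (hD n β h η hn hβ hh.le hh1 hη hη4 hrho) hβ.le
  have h5 : (Fintype.card (Tor n) : ℝ) = (n : ℝ) ^ 3 := by
    rw [Fintype.card_fun, ZMod.card, Fintype.card_fin]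
    push_cast
    ring
  have h6 : Real.log (Matrix.trace (NormedSpace.exp (-β • ham (edges n) fun _ => h))) -
      β * h * Fintype.card (Tor n) / 2 = logZ n β h := by
    rw [h5]
    unfold logZ
    ring
  rw [h6] at h1
  linarith

end

end Vale.Agent.P361.LRO.S3.Mean
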