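import Vale.Agent.P361.LRO.S3.MeanNum

/-!
P361 stage 3, block (M): the numbers, final forms (with the landed lower bound of the pressure in
the form of `TorLow.logZ_lower`, and with the split right-hand side of `MeanMain.finite_ineq`).
-/

namespace Vale.Agent.P361.LRO.S3

open Filter Topology Vale.Agent.P361.B

theorem lz_conv {K β h lZ M : ℝ} (hK : 1 ≤ K) (hKβ : K ≤ β) (h0 : 0 ≤ h)
    (hh : h ≤ β ^ (-(10 : ℝ))) (hM : 0 < M)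
    (hl : ((1 - K / β) * FS (1 / 2) (β * h) / Real.sqrt β ^ 3 - (Real.sqrt β ^ 3)⁻¹ / β) * M ≤ lZ) :
    β ^ (-(3 / 2) : ℝ) * (FS (1 / 2) 0 - (K * FS (1 / 2) 0 + aS (1 / 2) + 1) * β ^ (-(1 : ℝ))) ≤
      lZ / M := by
  have hβ1 : 1 ≤ β := hK.trans hKβ
  have hβp : 0 < β := by linarith
  have hX0 : 0 < (Real.sqrt β ^ 3)⁻¹ := by have := Real.sqrt_pos.2 hβp; positivity
  have h1 : ((1 - K / β) * FS (1 / 2) (β * h) / Real.sqrt β ^ 3 - (Real.sqrt β ^ 3)⁻¹ / β) ≤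
      lZ / M := by rw [le_div_iff₀ hM]; exact hl
  refine le_trans ?_ h1
  rw [rpow_neg_three_half hβp, Real.rpow_neg_one]
  have e : (1 - K / β) * FS (1 / 2) (β * h) / Real.sqrt β ^ 3 - (Real.sqrt β ^ 3)⁻¹ / β =
      (Real.sqrt β ^ 3)⁻¹ * ((1 - K / β) * FS (1 / 2) (β * h) - 1 / β) := by
    rw [div_eq_mul_inv _ (Real.sqrt β ^ 3)]; ring
  rw [e]
  refine mul_le_mul_of_nonneg_left ?_ hX0.le
  have hbh : β * h ≤ 1 / β := by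
    rw [le_div_iff₀ hβp]
    have h2 : β * h * β ≤ β * β ^ (-(10 : ℝ)) * β :=
      mul_le_mul_of_nonneg_right (mul_le_mul_of_nonneg_left hh hβp.le) hβp.le
    have h3 : β * β ^ (-(10 : ℝ)) * β = β ^ (-(8 : ℝ)) := by
      have h4 : ∀ x : ℝ, β * x * β = β ^ (1 : ℝ) * x * β ^ (1 : ℝ) := fun x => by
        rw [Real.rpow_one]
      rw [h4, ← Real.rpow_add hβp, ← Real.rpow_add hβp]
      norm_num
    have h5 : β ^ (-(8 : ℝ)) ≤ 1 := Real.rpow_le_one_of_one_le_of_nonpos hβ1 (by norm_num)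
    linarith
  have hge := FS_ge (s := β * h) (mul_nonneg hβp.le h0) (1 / 2)
  have hle := FS_mono_zero (mul_nonneg hβp.le h0) (1 / 2)
  have ha : 0 < aS (1 / 2) := by rw [aS_half]; exact BC_pos
  have hFn := FS_nonneg (1 / 2) (β * h)
  have h6 : β * h * aS (1 / 2) ≤ 1 / β * aS (1 / 2) := mul_le_mul_of_nonneg_right hbh ha.le
  have h7 : K / β * FS (1 / 2) (β * h) ≤ K / β * FS (1 / 2) 0 :=
    mul_le_mul_of_nonneg_left hle (by positivity)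
  have e2 : (K * FS (1 / 2) 0 + aS (1 / 2) + 1) * β⁻¹ =
      K / β * FS (1 / 2) 0 + 1 / β * aS (1 / 2) + 1 / β := by
    rw [← one_div]; ring
  rw [e2]
  have e3 : (1 - K / β) * FS (1 / 2) (β * h) = FS (1 / 2) (β * h) - K / β * FS (1 / 2) (β * h) := by
    ring
  rw [e3]
  linarith

/-- Numbers of (M), with the split right-hand side (form of `finite_ineq`) and any `c`. -/
theorem mean_num_split {c : ℝ} (hc : 0 < c) (C0 C1 C7 : ℝ) : ∃ c' d : ℝ, 0 < c' ∧ 0 < d ∧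
    d ≤ 1 / 100 ∧
    ∀ δ : ℝ, 0 < δ → ∃ β0 : ℝ, 1 ≤ β0 ∧ ∀ β : ℝ, β0 ≤ β → ∀ w : ℝ, 0 ≤ w →
    w ≤ 3 * β ^ (1 / 2 + d) → ∃ μ : ℝ, 0 ≤ μ ∧ μ ≤ 1 / 2 ∧ C0 * β ^ (-1 - c') * w ^ 2 ≤ μ ∧
    ∀ h : ℝ, 0 < h → ∀ᶠ m : ℕ in atTop, ∀ [NeZero m] (y lZ ρ : ℝ),
      β ^ (-(3 / 2) : ℝ) * (FS (1 / 2) 0 - C1 * β ^ (-c)) ≤ lZ / (m : ℝ) ^ 3 →
      0 ≤ ρ → ρ ≤ C7 * β ^ (-(3 / 2) : ℝ) →
      β * β ^ (-1 - c') * ((m : ℝ) ^ 3 * y) ≤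
        ∑ k : Fin 3 → ZMod m, -Real.log (1 - Real.exp (-(β * (tK m k + h)))) +
        β * β ^ (-1 - c') *
          ∑ k : Fin 3 → ZMod m, 1 / (Real.exp (β * ((1 - μ) * tK m k + h)) - 1) - lZ +
          β * (24 * (m : ℝ) ^ 3 * ρ ^ 2) →
      y ≤ (1 + δ) * BC * β ^ (-(3 / 2) : ℝ) := by
  obtain ⟨Cp, hCp, hp⟩ := tor_log_eventually (n := 1) le_rfl
  obtain ⟨Cd, hCd, hd⟩ := tor_dens_eventually (n := 1) le_rfl
  obtain ⟨c', hc'0, hc'c, hc'4⟩ : ∃ c' : ℝ, 0 < c' ∧ c' < c ∧ c' ≤ 1 / 4 :=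
    ⟨min (c / 2) (1 / 4), lt_min (by linarith) (by norm_num),
      lt_of_le_of_lt (min_le_left _ _) (by linarith), min_le_right _ _⟩
  obtain ⟨d, hd0, hd100, hdc⟩ : ∃ d : ℝ, 0 < d ∧ d ≤ 1 / 100 ∧ d ≤ c' / 4 :=
    ⟨min (1 / 100) (c' / 4), lt_min (by norm_num) (by linarith), min_le_left _ _, min_le_right _ _⟩
  refine ⟨c', d, hc'0, hd0, hd100, fun δ hδ => ?_⟩
  obtain ⟨β0, hβ0⟩ := eventually_atTop.1 ((G_lim (C0 := C0) (c := c) (c' := c') (d := d) (Cp := Cp)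
    (Cd := Cd) (C1 := C1) (C7 := C7) hδ (by linarith) (by linarith) (by linarith)
    (by linarith)).and (eventually_ge_atTop (2 * 448 : ℝ)))
  refine ⟨max 1 β0, le_max_left _ _, fun β hβ w hw0 hw => ?_⟩
  obtain ⟨⟨hG, hτ⟩, h896⟩ := hβ0 β (le_trans (le_max_right _ _) hβ)
  have hβ1 : 1 ≤ β := by linarith
  have hβp : 0 < β := by linarith
  obtain ⟨τ, hτd⟩ : ∃ τ : ℝ, τ = 9 * |C0| * β ^ (-(c' - 2 * d)) := ⟨_, rfl⟩
  rw [← hτd] at hG hτ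
  have hτw : C0 * β ^ (-1 - c') * w ^ 2 ≤ τ := by
    have h1 := w_step (C0 := C0) (c' := c') (t := 1) (gk := C0 * w ^ 2) hβp zero_le_one hw0 hw
      (by rw [mul_one])
    rw [mul_one, ← hτd] at h1
    linarith
  refine ⟨τ, by rw [hτd]; positivity, hτ, hτw, fun h hh => ?_⟩
  have hβ' : 448 ≤ (1 - τ) * β := by nlinarith
  have hs : 0 < β * h := mul_pos hβp hh
  filter_upwards [hp β (by linarith) (β * h) hs β⁻¹ (by positivity),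
    hd ((1 - τ) * β) hβ' (β * h) hs β⁻¹ (by positivity), eventually_gt_atTop 0] with m hm1 hm2 hm0
  intro _ y lZ ρ hlZ hρ0 hρ hV
  have m1 := hm1
  have m2 := hm2
  have hmR : (0 : ℝ) < m := by exact_mod_cast hm0
  have hm3 : (0 : ℝ) < (m : ℝ) ^ 3 := by positivity
  have e1 : ∀ k : Fin 3 → ZMod m,
      β * (((1 : ℕ) : ℝ) * tK m k) + β * h = β * (tK m k + h) := fun k => by push_cast; ring
  have e2 : ∀ k : Fin 3 → ZMod m, (1 - τ) * β * (((1 : ℕ) : ℝ) * tK m k) + β * h =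
      β * ((1 - τ) * tK m k + h) := fun k => by push_cast; ring
  have hh1 : (((1 : ℕ) : ℝ) / 2) = 1 / 2 := by norm_num
  rw [hh1] at m1 m2
  simp only [e1] at m1
  simp only [e2] at m2
  have f1 : FS (1 / 2) (β * h) ≤ FS (1 / 2) 0 := FS_mono_zero hs.le _
  have f2 : fS (1 / 2) (β * h) ≤ aS (1 / 2) := fS_le _ hs.le
  generalize (∑ k : Fin 3 → ZMod m, -Real.log (1 - Real.exp (-(β * (tK m k + h))))) = P at *
  generalize (∑ k : Fin 3 → ZMod m, 1 / (Real.exp (β * ((1 - τ) * tK m k + h)) - 1)) = Q at *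
  have P1 := p_step (P := P) (M := (m : ℝ) ^ 3) (F0 := FS (1 / 2) 0) (Cp := Cp) hβp
    (m1.trans (by linarith))
  have Q1 := q_step (Q := Q) (M := (m : ℝ) ^ 3) (A := aS (1 / 2)) (Cd := Cd) hβp hCd hτ
    (m2.trans (by linarith))
  rw [rpow_neg_three_half hβp] at hlZ hρ ⊢
  have V3 := mean_core (c := c) (c' := c') (C1 := C1) (C7 := C7) (D1 := Cp + 1) (F0 := FS (1 / 2) 0)
    (A := aS (1 / 2) + (2 * Cd + 1) / β) (y := y) hβp hm3 P1 Q1 hlZ hρ0 hρ (by linarith)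
  refine V3.trans ?_
  rw [mul_comm ((1 + δ) * BC)]
  exact mul_le_mul_of_nonneg_left hG (by positivity)

/-- Final form for `MeanStmt3`: split right-hand side and the bound of `logZ_lower`. -/
theorem mean_final {K : ℝ} (hK : 1 ≤ K) (C0 C7 : ℝ) : ∃ c' d : ℝ, 0 < c' ∧ 0 < d ∧ d ≤ 1 / 100 ∧
    ∀ δ : ℝ, 0 < δ → ∃ β0 : ℝ, K ≤ β0 ∧ ∀ β : ℝ, β0 ≤ β → ∀ w : ℝ, 0 ≤ w →
    w ≤ 3 * β ^ (1 / 2 + d) → ∃ μ : ℝ, 0 ≤ μ ∧ μ ≤ 1 / 2 ∧ C0 * β ^ (-1 - c') * w ^ 2 ≤ μ ∧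
    ∀ h : ℝ, 0 < h → h ≤ β ^ (-(10 : ℝ)) → ∃ ε : ℝ, 0 < ε ∧ ∀ᶠ m : ℕ in atTop,
      ∀ [NeZero m] (y lZ ρ : ℝ),
      ((1 - K / β) * FS (1 / 2) (β * h) / Real.sqrt β ^ 3 - ε) * (m : ℝ) ^ 3 ≤ lZ →
      0 ≤ ρ → ρ ≤ C7 * β ^ (-(3 / 2) : ℝ) →
      β * β ^ (-1 - c') * ((m : ℝ) ^ 3 * y) ≤
        ∑ k : Fin 3 → ZMod m, -Real.log (1 - Real.exp (-(β * (tK m k + h)))) +
        β * β ^ (-1 - c') *
          ∑ k : Fin 3 → ZMod m, 1 / (Real.exp (β * ((1 - μ) * tK m k + h)) - 1) - lZ +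
          β * (24 * (m : ℝ) ^ 3 * ρ ^ 2) →
      y ≤ (1 + δ) * BC * β ^ (-(3 / 2) : ℝ) := by
  obtain ⟨c', d, hc', hd, hd100, H⟩ := mean_num_split (c := 1) one_pos C0
    (K * FS (1 / 2) 0 + aS (1 / 2) + 1) C7
  refine ⟨c', d, hc', hd, hd100, fun δ hδ => ?_⟩
  obtain ⟨β0, hβ01, H0⟩ := H δ hδ
  refine ⟨max K β0, le_max_left _ _, fun β hβ w hw0 hw => ?_⟩
  obtain ⟨μ, hμ0, hμ1, hμw, H1⟩ := H0 β ((le_max_right _ _).trans hβ) w hw0 hw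
  have hKβ : K ≤ β := (le_max_left _ _).trans hβ
  have hβp : 0 < β := by linarith
  refine ⟨μ, hμ0, hμ1, hμw, fun h hh hhβ => ⟨(Real.sqrt β ^ 3)⁻¹ / β, ?_, ?_⟩⟩
  · have := Real.sqrt_pos.2 hβp
    positivity
  · filter_upwards [H1 h hh, eventually_gt_atTop 0] with m hm hm0
    intro _ y lZ ρ hlZ hρ0 hρ hV
    have hmR : (0 : ℝ) < m := by exact_mod_cast hm0
    have h1 := lz_conv hK hKβ hh.le hhβ (by positivity : (0 : ℝ) < (m : ℝ) ^ 3) hlZ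
    exact hm y lZ ρ h1 hρ0 hρ hV

end Vale.Agent.P361.LRO.S3
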