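import Mathlib

/-!
P361 stage 3, block (M), leaf (V3): comparison of free Bose gases (helper129).

`X = ∑ x_k e_k e_kᵀ`, `A = ∑ a_j v_j v_jᵀ` (real orthonormal bases `e`, `v` of `V → ℝ`),
`0 ≤ X - A ≤ μ` and `A ≥ A' = ∑ x'_k e_k e_kᵀ` as quadratic forms, `x_k, x'_k > 0`.  Then `a_j > 0`
and `∑_j -log (1 - e^{-a_j}) ≤ ∑_k -log (1 - e^{-x_k}) + μ ∑_k 1 / (e^{x'_k} - 1)`.
-/

set_option linter.unusedSectionVars false

namespace Vale.Agent.P361.LRO.S3

open Finset

noncomputable section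

namespace V3

/-- Minus the logarithm of `1 - e^{-a}`. -/
def phiB (a : ℝ) : ℝ := -Real.log (1 - Real.exp (-a))

/-- `1 / (e^a - 1)`. -/
def psiB (a : ℝ) : ℝ := 1 / (Real.exp a - 1)

theorem psiB_pos {a : ℝ} (ha : 0 < a) : 0 < psiB a := by
  have h1 : 1 < Real.exp a := Real.one_lt_exp_iff.mpr ha
  have : 0 < Real.exp a - 1 := by linarith
  unfold psiB
  positivity

theorem psiB_anti {a b : ℝ} (ha : 0 < a) (hab : a ≤ b) : psiB b ≤ psiB a := by
  have h1 : 1 < Real.exp a := Real.one_lt_exp_iff.mpr ha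
  have h2 : Real.exp a ≤ Real.exp b := Real.exp_le_exp.mpr hab
  unfold psiB
  exact div_le_div_of_nonneg_left zero_le_one (by linarith) (by linarith)

/-- Tangent inequality for `phiB` (Gibbs inequality). -/
theorem phiB_tangent {a b : ℝ} (ha : 0 < a) (hb : 0 < b) :
    phiB a - psiB a * (b - a) ≤ phiB b := by
  set y := Real.exp (-a) with hy
  set z := Real.exp (-b) with hz
  have hy0 : 0 < y := Real.exp_pos _
  have hz0 : 0 < z := Real.exp_pos _
  have hy1 : y < 1 := by rw [hy, Real.exp_lt_one_iff]; linarith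
  have hz1 : z < 1 := by rw [hz, Real.exp_lt_one_iff]; linarith
  have hpsi : psiB a = y / (1 - y) := by
    unfold psiB
    have he : Real.exp a = y⁻¹ := by rw [hy, Real.exp_neg, inv_inv]
    rw [he]
    have : (1 - y) ≠ 0 := by linarith
    have hy0' := hy0.ne'
    have h3 : y⁻¹ - 1 = (1 - y) / y := by field_simp
    rw [h3]
    field_simp
  have hba : b - a = -Real.log (z / y) := by
    rw [Real.log_div hz0.ne' hy0.ne', hz, hy, Real.log_exp, Real.log_exp]
    ring
  have hg1 : Real.log (z / y) ≤ z / y - 1 := Real.log_le_sub_one_of_pos (by positivity)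
  have h1y : 0 < 1 - y := by linarith
  have h1z : 0 < 1 - z := by linarith
  have hg2 : Real.log ((1 - z) / (1 - y)) ≤ (1 - z) / (1 - y) - 1 :=
    Real.log_le_sub_one_of_pos (by positivity)
  rw [Real.log_div h1z.ne' h1y.ne'] at hg2
  have e1 : psiB a * (b - a) = -(y / (1 - y) * Real.log (z / y)) := by
    rw [hpsi]
    linear_combination (y / (1 - y)) * hba
  have e2 : y / (1 - y) * Real.log (z / y) ≤ y / (1 - y) * (z / y - 1) :=
    mul_le_mul_of_nonneg_left hg1 (by positivity)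
  have e3 : y / (1 - y) * (z / y - 1) + ((1 - z) / (1 - y) - 1) = 0 := by
    field_simp
    ring
  unfold phiB
  rw [e1]
  linarith

/-- Tangent inequality for `psiB`. -/
theorem psiB_tangent {a : ℝ} (ha : 0 < a) :
    ∃ s : ℝ, ∀ b : ℝ, 0 < b → psiB a + s * (b - a) ≤ psiB b := by
  set u := Real.exp a - 1 with hu
  have hu0 : 0 < u := by
    have : 1 < Real.exp a := Real.one_lt_exp_iff.mpr ha
    rw [hu]; linarith
  refine ⟨-((u + 1) / u ^ 2), fun b hb => ?_⟩
  set v := Real.exp b - 1 with hv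
  have hv0 : 0 < v := by
    have : 1 < Real.exp b := Real.one_lt_exp_iff.mpr hb
    rw [hv]; linarith
  have hpa : psiB a = 1 / u := rfl
  have hpb : psiB b = 1 / v := rfl
  have hba : b - a = Real.log ((1 + v) / (1 + u)) := by
    have h1 : (1 : ℝ) + v = Real.exp b := by rw [hv]; ring
    have h2 : (1 : ℝ) + u = Real.exp a := by rw [hu]; ring
    rw [h1, h2, Real.log_div (Real.exp_pos _).ne' (Real.exp_pos _).ne', Real.log_exp, Real.log_exp]
  have hlog : 1 - (1 + u) / (1 + v) ≤ Real.log ((1 + v) / (1 + u)) := by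
    have h3 : 0 < (1 + v) / (1 + u) := by positivity
    have h4 := Real.one_sub_inv_le_log_of_pos h3
    rwa [inv_div] at h4
  have hkey : (u + 1) / u ^ 2 * (1 - (1 + u) / (1 + v)) ≥ 1 / u - 1 / v := by
    have e : (u + 1) / u ^ 2 * (1 - (1 + u) / (1 + v)) - (1 / u - 1 / v)
        = (v - u) ^ 2 / (u ^ 2 * v * (1 + v)) := by
      field_simp
      ring
    have : 0 ≤ (v - u) ^ 2 / (u ^ 2 * v * (1 + v)) := by positivity
    linarith
  have h5 : (u + 1) / u ^ 2 * (b - a) ≥ 1 / u - 1 / v := by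
    rw [hba]
    have := mul_le_mul_of_nonneg_left hlog (by positivity : 0 ≤ (u + 1) / u ^ 2)
    linarith
  rw [hpa, hpb]
  linarith

variable {ι κ : Type*} [Fintype ι] [Fintype κ]

/-- A weighted mean of positive numbers is positive. -/
theorem wmean_pos {w : ι → κ → ℝ} (hw : ∀ i j, 0 ≤ w i j)
    (hrow : ∀ i, ∑ j, w i j = 1) {b : κ → ℝ} (hb : ∀ j, 0 < b j) (i : ι) :
    0 < ∑ j, w i j * b j := by
  have h0 : 0 ≤ ∑ j, w i j * b j := Finset.sum_nonneg fun j _ => mul_nonneg (hw i j) (hb j).le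
  rcases h0.lt_or_eq with h | h
  · exact h
  · exfalso
    have h1 := (Finset.sum_eq_zero_iff_of_nonneg
      (fun j _ => mul_nonneg (hw i j) (hb j).le)).mp h.symm
    have h2 : ∑ j, w i j = 0 := Finset.sum_eq_zero fun j hj => by
      have := h1 j hj
      rcases mul_eq_zero.mp this with h3 | h3
      · exact h3
      · exact absurd h3 (hb j).ne'
    rw [hrow i] at h2
    exact one_ne_zero h2

/-- Jensen for a doubly stochastic matrix, from tangents. -/
theorem sum_le_of_tangent {F : ℝ → ℝ} {w : ι → κ → ℝ} (hw : ∀ i j, 0 ≤ w i j)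
    (hrow : ∀ i, ∑ j, w i j = 1) (hcol : ∀ j, ∑ i, w i j = 1) {b : κ → ℝ} (hb : ∀ j, 0 < b j)
    (hF : ∀ a : ℝ, 0 < a → ∃ s : ℝ, ∀ b : ℝ, 0 < b → F a + s * (b - a) ≤ F b) :
    ∑ i, F (∑ j, w i j * b j) ≤ ∑ j, F (b j) := by
  have h1 : ∀ i, F (∑ j, w i j * b j) ≤ ∑ j, w i j * F (b j) := by
    intro i
    obtain ⟨s, hs⟩ := hF _ (wmean_pos hw hrow hb i)
    have h2 : ∑ j, w i j * (F (∑ j, w i j * b j) + s * (b j - ∑ j, w i j * b j)) ≤
        ∑ j, w i j * F (b j) :=
      Finset.sum_le_sum fun j _ => mul_le_mul_of_nonneg_left (hs (b j) (hb j)) (hw i j)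
    have h3 : ∑ j, w i j * (F (∑ j, w i j * b j) + s * (b j - ∑ j, w i j * b j)) =
        (∑ j, w i j) * F (∑ j, w i j * b j) + s * (∑ j, w i j * b j
          - (∑ j, w i j) * ∑ j, w i j * b j) := by
      simp only [mul_add, mul_sub, Finset.sum_add_distrib, Finset.sum_sub_distrib]
      have e1 : ∑ j, w i j * F (∑ j, w i j * b j) = (∑ j, w i j) * F (∑ j, w i j * b j) := by
        rw [Finset.sum_mul]
      have e2 : ∑ j, w i j * (s * b j) = s * ∑ j, w i j * b j := by
        rw [Finset.mul_sum]; exact Finset.sum_congr rfl fun j _ => by ring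
      have e3 : ∑ j, w i j * (s * ∑ j, w i j * b j) = s * ((∑ j, w i j) * ∑ j, w i j * b j) := by
        rw [← Finset.sum_mul]; ring
      rw [e1, e2, e3]
    rw [h3, hrow i] at h2
    simpa using h2
  calc ∑ i, F (∑ j, w i j * b j) ≤ ∑ i, ∑ j, w i j * F (b j) := Finset.sum_le_sum fun i _ => h1 i
    _ = ∑ j, (∑ i, w i j) * F (b j) := by
        rw [Finset.sum_comm]
        exact Finset.sum_congr rfl fun j _ => by rw [Finset.sum_mul]
    _ = ∑ j, F (b j) := Finset.sum_congr rfl fun j _ => by rw [hcol j, one_mul]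

/-- **Free gas comparison**, scalar form. -/
theorem free_gas_bound {w : ι → κ → ℝ} (hw : ∀ i j, 0 ≤ w i j)
    (hrow : ∀ i, ∑ j, w i j = 1) (hcol : ∀ j, ∑ i, w i j = 1) {x x' : κ → ℝ}
    (hx : ∀ j, 0 < x j) (hx' : ∀ j, 0 < x' j) {μ : ℝ} {a : ι → ℝ}
    (h0 : ∀ i, a i ≤ ∑ j, w i j * x j) (h1 : ∀ i, ∑ j, w i j * x j ≤ a i + μ)
    (h2 : ∀ i, ∑ j, w i j * x' j ≤ a i) :
    (∀ i, 0 < a i) ∧ ∑ i, phiB (a i) ≤ ∑ j, phiB (x j) + μ * ∑ j, psiB (x' j) := by
  have hapos : ∀ i, 0 < a i := fun i => (wmean_pos hw hrow hx' i).trans_le (h2 i)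
  refine ⟨hapos, ?_⟩
  rcases isEmpty_or_nonempty ι with hι | ⟨⟨i0⟩⟩
  · have hκ : IsEmpty κ := by
      constructor
      intro k
      have := hcol k
      simp at this
    simp
  have hμ : 0 ≤ μ := by
    have e1 := h0 i0
    have e2 := h1 i0
    linarith
  have k1 : ∀ i, phiB (a i) ≤ phiB (∑ j, w i j * x j) + μ * psiB (∑ j, w i j * x' j) := by
    intro i
    have hb : 0 < ∑ j, w i j * x j := wmean_pos hw hrow hx i
    have e2 := phiB_tangent (hapos i) hb
    have e4 := psiB_anti (wmean_pos hw hrow hx' i) (h2 i)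
    have e5 := psiB_pos (hapos i)
    have e6 : psiB (a i) * ((∑ j, w i j * x j) - a i) ≤ psiB (a i) * μ := by
      refine mul_le_mul_of_nonneg_left ?_ e5.le
      have := h1 i
      linarith
    have e7 : psiB (a i) * μ ≤ psiB (∑ j, w i j * x' j) * μ :=
      mul_le_mul_of_nonneg_right e4 hμ
    linarith
  have k2 : ∑ i, phiB (∑ j, w i j * x j) ≤ ∑ j, phiB (x j) :=
    sum_le_of_tangent (F := phiB) hw hrow hcol hx
      (fun a ha => ⟨-psiB a, fun b hb => by
        have := phiB_tangent ha hb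
        linarith⟩)
  have k3 : ∑ i, psiB (∑ j, w i j * x' j) ≤ ∑ j, psiB (x' j) :=
    sum_le_of_tangent (F := psiB) hw hrow hcol hx' (fun a ha => psiB_tangent ha)
  calc ∑ i, phiB (a i) ≤ ∑ i, (phiB (∑ j, w i j * x j) + μ * psiB (∑ j, w i j * x' j)) :=
        Finset.sum_le_sum fun i _ => k1 i
    _ = ∑ i, phiB (∑ j, w i j * x j) + μ * ∑ i, psiB (∑ j, w i j * x' j) := by
        rw [Finset.sum_add_distrib, Finset.mul_sum]
    _ ≤ _ := by
        have := mul_le_mul_of_nonneg_left k3 hμ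
        linarith

variable {V : Type*} [Fintype V] [DecidableEq V]

/-- Completeness of an orthonormal system indexed by `V` itself. -/
theorem complete_of_orthonormal {e : V → V → ℝ}
    (he : ∀ k l, ∑ x, e k x * e l x = if k = l then 1 else 0) (x y : V) :
    ∑ k, e k x * e k y = if x = y then 1 else 0 := by
  have h1 : (Matrix.of e) * (Matrix.of e).transpose = 1 := by
    ext k l
    rw [Matrix.mul_apply, Matrix.one_apply]
    exact he k l
  have h2 := mul_eq_one_comm.mp h1
  have h3 := congrFun (congrFun h2 x) y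
  rw [Matrix.mul_apply, Matrix.one_apply] at h3
  exact h3

/-- Parseval. -/
theorem parseval {e : κ → V → ℝ}
    (he : ∀ x y, ∑ k, e k x * e k y = if x = y then 1 else 0) (f : V → ℝ) :
    ∑ k, (∑ x, e k x * f x) ^ 2 = ∑ x, f x ^ 2 := by
  have h1 : ∀ k, (∑ x, e k x * f x) ^ 2 = ∑ x, ∑ y, (e k x * e k y) * (f x * f y) := by
    intro k
    rw [sq, Finset.sum_mul_sum]
    exact Finset.sum_congr rfl fun x _ => Finset.sum_congr rfl fun y _ => by ring
  simp only [h1]
  rw [Finset.sum_comm]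
  refine Finset.sum_congr rfl fun x _ => ?_
  rw [Finset.sum_comm]
  have h2 : ∀ y, ∑ k, e k x * e k y * (f x * f y) = (if x = y then 1 else 0) * (f x * f y) := by
    intro y
    rw [← he x y, Finset.sum_mul]
  simp only [h2, ite_mul, one_mul, zero_mul, Finset.sum_ite_eq, Finset.mem_univ, if_true]
  ring

/-- Quadratic form of a diagonalized kernel. -/
theorem quad_diag {e : κ → V → ℝ} {X : V → V → ℝ} {xk : κ → ℝ}
    (hX : ∀ x y, X x y = ∑ k, xk k * (e k x * e k y)) (f : V → ℝ) :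
    ∑ x, ∑ y, f x * X x y * f y = ∑ k, xk k * (∑ x, e k x * f x) ^ 2 := by
  have h1 : ∀ k, xk k * (∑ x, e k x * f x) ^ 2 =
      ∑ x, ∑ y, f x * (xk k * (e k x * e k y)) * f y := by
    intro k
    rw [sq, Finset.sum_mul_sum, Finset.mul_sum]
    refine Finset.sum_congr rfl fun x _ => ?_
    rw [Finset.mul_sum]
    exact Finset.sum_congr rfl fun y _ => by ring
  simp only [h1, hX]
  rw [Finset.sum_comm (s := (Finset.univ : Finset κ))]
  refine Finset.sum_congr rfl fun x _ => ?_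
  rw [Finset.sum_comm (s := (Finset.univ : Finset κ))]
  refine Finset.sum_congr rfl fun y _ => ?_
  rw [Finset.mul_sum, Finset.sum_mul]

end V3

open V3

variable {ι κ : Type*} [Fintype ι] [Fintype κ] {V : Type*} [Fintype V] [DecidableEq V]

/-- **(V3)**, functional form. -/
theorem oneAbs [DecidableEq ι] [DecidableEq κ] {e : κ → V → ℝ} {v : ι → V → ℝ}
    (he : ∀ k l, ∑ x, e k x * e l x = if k = l then 1 else 0)
    (he' : ∀ x y, ∑ k, e k x * e k y = if x = y then 1 else 0)
    (hv : ∀ k l, ∑ x, v k x * v l x = if k = l then 1 else 0)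
    (hv' : ∀ x y, ∑ k, v k x * v k y = if x = y then 1 else 0)
    {X A : V → V → ℝ} {xk x' : κ → ℝ} {a : ι → ℝ} {μ : ℝ}
    (hX : ∀ x y, X x y = ∑ k, xk k * (e k x * e k y))
    (hA : ∀ x y, A x y = ∑ j, a j * (v j x * v j y))
    (hx : ∀ k, 0 < xk k) (hx' : ∀ k, 0 < x' k)
    (h0 : ∀ f : V → ℝ, ∑ x, ∑ y, f x * A x y * f y ≤ ∑ x, ∑ y, f x * X x y * f y)
    (h1 : ∀ f : V → ℝ, ∑ x, ∑ y, f x * X x y * f y ≤
      ∑ x, ∑ y, f x * A x y * f y + μ * ∑ x, f x ^ 2)
    (h2 : ∀ f : V → ℝ, ∑ k, x' k * (∑ x, e k x * f x) ^ 2 ≤ ∑ x, ∑ y, f x * A x y * f y) :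
    (∀ j, 0 < a j) ∧ ∑ j, -Real.log (1 - Real.exp (-a j)) ≤
      ∑ k, -Real.log (1 - Real.exp (-xk k)) + μ * ∑ k, 1 / (Real.exp (x' k) - 1) := by
  have hnorm : ∀ j, ∑ x, v j x ^ 2 = 1 := by
    intro j
    have := hv j j
    rw [if_pos rfl] at this
    rw [← this]
    exact Finset.sum_congr rfl fun x _ => by ring
  have hnorm' : ∀ k, ∑ x, e k x ^ 2 = 1 := by
    intro j
    have := he j j
    rw [if_pos rfl] at this
    rw [← this]
    exact Finset.sum_congr rfl fun x _ => by ring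
  have hAj : ∀ j, ∑ x, ∑ y, v j x * A x y * v j y = a j := by
    intro j
    rw [quad_diag hA]
    rw [Finset.sum_eq_single j]
    · rw [hv j j, if_pos rfl]; ring
    · intro l _ hl
      rw [hv l j, if_neg hl]; ring
    · intro h; exact absurd (Finset.mem_univ _) h
  exact free_gas_bound (w := fun j k => (∑ x, e k x * v j x) ^ 2) (fun _ _ => sq_nonneg _)
    (fun j => by rw [parseval he', hnorm])
    (fun k => by
      have := parseval hv' (e k)
      rw [hnorm'] at this
      rw [← this]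
      refine Finset.sum_congr rfl fun j _ => ?_
      congr 1
      exact Finset.sum_congr rfl fun x _ => by ring)
    hx hx'
    (fun j => by
      have := h0 (v j)
      rw [hAj, quad_diag hX] at this
      refine this.trans (le_of_eq ?_)
      exact Finset.sum_congr rfl fun k _ => by ring)
    (fun j => by
      have := h1 (v j)
      rw [hAj, quad_diag hX, hnorm, mul_one] at this
      refine le_trans (le_of_eq ?_) this
      exact Finset.sum_congr rfl fun k _ => by ring)
    (fun j => by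
      have := h2 (v j)
      rw [hAj] at this
      refine le_trans (le_of_eq ?_) this
      exact Finset.sum_congr rfl fun k _ => by ring)

/-- **(V3)** for a symmetric kernel `A` (spectral theorem inside). -/
theorem oneAbs_symm [DecidableEq κ] {e : κ → V → ℝ}
    (he : ∀ k l, ∑ x, e k x * e l x = if k = l then 1 else 0)
    (he' : ∀ x y, ∑ k, e k x * e k y = if x = y then 1 else 0)
    {X A : V → V → ℝ} (hsym : ∀ x y, A x y = A y x) {xk x' : κ → ℝ} {μ : ℝ}
    (hX : ∀ x y, X x y = ∑ k, xk k * (e k x * e k y))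
    (hx : ∀ k, 0 < xk k) (hx' : ∀ k, 0 < x' k)
    (h0 : ∀ f : V → ℝ, ∑ x, ∑ y, f x * A x y * f y ≤ ∑ x, ∑ y, f x * X x y * f y)
    (h1 : ∀ f : V → ℝ, ∑ x, ∑ y, f x * X x y * f y ≤
      ∑ x, ∑ y, f x * A x y * f y + μ * ∑ x, f x ^ 2)
    (h2 : ∀ f : V → ℝ, ∑ k, x' k * (∑ x, e k x * f x) ^ 2 ≤ ∑ x, ∑ y, f x * A x y * f y) :
    ∃ (v : V → V → ℝ) (a : V → ℝ), (∀ k l, ∑ x, v k x * v l x = if k = l then 1 else 0) ∧
      (∀ x y, ∑ k, v k x * v k y = if x = y then 1 else 0) ∧
      (∀ x y, A x y = ∑ j, a j * (v j x * v j y)) ∧ (∀ j, 0 < a j) ∧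
      ∑ j, -Real.log (1 - Real.exp (-a j)) ≤
        ∑ k, -Real.log (1 - Real.exp (-xk k)) + μ * ∑ k, 1 / (Real.exp (x' k) - 1) := by
  have hH : (Matrix.of A).IsHermitian := by
    ext x y
    rw [Matrix.conjTranspose_apply, star_trivial]
    exact hsym y x
  set v : V → V → ℝ := fun j x => hH.eigenvectorBasis j x with hvdef
  have hv : ∀ k l, ∑ x, v k x * v l x = if k = l then 1 else 0 := by
    intro k l
    have h3 := orthonormal_iff_ite.mp hH.eigenvectorBasis.orthonormal k l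
    rw [← h3, PiLp.inner_apply]
    exact Finset.sum_congr rfl fun x _ => by
      simp only [RCLike.inner_apply, conj_trivial, hvdef]
      ring
  have hv' := complete_of_orthonormal hv
  have hA : ∀ x y, A x y = ∑ j, hH.eigenvalues j * (v j x * v j y) := by
    intro x y
    have h4 : ∀ j, ∑ z, A x z * v j z = hH.eigenvalues j * v j x := by
      intro j
      have := congrFun (hH.mulVec_eigenvectorBasis j) x
      simpa [Matrix.mulVec, dotProduct] using this
    have h5 : A x y = ∑ z, A x z * (if z = y then 1 else 0) := by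
      simp
    rw [h5]
    have h6 : ∀ z, A x z * (if z = y then 1 else 0) = ∑ j, A x z * (v j z * v j y) := by
      intro z
      rw [← Finset.mul_sum, hv']
    simp only [h6]
    rw [Finset.sum_comm]
    refine Finset.sum_congr rfl fun j _ => ?_
    have h7 : ∀ z, A x z * (v j z * v j y) = A x z * v j z * v j y := fun z => by ring
    simp only [h7]
    rw [← Finset.sum_mul, h4]
    ring
  obtain ⟨k1, k2⟩ := oneAbs he he' hv hv' hX hA hx hx' h0 h1 h2
  exact ⟨v, hH.eigenvalues, hv, hv', hA, k1, k2⟩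

end

end Vale.Agent.P361.LRO.S3
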