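import Vale.Agent.P361.LRO.Tw.Factor

/-!
P361, stage 3, pair inequality, part 1: the block twist polynomial of two nodes is a real rooted
quadratic polynomial.
-/

namespace Vale.Agent.P361.LRO.PairS

open Finset Matrix

noncomputable section

variable {X : Type} [Fintype X] [DecidableEq X]

theorem cos_int_quad {q : ℤ} (hq : |q| ≤ 2) (φ : ℝ) :
    Real.cos (φ * q) = Real.cos (Real.pi / 2 * q) +
      (Real.cos (0 * q) - Real.cos (Real.pi * q)) / 2 * Real.cos φ +
      ((Real.cos (0 * q) + Real.cos (Real.pi * q)) / 2 - Real.cos (Real.pi / 2 * q)) *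
        Real.cos φ ^ 2 := by
  obtain ⟨h1, h2⟩ := abs_le.1 hq
  have hc : q = -2 ∨ q = -1 ∨ q = 0 ∨ q = 1 ∨ q = 2 := by omega
  have e2 : Real.cos (φ * 2) = 2 * Real.cos φ ^ 2 - 1 := by
    rw [mul_comm, Real.cos_two_mul]
  have p2 : Real.cos (Real.pi * 2) = 1 := by rw [mul_comm]; exact Real.cos_two_pi
  rcases hc with rfl | rfl | rfl | rfl | rfl
  · push_cast
    have n1 : Real.cos (φ * -2) = Real.cos (φ * 2) := by rw [mul_neg, Real.cos_neg]
    have n2 : Real.cos (Real.pi * -2) = Real.cos (Real.pi * 2) := by rw [mul_neg, Real.cos_neg]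
    have n3 : Real.cos (Real.pi / 2 * -2) = Real.cos Real.pi := by
      rw [mul_neg, Real.cos_neg]
      congr 1
      ring
    rw [n1, n2, n3, e2, p2]
    simp
    ring
  · push_cast
    simp
  · simp
  · simp
  · push_cast
    rw [e2, p2]
    have : Real.pi / 2 * 2 = Real.pi := by ring
    rw [this]
    simp
    ring

omit [Fintype X] [DecidableEq X] in
theorem abs_qz_le (π : Equiv.Perm X) (s : X → Fin 2) (b : Finset X) :
    |qz π s b| ≤ b.card := by
  unfold qz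
  refine (Finset.abs_sum_le_sum_abs _ _).trans ?_
  have : ∀ x ∈ b, |((s x : ℕ) : ℤ) - ((s (π x) : ℕ) : ℤ)| ≤ 1 := by
    intro x _
    have h1 := (s x).isLt
    have h2 := (s (π x)).isLt
    rw [abs_le]
    constructor <;> omega
  calc ∑ x ∈ b, |((s x : ℕ) : ℤ) - ((s (π x) : ℕ) : ℤ)| ≤ ∑ _x ∈ b, (1 : ℤ) :=
        Finset.sum_le_sum this
    _ = b.card := by simp

/-- The twist polynomial of at most two nodes is quadratic. -/
theorem Zf_quad (μ : Equiv.Perm X → ℝ) (θ : X → ℝ) {b : Finset X} (hb : b.card ≤ 2) (φ : ℝ) :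
    Zf μ θ b φ = Zf μ θ b (Real.pi / 2) +
      (Zf μ θ b 0 - Zf μ θ b Real.pi) / 2 * Real.cos φ +
      ((Zf μ θ b 0 + Zf μ θ b Real.pi) / 2 - Zf μ θ b (Real.pi / 2)) * Real.cos φ ^ 2 := by
  have key : ∀ (π : Equiv.Perm X) (s : X → Fin 2),
      μ π * wt θ π s * Real.cos (φ * ∑ x ∈ b, jj π s x) =
      μ π * wt θ π s * Real.cos (Real.pi / 2 * ∑ x ∈ b, jj π s x) +
      (μ π * wt θ π s * Real.cos (0 * ∑ x ∈ b, jj π s x) -
        μ π * wt θ π s * Real.cos (Real.pi * ∑ x ∈ b, jj π s x)) / 2 * Real.cos φ +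
      ((μ π * wt θ π s * Real.cos (0 * ∑ x ∈ b, jj π s x) +
        μ π * wt θ π s * Real.cos (Real.pi * ∑ x ∈ b, jj π s x)) / 2 -
        μ π * wt θ π s * Real.cos (Real.pi / 2 * ∑ x ∈ b, jj π s x)) * Real.cos φ ^ 2 := by
    intro π s
    have hq : |qz π s b| ≤ 2 := (abs_qz_le π s b).trans (by exact_mod_cast hb)
    have h := cos_int_quad hq φ
    rw [qz_cast] at h
    rw [h]
    ring
  unfold Zf
  rw [Finset.sum_congr rfl fun π _ => Finset.sum_congr rfl fun s _ => key π s]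
  simp only [Finset.sum_add_distrib, Finset.sum_sub_distrib, ← Finset.sum_mul, ← Finset.sum_div]

/-- **Discriminant of the twist polynomial of two nodes.** -/
theorem disc_two {μ : Equiv.Perm X → ℝ} {θ : X → ℝ} (hμ : ∀ π, 0 ≤ μ π)
    (hθ : ∀ x, 0 ≤ θ x) (hZ : 0 < ZZ μ θ) (hst : Stable μ θ) {b : Finset X} (hb : b.card ≤ 2) :
    8 * (Zf μ θ b (Real.pi / 2) *
        (Zf μ θ b 0 + Zf μ θ b Real.pi - 2 * Zf μ θ b (Real.pi / 2))) ≤
      (Zf μ θ b 0 - Zf μ θ b Real.pi) ^ 2 := by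
  classical
  set α := Zf μ θ b (Real.pi / 2) with hα
  set β := (Zf μ θ b 0 - Zf μ θ b Real.pi) / 2 with hβ
  set γ := (Zf μ θ b 0 + Zf μ θ b Real.pi) / 2 - Zf μ θ b (Real.pi / 2) with hγ
  have hpoly : FP μ θ b = Polynomial.C α + Polynomial.C β * Polynomial.X +
      Polynomial.C γ * Polynomial.X ^ 2 := by
    refine Polynomial.eq_of_infinite_eval_eq _ _ ?_
    refine Set.Infinite.mono (s := Set.Icc (-1 : ℝ) 1) ?_ (Set.Icc_infinite (by norm_num))
    intro t ht
    have h1 : Real.cos (Real.arccos t) = t := Real.cos_arccos ht.1 ht.2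
    show (FP μ θ b).eval t = _
    rw [← h1, FP_eval_cos, Zf_quad μ θ hb]
    simp
    rfl
  by_contra hcon
  push Not at hcon
  have hdisc : β ^ 2 < 4 * α * γ := by
    rw [hβ, hγ]
    nlinarith
  have hγ0 : γ ≠ 0 := by
    intro h0
    rw [h0] at hdisc
    nlinarith [sq_nonneg β]
  set D := Real.sqrt (4 * α * γ - β ^ 2) with hD
  have hDpos : 0 < D := Real.sqrt_pos.2 (by linarith)
  have hD2 : D ^ 2 = 4 * α * γ - β ^ 2 := Real.sq_sqrt (by linarith)
  set τ : ℂ := (-(β : ℂ) + (D : ℂ) * Complex.I) / (2 * (γ : ℂ)) with hτ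
  have hγc : (γ : ℂ) ≠ 0 := by exact_mod_cast hγ0
  have hD2c : (D : ℂ) ^ 2 = 4 * (α : ℂ) * (γ : ℂ) - (β : ℂ) ^ 2 := by exact_mod_cast hD2
  have hroot : ((FP μ θ b).map (algebraMap ℝ ℂ)).eval τ = 0 := by
    rw [hpoly]
    simp only [Polynomial.map_add, Polynomial.map_mul, Polynomial.map_pow, Polynomial.map_C,
      Polynomial.map_X, Polynomial.eval_add, Polynomial.eval_mul, Polynomial.eval_pow,
      Polynomial.eval_C, Polynomial.eval_X, Complex.coe_algebraMap]
    rw [hτ]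
    field_simp
    have hI : Complex.I ^ 2 = -1 := Complex.I_sq
    linear_combination (-1 : ℂ) * hD2c + (D : ℂ) ^ 2 * hI
  obtain ⟨r, -, hr⟩ := FP_roots hμ hθ hZ hst b τ hroot
  have him : τ.im = 0 := by rw [hr]; simp
  have him2 : τ.im = D / (2 * γ) := by
    rw [hτ]
    have : (-(β : ℂ) + (D : ℂ) * Complex.I) / (2 * (γ : ℂ)) =
        (((-β / (2 * γ) : ℝ) : ℂ) + ((D / (2 * γ) : ℝ) : ℂ) * Complex.I) := by
      push_cast
      field_simp
    rw [this, Complex.add_im, Complex.ofReal_im, Complex.im_ofReal_mul, Complex.I_im]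
    ring
  rw [him2] at him
  have : D / (2 * γ) ≠ 0 := div_ne_zero hDpos.ne' (by simpa using hγ0)
  exact this him

end

end Vale.Agent.P361.LRO.PairS
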