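import Vale.Agent.P361.LRO.Bloch.TwistPow
import Vale.Agent.P361.LRO.Tw.Gibbs
import Vale.Agent.P361.LRO.Tw.Subset

/-!
P361, stage 3, block (M), part (P) of helper836's note 10606: the pair inequality.
For two sites `x ≠ y`, `n_x = 1/2 - S³_x`: if `<n_x>, <n_y> ≤ η ≤ 1/4` then
`<n_x n_y> ≤ 8 η²`.  Proof: for the block `b = {x, y}` and the full slice (`θ = 1`) the twisted
partition function is a quadratic polynomial in `cos φ` with real roots (strong Rayleigh), its
discriminant is `(a-d)² - u (2 (a+d) - u) ≥ 0`, `u = a + b + c + d + R`, `|R| ≤ b + c`.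
-/

namespace Vale.Agent.P361.LRO.S3P

open Finset Matrix Filter Topology

set_option linter.unusedSectionVars false
set_option linter.unnecessarySeqFocus false

noncomputable section

/-- A real quadratic polynomial with only real complex roots has nonnegative discriminant. -/
theorem disc_of_roots (F : Polynomial ℝ) (hdeg : F.natDegree ≤ 2)
    (hroots : ∀ τ : ℂ, (F.map (algebraMap ℝ ℂ)).eval τ = 0 → ∃ r : ℝ, r ≤ -1 ∧ τ = (r : ℂ)) :
    4 * F.eval 0 * ((F.eval 1 + F.eval (-1)) / 2 - F.eval 0) ≤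
      ((F.eval 1 - F.eval (-1)) / 2) ^ 2 := by
  have hev : ∀ t : ℝ, F.eval t = F.coeff 0 + F.coeff 1 * t + F.coeff 2 * t ^ 2 := by
    intro t
    rw [Polynomial.eval_eq_sum_range' (n := 3) (by omega)]
    simp [Finset.sum_range_succ]
  have hevc : ∀ τ : ℂ, (F.map (algebraMap ℝ ℂ)).eval τ =
      F.coeff 0 + F.coeff 1 * τ + F.coeff 2 * τ ^ 2 := by
    intro τ
    rw [Polynomial.eval_eq_sum_range' (n := 3) (by
      have := Polynomial.natDegree_map_le (p := F) (f := algebraMap ℝ ℂ)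
      omega)]
    simp [Finset.sum_range_succ]
  set A := F.coeff 0
  set B := F.coeff 1
  set C := F.coeff 2
  have h0 : F.eval 0 = A := by rw [hev]; ring
  have h1 : F.eval 1 = A + B + C := by rw [hev]; ring
  have h2 : F.eval (-1) = A - B + C := by rw [hev]; ring
  rw [h0, h1, h2]
  by_contra hlt
  push Not at hlt
  have hd : 0 < 4 * A * C - B ^ 2 := by nlinarith
  have hC : C ≠ 0 := by
    rintro hC
    rw [hC] at hd
    nlinarith [sq_nonneg B]
  set D := Real.sqrt (4 * A * C - B ^ 2) with hD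
  have hDp : 0 < D := Real.sqrt_pos.2 hd
  have hDs : D ^ 2 = 4 * A * C - B ^ 2 := Real.sq_sqrt hd.le
  have hCc : (C : ℂ) ≠ 0 := by exact_mod_cast hC
  set τ : ℂ := (-(B : ℂ) + D * Complex.I) / (2 * C) with hτ
  have hDsc : (D : ℂ) ^ 2 = 4 * A * C - B ^ 2 := by exact_mod_cast hDs
  have hz : (F.map (algebraMap ℝ ℂ)).eval τ = 0 := by
    rw [hevc, hτ]
    field_simp
    have hI : Complex.I ^ 2 = -1 := Complex.I_sq
    linear_combination (D : ℂ) ^ 2 * hI - hDsc
  obtain ⟨r, -, hr⟩ := hroots τ hz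
  have him : τ.im = D / (2 * C) := by
    have h3 : τ = ((-B / (2 * C) : ℝ) : ℂ) + ((D / (2 * C) : ℝ) : ℂ) * Complex.I := by
      rw [hτ]
      push_cast
      field_simp
    rw [h3, Complex.add_im, Complex.ofReal_im, Complex.im_ofReal_mul, Complex.I_im]
    ring
  rw [hr, Complex.ofReal_im] at him
  have : D / (2 * C) ≠ 0 := div_ne_zero hDp.ne' (mul_ne_zero two_ne_zero hC)
  exact this him.symm

section X

variable {X : Type} [Fintype X] [DecidableEq X]

omit [Fintype X] [DecidableEq X] in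
theorem qz_natAbs_le (π : Equiv.Perm X) (s : X → Fin 2) (b : Finset X) :
    (qz π s b).natAbs ≤ b.card := by
  have h1 : |qz π s b| ≤ ((b.card : ℕ) : ℤ) := by
    unfold qz
    refine le_trans (Finset.abs_sum_le_sum_abs _ _) ?_
    calc ∑ x ∈ b, |(((s x : ℕ) : ℤ) - ((s (π x) : ℕ) : ℤ))| ≤ ∑ x ∈ b, (1 : ℤ) := by
          refine Finset.sum_le_sum fun x _ => ?_
          have := (s x).isLt
          have := (s (π x)).isLt
          rw [abs_le]
          omega
      _ = ((b.card : ℕ) : ℤ) := by simp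
  rw [Int.abs_eq_natAbs] at h1
  exact_mod_cast h1

theorem FP_natDegree_le (μ : Equiv.Perm X → ℝ) (θ : X → ℝ) (b : Finset X) :
    (FP μ θ b).natDegree ≤ b.card := by
  unfold FP
  refine Polynomial.natDegree_sum_le_of_forall_le _ _ fun π _ => ?_
  refine Polynomial.natDegree_sum_le_of_forall_le _ _ fun s _ => ?_
  refine le_trans (Polynomial.natDegree_C_mul_le _ _) ?_
  rw [Polynomial.Chebyshev.natDegree_T]
  exact qz_natAbs_le π s b

theorem Zf_disc {μ : Equiv.Perm X → ℝ} {θ : X → ℝ} (hμ : ∀ π, 0 ≤ μ π)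
    (hθ : ∀ x, 0 ≤ θ x) (hZ : 0 < ZZ μ θ) (hst : Stable μ θ) (b : Finset X) (hb : b.card ≤ 2) :
    4 * Zf μ θ b (Real.pi / 2) * ((Zf μ θ b 0 + Zf μ θ b Real.pi) / 2 - Zf μ θ b (Real.pi / 2)) ≤
      ((Zf μ θ b 0 - Zf μ θ b Real.pi) / 2) ^ 2 := by
  have h := disc_of_roots (FP μ θ b) ((FP_natDegree_le μ θ b).trans hb) (FP_roots hμ hθ hZ hst b)
  have h0 := FP_eval_cos μ θ b (Real.pi / 2)
  have h1 := FP_eval_cos μ θ b 0
  have h2 := FP_eval_cos μ θ b Real.pi
  rw [Real.cos_pi_div_two] at h0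
  rw [Real.cos_zero] at h1
  rw [Real.cos_pi] at h2
  rw [← h0, ← h1, ← h2]
  exact h

end X

variable {V : Type} [Fintype V] [DecidableEq V]

/-- Discriminant inequality for the weight `W`. -/
def DI (W : Matrix (V → Fin 2) (V → Fin 2) ℝ) (b : Finset V) (θ : ℝ) : Prop :=
  4 * ZTw W b θ (Real.pi / 2) *
      ((ZTw W b θ 0 + ZTw W b θ Real.pi) / 2 - ZTw W b θ (Real.pi / 2)) ≤
    ((ZTw W b θ 0 - ZTw W b θ Real.pi) / 2) ^ 2

theorem DI_gibbs_K (L : List (V × V)) {β : ℝ} (hβ : 0 < β) {h : V → ℝ} (hh : ∀ x, 0 ≤ h x)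
    {K : ℝ} (hK : 0 ≤ K) (b : Finset V) (hb : b.card ≤ 2) :
    DI (NormedSpace.exp (-β • ham L h)) b (Real.tanh (K / (2 * b.card))) := by
  have hcont : ∀ φ : ℝ, Tendsto (fun N : ℕ => ZTw (stepM L β h N ^ N) b
      (Real.tanh (K / (2 * b.card))) φ) atTop
      (𝓝 (ZTw (NormedSpace.exp (-β • ham L h)) b (Real.tanh (K / (2 * b.card))) φ)) := by
    intro φ
    simp only [ZTw_eq]
    refine tendsto_finsetSum _ fun σ _ => tendsto_finsetSum _ fun τ _ => ?_
    refine Tendsto.mul_const _ ?_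
    have h1 := tendsto_pi_nhds.1 (stepM_tendsto L β h) σ
    exact tendsto_pi_nhds.1 h1 τ
  unfold DI
  refine le_of_tendsto_of_tendsto
    (((hcont _).const_mul 4).mul ((((hcont 0).add (hcont Real.pi)).div_const 2).sub (hcont _)))
    ((((hcont 0).sub (hcont Real.pi)).div_const 2).pow 2) ?_
  filter_upwards [Bloch.phys_good L hβ hh hK b] with N hN
  obtain ⟨hl, ht⟩ := hN
  have h3 := Zf_disc hl.nonneg (fun z => (ht z).1) (ZZ_pos hl fun z => (ht z).1)
    (SR.stable_of_isLaw hl ht) (hatb N b) (by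
      unfold hatb
      rw [Finset.card_product, Finset.card_singleton, one_mul]
      exact hb)
  simp only [Zf_phys] at h3
  exact h3

theorem DI_gibbs (L : List (V × V)) {β : ℝ} (hβ : 0 < β) {h : V → ℝ} (hh : ∀ x, 0 ≤ h x)
    {b : Finset V} (hb : b.card = 2) :
    DI (NormedSpace.exp (-β • ham L h)) b 1 := by
  have h1 : ∀ θ ∈ Set.Ioo (0 : ℝ) 1, DI (NormedSpace.exp (-β • ham L h)) b θ := by
    intro θ hθ
    have h2 := DI_gibbs_K L hβ hh (K := 4 * Real.artanh θ)
      (by have := (Real.artanh_pos hθ).le; positivity) b hb.le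
    rw [hb] at h2
    have h3 : 4 * Real.artanh θ / (2 * ((2 : ℕ) : ℝ)) = Real.artanh θ := by
      push_cast; ring
    rw [h3, Real.tanh_artanh ⟨by linarith [hθ.1], hθ.2⟩] at h2
    exact h2
  have hc : ∀ φ : ℝ, Continuous fun θ : ℝ => ZTw (NormedSpace.exp (-β • ham L h)) b θ φ := by
    intro φ
    simp only [ZTw_eq]
    refine continuous_finsetSum _ fun σ _ => continuous_finsetSum _ fun τ _ =>
      continuous_const.mul ?_
    unfold rotT
    simp only [Matrix.of_apply]
    refine continuous_finsetProd _ fun x _ => ?_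
    by_cases hx : x ∈ b
    · simp only [hx, if_true]
      generalize τ x = i
      generalize σ x = j
      fin_cases i <;> fin_cases j <;> simp only [rotM] <;> simp <;> fun_prop
    · simp only [hx, if_false]
      exact continuous_const
  have hcl : IsClosed {θ : ℝ | DI (NormedSpace.exp (-β • ham L h)) b θ} := by
    unfold DI
    refine isClosed_le ?_ ?_
    · exact (continuous_const.mul (hc _)).mul ((((hc 0).add (hc Real.pi)).div_const 2).sub (hc _))
    · exact (((hc 0).sub (hc Real.pi)).div_const 2).pow 2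
  have h4 : closure (Set.Ioo (0 : ℝ) 1) ⊆ {θ : ℝ | DI (NormedSpace.exp (-β • ham L h)) b θ} :=
    closure_minimal h1 hcl
  rw [closure_Ioo (by norm_num)] at h4
  exact h4 ⟨by norm_num, le_rfl⟩

/-! ### The three values -/

/-- Mass of the configurations with prescribed values at `x` and `y`. -/
def ms (W : Matrix (V → Fin 2) (V → Fin 2) ℝ) (x y : V) (i j : Fin 2) : ℝ :=
  ∑ σ : V → Fin 2, if σ x = i ∧ σ y = j then W σ σ else 0

/-- Exchange mass. -/
def xs (W : Matrix (V → Fin 2) (V → Fin 2) ℝ) (x y : V) : ℝ :=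
  ∑ σ : V → Fin 2, if σ x = σ y then 0 else W σ (σ ∘ Equiv.swap x y)

theorem prod_pair_split {x y : V} (hxy : x ≠ y) (f : V → ℝ) :
    ∏ z, f z = f x * (f y * ∏ z ∈ (univ.erase x).erase y, f z) := by
  rw [← Finset.mul_prod_erase univ f (mem_univ x),
    ← Finset.mul_prod_erase (univ.erase x) f (mem_erase.2 ⟨hxy.symm, mem_univ y⟩)]

theorem rotT_diag {x y : V} (hxy : x ≠ y) {φ : ℝ} {i : Fin 2}
    (hr : ∀ a a' : Fin 2, rotM 1 φ a a' = if a = i ∧ a' = i then 2 else 0)
    (W : Matrix (V → Fin 2) (V → Fin 2) ℝ) :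
    ZTw W {x, y} 1 φ = 4 * ms W x y i i := by
  rw [ZTw_eq]
  unfold ms
  rw [Finset.mul_sum]
  refine Finset.sum_congr rfl fun σ _ => ?_
  rw [Finset.sum_eq_single σ]
  · unfold rotT
    rw [Matrix.of_apply, prod_pair_split hxy]
    have h1 : ∏ z ∈ (univ.erase x).erase y, (if z ∈ ({x, y} : Finset V) then
        rotM 1 φ (σ z) (σ z) else if σ z = σ z then 1 else 0) = 1 := by
      refine Finset.prod_eq_one fun z hz => ?_
      rw [mem_erase, mem_erase] at hz
      rw [if_neg (by simp [hz.1, hz.2.1]), if_pos rfl]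
    rw [h1, hr, hr]
    simp only [mem_insert, mem_singleton, true_or, or_true, if_true, and_self, mul_one]
    by_cases h2 : σ x = i
    · by_cases h3 : σ y = i
      · simp [h2, h3]; ring
      · simp [h2, h3]
    · simp [h2]
  · intro τ _ hτ
    unfold rotT
    rw [Matrix.of_apply]
    obtain ⟨z, hz⟩ := Function.ne_iff.1 hτ
    have h1 : (∏ z, if z ∈ ({x, y} : Finset V) then rotM 1 φ (τ z) (σ z)
        else if τ z = σ z then 1 else 0) = 0 := by
      refine Finset.prod_eq_zero (mem_univ z) ?_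
      split_ifs
      · rw [hr, if_neg]
        rintro ⟨h3, h4⟩
        exact hz (h3.trans h4.symm)
      · rfl
    rw [h1, mul_zero]
  · intro h; exact absurd (mem_univ σ) h

theorem rotM_one_zero (a a' : Fin 2) : rotM 1 0 a a' = if a = 0 ∧ a' = 0 then 2 else 0 := by
  unfold rotM
  fin_cases a <;> fin_cases a' <;> simp <;> norm_num

theorem rotM_one_pi (a a' : Fin 2) :
    rotM 1 Real.pi a a' = if a = 1 ∧ a' = 1 then 2 else 0 := by
  unfold rotM
  fin_cases a <;> fin_cases a' <;> simp <;> norm_num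

theorem rotM_one_half (a a' : Fin 2) : rotM 1 (Real.pi / 2) a a' = 1 := by
  unfold rotM
  fin_cases a <;> fin_cases a' <;> simp

theorem rotT_half {x y : V} (σ τ : V → Fin 2) :
    rotT {x, y} 1 (Real.pi / 2) τ σ =
      if ∀ z, z ∉ ({x, y} : Finset V) → τ z = σ z then 1 else 0 := by
  unfold rotT
  rw [Matrix.of_apply]
  split_ifs with h
  · refine Finset.prod_eq_one fun z _ => ?_
    by_cases hz : z ∈ ({x, y} : Finset V)
    · rw [if_pos hz, rotM_one_half]
    · rw [if_neg hz, if_pos (h z hz)]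
  · push Not at h
    obtain ⟨z, hz, hne⟩ := h
    refine Finset.prod_eq_zero (mem_univ z) ?_
    rw [if_neg hz, if_neg hne]

theorem off_cases {x y : V} (hxy : x ≠ y) {σ τ : V → Fin 2}
    (h : ∀ z, z ∉ ({x, y} : Finset V) → τ z = σ z) (hd : Tw.dn univ τ = Tw.dn univ σ) :
    τ = σ ∨ τ = σ ∘ Equiv.swap x y := by
  have h1 := Tw.dn_eq_of_off h hd
  unfold Tw.dn at h1
  rw [Finset.sum_pair hxy, Finset.sum_pair hxy] at h1
  have h2 : ∀ z, z ≠ x → z ≠ y → τ z = σ z := fun z hzx hzy => h z (by simp [hzx, hzy])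
  have hsx := (σ x).isLt
  have hsy := (σ y).isLt
  have htx := (τ x).isLt
  have hty := (τ y).isLt
  by_cases h3 : (τ x : ℕ) = (σ x : ℕ)
  · left
    funext z
    by_cases hzx : z = x
    · subst hzx; exact Fin.ext h3
    · by_cases hzy : z = y
      · subst hzy; exact Fin.ext (by omega)
      · exact h2 z hzx hzy
  · right
    funext z
    by_cases hzx : z = x
    · subst hzx
      simp only [Function.comp_apply, Equiv.swap_apply_left]
      exact Fin.ext (by omega)
    · by_cases hzy : z = y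
      · subst hzy
        simp only [Function.comp_apply, Equiv.swap_apply_right]
        exact Fin.ext (by omega)
      · simp only [Function.comp_apply]
        rw [Equiv.swap_apply_of_ne_of_ne hzx hzy]
        exact h2 z hzx hzy

theorem swap_ne {x y : V} {σ : V → Fin 2} (h : σ x ≠ σ y) : σ ∘ Equiv.swap x y ≠ σ := by
  intro h1
  have h2 := congrFun h1 x
  simp only [Function.comp_apply, Equiv.swap_apply_left] at h2
  exact h h2.symm

theorem swap_eq {x y : V} {σ : V → Fin 2} (h : σ x = σ y) : σ ∘ Equiv.swap x y = σ := by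
  funext z
  simp only [Function.comp_apply]
  by_cases hzx : z = x
  · subst hzx; rw [Equiv.swap_apply_left]; exact h.symm
  · by_cases hzy : z = y
    · subst hzy; rw [Equiv.swap_apply_right]; exact h
    · rw [Equiv.swap_apply_of_ne_of_ne hzx hzy]

theorem ZTw_half {x y : V} (hxy : x ≠ y) {W : Matrix (V → Fin 2) (V → Fin 2) ℝ}
    (hW : Tw.Cons W) :
    ZTw W {x, y} 1 (Real.pi / 2) = Matrix.trace W + xs W x y := by
  rw [ZTw_eq]
  unfold xs Matrix.trace
  rw [← Finset.sum_add_distrib]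
  refine Finset.sum_congr rfl fun σ _ => ?_
  simp only [rotT_half, Matrix.diag_apply]
  by_cases hs : σ x = σ y
  · rw [if_pos hs, add_zero, Finset.sum_eq_single σ]
    · simp
    · intro τ _ hτ
      by_cases h1 : W σ τ = 0
      · rw [h1, zero_mul]
      · rw [if_neg, mul_zero]
        intro h2
        rcases off_cases hxy h2 (hW σ τ h1).symm with h3 | h3
        · exact hτ h3
        · rw [swap_eq hs] at h3
          exact hτ h3
    · intro h; exact absurd (mem_univ σ) h
  · rw [if_neg hs, ← Finset.sum_subset (Finset.subset_univ {σ, σ ∘ Equiv.swap x y})]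
    · rw [Finset.sum_pair (swap_ne hs).symm, if_pos (fun z _ => rfl), if_pos, mul_one, mul_one]
      intro z hz
      simp only [mem_insert, mem_singleton, not_or] at hz
      simp only [Function.comp_apply]
      rw [Equiv.swap_apply_of_ne_of_ne hz.1 hz.2]
    · intro τ _ hτ
      simp only [mem_insert, mem_singleton, not_or] at hτ
      by_cases h1 : W σ τ = 0
      · rw [h1, zero_mul]
      · rw [if_neg, mul_zero]
        intro h2
        rcases off_cases hxy h2 (hW σ τ h1).symm with h3 | h3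
        · exact hτ.1 h3
        · exact hτ.2 h3

theorem two_mul_abs_le {ι : Type} [Fintype ι] [DecidableEq ι] {W : Matrix ι ι ℝ}
    (hW : W.PosSemidef) (i j : ι) : 2 * |W i j| ≤ W i i + W j j := by
  have hsym : W j i = W i j := by
    have := hW.1.apply i j
    simpa using this
  have h1 : ∀ s : ℝ, 0 ≤ W i i + s * (2 * W i j) + s ^ 2 * W j j := by
    intro s
    have h2 := hW.dotProduct_mulVec_nonneg (Pi.single i 1 + s • Pi.single j 1)
    simp only [star_trivial, Matrix.mulVec_add, Matrix.mulVec_smul, dotProduct_add,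
      add_dotProduct, dotProduct_smul, smul_dotProduct, Matrix.mulVec_single_one,
      single_one_dotProduct, smul_eq_mul, Matrix.col_apply] at h2
    rw [hsym] at h2
    nlinarith [h2]
  have h3 := h1 1
  have h4 := h1 (-1)
  rcases abs_cases (W i j) with h | h <;> rw [h.1] <;> nlinarith

theorem xs_abs_le {x y : V} {W : Matrix (V → Fin 2) (V → Fin 2) ℝ} (hW : W.PosSemidef) :
    |xs W x y| ≤ ∑ σ : V → Fin 2, if σ x = σ y then 0 else W σ σ := by
  unfold xs
  refine (Finset.abs_sum_le_sum_abs _ _).trans ?_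
  have h1 : ∑ σ : V → Fin 2, |if σ x = σ y then 0 else W σ (σ ∘ Equiv.swap x y)| ≤
      ∑ σ : V → Fin 2, ((if σ x = σ y then 0 else W σ σ) / 2 +
        (if σ x = σ y then 0 else W (σ ∘ Equiv.swap x y) (σ ∘ Equiv.swap x y)) / 2) := by
    refine Finset.sum_le_sum fun σ _ => ?_
    split_ifs
    · simp
    · have := two_mul_abs_le hW σ (σ ∘ Equiv.swap x y)
      linarith
  refine h1.trans (le_of_eq ?_)
  rw [Finset.sum_add_distrib]
  have h2 : ∑ σ : V → Fin 2, (if σ x = σ y then 0 else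
      W (σ ∘ Equiv.swap x y) (σ ∘ Equiv.swap x y)) / 2 =
      ∑ σ : V → Fin 2, (if σ x = σ y then 0 else W σ σ) / 2 := by
    refine Finset.sum_nbij' (fun σ => σ ∘ Equiv.swap x y) (fun σ => σ ∘ Equiv.swap x y)
      (fun _ _ => mem_univ _) (fun _ _ => mem_univ _) ?_ ?_ ?_
    · intro σ _; funext z; simp
    · intro σ _; funext z; simp
    · intro σ _
      simp only [Function.comp_apply, Equiv.swap_apply_left, Equiv.swap_apply_right]
      by_cases h : σ x = σ y
      · rw [if_pos h, if_pos h.symm]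
      · rw [if_neg h, if_neg (Ne.symm h)]
  rw [h2, ← Finset.sum_add_distrib]
  refine Finset.sum_congr rfl fun σ _ => ?_
  ring

theorem trace_split {x y : V} (W : Matrix (V → Fin 2) (V → Fin 2) ℝ) :
    Matrix.trace W = ms W x y 0 0 + ms W x y 1 1 +
      ∑ σ : V → Fin 2, if σ x = σ y then 0 else W σ σ := by
  unfold Matrix.trace ms
  rw [← Finset.sum_add_distrib, ← Finset.sum_add_distrib]
  refine Finset.sum_congr rfl fun σ _ => ?_
  rw [Matrix.diag_apply]
  generalize σ x = i
  generalize σ y = j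
  fin_cases i <;> fin_cases j <;> simp

theorem ms_nonneg {W : Matrix (V → Fin 2) (V → Fin 2) ℝ} (hW : W.PosSemidef) (x y : V)
    (i j : Fin 2) : 0 ≤ ms W x y i j := by
  unfold ms
  refine Finset.sum_nonneg fun σ _ => ?_
  split_ifs
  · exact hW.diag_nonneg
  · exact le_rfl

/-- The core inequality: `a d ≤ (b + c)²` (unnormalised), general weight. -/
theorem ad_le_of_DI {W : Matrix (V → Fin 2) (V → Fin 2) ℝ} (hpsd : W.PosSemidef)
    (hcons : Tw.Cons W) {x y : V} (hxy : x ≠ y) (hD : DI W {x, y} 1) :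
    ms W x y 0 0 * ms W x y 1 1 ≤
      (∑ σ : V → Fin 2, if σ x = σ y then 0 else W σ σ) ^ 2 := by
  unfold DI at hD
  rw [rotT_diag hxy rotM_one_zero, rotT_diag hxy rotM_one_pi, ZTw_half hxy hcons,
    trace_split (x := x) (y := y)] at hD
  have hx := xs_abs_le (x := x) (y := y) hpsd
  set a := ms W x y 0 0
  set d := ms W x y 1 1
  set S := ∑ σ : V → Fin 2, if σ x = σ y then 0 else W σ σ
  set R := xs W x y
  have h1 := abs_le.1 hx
  nlinarith [mul_nonneg (by linarith [h1.1] : 0 ≤ S + R) (by linarith [h1.2] : 0 ≤ S - R)]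

theorem nM_mul (x y : V) : (((1 / 2 : ℝ) • (1 - szM x)) * ((1 / 2 : ℝ) • (1 - szM y)) :
    Matrix (V → Fin 2) (V → Fin 2) ℝ) =
      Matrix.diagonal fun σ => if σ x = 1 ∧ σ y = 1 then 1 else 0 := by
  unfold szM
  rw [← Matrix.diagonal_one, Matrix.diagonal_sub, Matrix.diagonal_sub, ← Matrix.diagonal_smul,
    ← Matrix.diagonal_smul, Matrix.diagonal_mul_diagonal]
  congr 1
  funext σ
  simp only [Pi.smul_apply, smul_eq_mul]
  generalize σ x = i
  generalize σ y = j
  fin_cases i <;> fin_cases j <;> simp <;> norm_num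

theorem nM_eq (x : V) : ((1 / 2 : ℝ) • (1 - szM x) : Matrix (V → Fin 2) (V → Fin 2) ℝ) =
      Matrix.diagonal fun σ => if σ x = 1 then 1 else 0 := by
  unfold szM
  rw [← Matrix.diagonal_one, Matrix.diagonal_sub, ← Matrix.diagonal_smul]
  congr 1
  funext σ
  simp only [Pi.smul_apply, smul_eq_mul]
  generalize σ x = i
  fin_cases i <;> simp <;> norm_num

theorem trace_mul_diag (W : Matrix (V → Fin 2) (V → Fin 2) ℝ) (f : (V → Fin 2) → ℝ) :
    Matrix.trace (W * Matrix.diagonal f) = ∑ σ, W σ σ * f σ := by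
  unfold Matrix.trace
  refine Finset.sum_congr rfl fun σ _ => ?_
  rw [Matrix.diag_apply, Matrix.mul_diagonal]

/-- **(P)**, general weight `W` (PSD, conserving, discriminant inequality). -/
theorem pair_le_of_DI {W : Matrix (V → Fin 2) (V → Fin 2) ℝ} (hpsd : W.PosSemidef)
    (hcons : Tw.Cons W) (hZ : 0 < Matrix.trace W) {x y : V} (hxy : x ≠ y) (hD : DI W {x, y} 1)
    {η : ℝ} (hη : η ≤ 1 / 4)
    (hx : Matrix.trace (W * ((1 / 2 : ℝ) • (1 - szM x))) / Matrix.trace W ≤ η)
    (hy : Matrix.trace (W * ((1 / 2 : ℝ) • (1 - szM y))) / Matrix.trace W ≤ η) :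
    Matrix.trace (W * (((1 / 2 : ℝ) • (1 - szM x)) * ((1 / 2 : ℝ) • (1 - szM y)))) /
      Matrix.trace W ≤ 8 * η ^ 2 := by
  have had := ad_le_of_DI hpsd hcons hxy hD
  have hZs := trace_split (x := x) (y := y) W
  rw [div_le_iff₀ hZ, nM_eq, trace_mul_diag] at hx hy
  rw [div_le_iff₀ hZ, nM_mul, trace_mul_diag]
  have hd : ∑ σ : V → Fin 2, W σ σ * (if σ x = 1 ∧ σ y = 1 then 1 else 0) = ms W x y 1 1 := by
    unfold ms
    refine Finset.sum_congr rfl fun σ _ => ?_
    split_ifs <;> simp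
  rw [hd]
  have hsum : (∑ σ : V → Fin 2, W σ σ * (if σ x = 1 then 1 else 0)) +
      ∑ σ : V → Fin 2, W σ σ * (if σ y = 1 then 1 else 0) =
      2 * ms W x y 1 1 + ∑ σ : V → Fin 2, if σ x = σ y then 0 else W σ σ := by
    unfold ms
    rw [Finset.mul_sum, ← Finset.sum_add_distrib, ← Finset.sum_add_distrib]
    refine Finset.sum_congr rfl fun σ _ => ?_
    generalize σ x = i
    generalize σ y = j
    fin_cases i <;> fin_cases j <;> simp <;> ring
  have ha0 := ms_nonneg hpsd x y 0 0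
  have hd0 := ms_nonneg hpsd x y 1 1
  have hS0 : 0 ≤ ∑ σ : V → Fin 2, if σ x = σ y then 0 else W σ σ := by
    refine Finset.sum_nonneg fun σ _ => ?_
    split_ifs
    · exact le_rfl
    · exact hpsd.diag_nonneg
  set a := ms W x y 0 0
  set d := ms W x y 1 1
  set S := ∑ σ : V → Fin 2, if σ x = σ y then 0 else W σ σ
  set Z := Matrix.trace W
  have h1 : 2 * d + S ≤ 2 * η * Z := by linarith
  have h2 : Z / 2 ≤ a := by nlinarith
  have h3 : S ≤ 2 * η * Z := by linarith
  have h4 : S ^ 2 ≤ (2 * η * Z) ^ 2 := by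
    apply pow_le_pow_left₀ hS0 h3
  have h5 : Z / 2 * d ≤ (2 * η * Z) ^ 2 :=
    (mul_le_mul_of_nonneg_right h2 hd0).trans (had.trans h4)
  have h6 : Z * d ≤ Z * (8 * η ^ 2 * Z) := by nlinarith
  exact le_of_mul_le_mul_left h6 hZ

/-- **(P)**: the pair inequality. -/
theorem pair_le (L : List (V × V)) {β : ℝ} (hβ : 0 < β) {h : V → ℝ} (hh : ∀ x, 0 ≤ h x)
    {x y : V} (hxy : x ≠ y) {η : ℝ} (hη : η ≤ 1 / 4) (hx : rho L β h x ≤ η)
    (hy : rho L β h y ≤ η) :
    gib L β h (((1 / 2 : ℝ) • (1 - szM x)) * ((1 / 2 : ℝ) • (1 - szM y))) ≤ 8 * η ^ 2 :=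
  pair_le_of_DI (Tw.expH_psd L β h) (fun σ τ hd => Tw.expH_cons L β h σ τ hd)
    (Tw.trace_expH_pos L β h) hxy (DI_gibbs L hβ hh (Finset.card_pair hxy)) hη hx hy

end

end Vale.Agent.P361.LRO.S3P
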