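import Vale.Agent.P361.LRO.S3.PairSR
import Vale.Agent.P361.LRO.S3.Mean

/-!
P361, stage 3, block (M), item (D): the pair operator of the edges in the Gibbs state.
-/

namespace Vale.Agent.P361.LRO.S3P

open Finset Matrix

noncomputable section

variable {V : Type} [Fintype V] [DecidableEq V]

theorem pair_le_nM (L : List (V × V)) {β : ℝ} (hβ : 0 < β) {h : V → ℝ} (hh : ∀ x, 0 ≤ h x)
    {x y : V} (hxy : x ≠ y) {η : ℝ} (hη : η ≤ 1 / 4) (hx : rho L β h x ≤ η)
    (hy : rho L β h y ≤ η) : gib L β h (S3.nM x * S3.nM y) ≤ 8 * η ^ 2 := by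
  rw [S3.nM_eq, S3.nM_eq]
  exact pair_le L hβ hh hxy hη hx hy

theorem gib_WL_le (L M : List (V × V)) (hM : ∀ e ∈ M, e.1 ≠ e.2) {β : ℝ} (hβ : 0 < β)
    {h : V → ℝ} (hh : ∀ x, 0 ≤ h x) {η : ℝ} (hη : η ≤ 1 / 4) (hr : ∀ x, rho L β h x ≤ η) :
    gib L β h (S3.Mean.WL M) ≤ 8 * M.length * η ^ 2 := by
  induction M with
  | nil => simp [S3.Mean.WL, gib]
  | cons e M ih =>
    have ih' := ih fun e' he' => hM e' (List.mem_cons_of_mem _ he')
    have h1 := pair_le_nM L hβ hh (hM e List.mem_cons_self) hη (hr e.1) (hr e.2)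
    have h2 : S3.Mean.WL (e :: M) = S3.nM e.1 * S3.nM e.2 + S3.Mean.WL M := by
      simp [S3.Mean.WL]
    rw [h2, S3.Mean.gib_add, List.length_cons]
    push_cast
    linarith

theorem edges_length (n : ℕ) [NeZero n] : (edges n).length = 3 * n ^ 3 := by
  unfold edges
  rw [List.length_map, Finset.length_toList, Finset.card_univ, Fintype.card_prod,
    Fintype.card_fin, Fintype.card_fun, ZMod.card, Fintype.card_fin]
  ring

theorem edges_ne (n : ℕ) [NeZero n] (hn : 2 ≤ n) : ∀ e ∈ edges n, e.1 ≠ e.2 := by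
  intro e he
  unfold edges at he
  rw [List.mem_map] at he
  obtain ⟨z, -, rfl⟩ := he
  intro h
  have h1 : (Pi.single z.2 (1 : ZMod n) : Tor n) = 0 := by
    have h2 : z.1 = z.1 + Pi.single z.2 1 := h
    exact left_eq_add.1 h2
  have h3 := congrFun h1 z.2
  rw [Pi.single_eq_same, Pi.zero_apply] at h3
  have : Fact (1 < n) := ⟨by omega⟩
  exact one_ne_zero h3

/-- **Item (D)**. -/
theorem gib_WL_torus (n : ℕ) [NeZero n] (hn : 2 ≤ n) {β : ℝ} (hβ : 0 < β)
    {h : Tor n → ℝ} (hh : ∀ x, 0 ≤ h x) {η : ℝ} (hη : η ≤ 1 / 4)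
    (hr : ∀ x, rho (edges n) β h x ≤ η) :
    gib (edges n) β h (S3.Mean.WL (edges n)) ≤ 24 * (n : ℝ) ^ 3 * η ^ 2 := by
  have h1 := gib_WL_le (edges n) (edges n) (edges_ne n hn) hβ hh hη hr
  rw [edges_length] at h1
  push_cast at h1
  linarith

end

end Vale.Agent.P361.LRO.S3P
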