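import Mathlib

/-!
P361, stage 3, block S3-A: the resolvent inequality.

`R = (1 + A)⁻¹`, `A` a symmetric nonnegative form with the Poincaré inequality
`|u - P u|² ≤ c <u, A u>` for an orthogonal projection `P`. Then `R ≤ P + c` as forms, and
`tr γ ≤ tr (γ (1 - R)) + tr (γ P) + c tr γ` for every `γ ≥ 0`.
-/

namespace Vale.Agent.P361.LRO.S3

open Matrix Finset

section Resolvent

variable {ι : Type*} [Fintype ι] [DecidableEq ι]

/-- `<f, R f> ≤ <f, P f> + c |f|²`. -/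
theorem resolv_quad (A R P : Matrix ι ι ℝ) (c : ℝ) (hc : 0 < c) (hR : (1 + A) * R = 1)
    (hPt : Pᵀ = P) (hPP : P * P = P)
    (hpo : ∀ u : ι → ℝ, (u - P *ᵥ u) ⬝ᵥ (u - P *ᵥ u) ≤ c * (u ⬝ᵥ A *ᵥ u)) (f : ι → ℝ) :
    f ⬝ᵥ R *ᵥ f ≤ f ⬝ᵥ P *ᵥ f + c * (f ⬝ᵥ f) := by
  set u := R *ᵥ f with hu
  have hf : f = u + A *ᵥ u := by
    have : (1 + A) *ᵥ u = f := by rw [hu, mulVec_mulVec, hR, one_mulVec]
    rw [← this, add_mulVec, one_mulVec]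
  -- the form `q = <f, u> = |u|² + <u, A u>`
  have hq : f ⬝ᵥ u = u ⬝ᵥ u + u ⬝ᵥ A *ᵥ u := by
    conv_lhs => rw [hf]
    rw [add_dotProduct, dotProduct_comm (A *ᵥ u) u]
  set p := P *ᵥ f with hp
  have hsym : ∀ x y : ι → ℝ, x ⬝ᵥ P *ᵥ y = (P *ᵥ x) ⬝ᵥ y := by
    intro x y
    rw [dotProduct_mulVec, ← mulVec_transpose, hPt]
  have h1 : f ⬝ᵥ u = p ⬝ᵥ u + f ⬝ᵥ (u - P *ᵥ u) := by
    rw [dotProduct_sub, hsym f u]; ring
  have hpp : p ⬝ᵥ p = f ⬝ᵥ P *ᵥ f := by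
    rw [hp, ← hsym, mulVec_mulVec, hPP]
  -- Young
  have y1 : p ⬝ᵥ u ≤ (1 / 2) * (p ⬝ᵥ p) + (1 / 2) * (u ⬝ᵥ u) := by
    have : 0 ≤ (p - u) ⬝ᵥ (p - u) := by
      rw [dotProduct]
      exact Finset.sum_nonneg fun i _ => mul_self_nonneg _
    rw [sub_dotProduct, dotProduct_sub, dotProduct_sub, dotProduct_comm u p] at this
    linarith
  have y2 : f ⬝ᵥ (u - P *ᵥ u) ≤
      (c / 2) * (f ⬝ᵥ f) + (1 / (2 * c)) * ((u - P *ᵥ u) ⬝ᵥ (u - P *ᵥ u)) := by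
    generalize u - P *ᵥ u = v
    have : 0 ≤ (c • f - v) ⬝ᵥ (c • f - v) := by
      rw [dotProduct]
      exact Finset.sum_nonneg fun i _ => mul_self_nonneg _
    simp only [sub_dotProduct, dotProduct_sub, smul_dotProduct, dotProduct_smul,
      dotProduct_comm v f] at this
    simp only [smul_eq_mul] at this
    have hc2 : 0 < 1 / (2 * c) := by positivity
    have h3 := mul_nonneg hc2.le this
    have e1 : 1 / (2 * c) * (c * (c * f ⬝ᵥ f - f ⬝ᵥ v) - (c * f ⬝ᵥ v - v ⬝ᵥ v)) =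
        (c / 2) * (f ⬝ᵥ f) - f ⬝ᵥ v + (1 / (2 * c)) * (v ⬝ᵥ v) := by
      field_simp
      ring
    rw [e1] at h3
    linarith
  have y3 : (1 / (2 * c)) * ((u - P *ᵥ u) ⬝ᵥ (u - P *ᵥ u)) ≤ (1 / 2) * (u ⬝ᵥ A *ᵥ u) := by
    have hc2 : 0 < 1 / (2 * c) := by positivity
    refine (mul_le_mul_of_nonneg_left (hpo u) hc2.le).trans (le_of_eq ?_)
    field_simp
  have := hq
  rw [h1] at this
  have h4 : f ⬝ᵥ u ≤ (1 / 2) * (p ⬝ᵥ p) + (c / 2) * (f ⬝ᵥ f) + (1 / 2) * (f ⬝ᵥ u) := by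
    rw [h1] at *
    linarith
  rw [← hpp]
  linarith

/-- `tr (γ M) ≥ 0` for `γ ≥ 0` and a nonnegative form `M`. -/
theorem trace_mul_nonneg_of_form {γ M : Matrix ι ι ℝ} (hγ : γ.PosSemidef)
    (hM : ∀ f : ι → ℝ, 0 ≤ f ⬝ᵥ M *ᵥ f) : 0 ≤ (γ * M).trace := by
  obtain ⟨B, rfl⟩ : ∃ B : Matrix ι ι ℝ, γ = Bᴴ * B := by
    open scoped MatrixOrder in
    exact (CStarAlgebra.nonneg_iff_eq_star_mul_self (a := γ)).1 hγ.nonneg
  rw [Matrix.mul_assoc, trace_mul_comm, Matrix.trace]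
  refine Finset.sum_nonneg fun i _ => ?_
  have := hM (fun j => B i j)
  have e : (B * M * Bᴴ) i i = (fun j => B i j) ⬝ᵥ M *ᵥ (fun j => B i j) := by
    rw [Matrix.mul_assoc, Matrix.mul_apply, dotProduct]
    refine Finset.sum_congr rfl fun j _ => ?_
    rw [Matrix.mul_apply, mulVec, dotProduct]
    simp [conjTranspose_apply]
  rw [diag_apply, e]
  exact this

/-- **Block S3-A.** `tr γ ≤ tr (γ (1 - R)) + tr (γ P) + c tr γ`. -/
theorem resolv_trace (A R P γ : Matrix ι ι ℝ) (c : ℝ) (hc : 0 < c) (hR : (1 + A) * R = 1)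
    (hPt : Pᵀ = P) (hPP : P * P = P)
    (hpo : ∀ u : ι → ℝ, (u - P *ᵥ u) ⬝ᵥ (u - P *ᵥ u) ≤ c * (u ⬝ᵥ A *ᵥ u))
    (hγ : γ.PosSemidef) :
    γ.trace ≤ (γ * (1 - R)).trace + (γ * P).trace + c * γ.trace := by
  have key : 0 ≤ (γ * (P + c • (1 : Matrix ι ι ℝ) - R)).trace := by
    refine trace_mul_nonneg_of_form hγ fun f => ?_
    have := resolv_quad A R P c hc hR hPt hPP hpo f
    rw [sub_mulVec, add_mulVec, smul_mulVec, one_mulVec, dotProduct_sub, dotProduct_add,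
      dotProduct_smul, smul_eq_mul]
    linarith
  rw [Matrix.mul_sub, Matrix.mul_add, Matrix.mul_smul, Matrix.mul_one, trace_sub, trace_add,
    trace_smul, smul_eq_mul] at key
  rw [Matrix.mul_sub, Matrix.mul_one, trace_sub]
  linarith

end Resolvent

end Vale.Agent.P361.LRO.S3
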