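import Vale.Agent.P361.LRO.S3.Iface
import Vale.Agent.P361.LRO.Fin.Main

/-!
P361, stage 3: the spontaneous magnetization from the densities at small fields.
-/

namespace Vale.Agent.P361.LRO.S3

open Finset Matrix Filter Topology

/-- As `spontMag_ge`, with a smaller range of the fields. -/
theorem spontMag_ge_range (n : ℕ) {β : ℝ} (hβ : 0 < β) {m₀ h₀ : ℝ} (hh₀ : 0 < h₀) {a : ℕ → ℝ}
    (ha : Tendsto a atTop (𝓝 0))
    (H : ∀ᶠ N : ℕ in atTop, ∀ h : ℝ, a N ≤ h → h ≤ h₀ →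
      m₀ ≤ gibbsMagV n (torusAdj (2 * N + 1)) β h / (2 * N + 1) ^ 3) :
    m₀ ≤ Model.spontMag n β := by
  have key : ∀ h₁ h₂ : ℝ, 0 < h₁ → h₁ ≤ h₂ → h₂ ≤ h₀ →
      Model.pressure n β h₁ + (h₂ - h₁) * m₀ ≤ Model.pressure n β h₂ := by
    intro h₁ h₂ h0 h12 h21
    have t1 := (pressTorus_tendsto n hβ h₁).add_const ((h₂ - h₁) * m₀)
    have t2 := pressTorus_tendsto n hβ h₂
    refine le_of_tendsto_of_tendsto t1 t2 ?_
    filter_upwards [H, eventually_ge_atTop 1, (tendsto_order.1 ha).2 h₁ h0] with N hN hN1 haN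
    have h3 := pressTorus_support n N hN1 hβ h₁ h₂
    have h4 := hN h₁ haN.le (h12.trans h21)
    have h5 := mul_le_mul_of_nonneg_left h4 (by linarith : (0 : ℝ) ≤ h₂ - h₁)
    linarith
  have hconv : ConvexOn ℝ Set.univ (Model.pressure n β) := pressure_convex n hβ
  have hcont : Continuous (Model.pressure n β) := by
    have := hconv.continuousOn isOpen_univ
    rwa [continuousOn_univ] at this
  have key0 : ∀ h₂ : ℝ, 0 < h₂ → h₂ ≤ h₀ →
      Model.pressure n β 0 + h₂ * m₀ ≤ Model.pressure n β h₂ := by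
    intro h₂ h20 h21
    have t1 : Tendsto (fun h₁ => Model.pressure n β h₁ + (h₂ - h₁) * m₀) (𝓝[>] 0)
        (𝓝 (Model.pressure n β 0 + (h₂ - 0) * m₀)) := by
      have : Continuous fun h₁ => Model.pressure n β h₁ + (h₂ - h₁) * m₀ := by fun_prop
      exact this.continuousWithinAt.tendsto
    rw [sub_zero] at t1
    refine le_of_tendsto t1 ?_
    filter_upwards [Ioc_mem_nhdsGT h20] with h₁ hh
    exact key h₁ h₂ hh.1 hh.2 h21
  have hder : HasDerivWithinAt (Model.pressure n β) (Model.spontMag n β) (Set.Ioi 0) 0 :=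
    spontMag_hasDeriv n hβ
  rw [hasDerivWithinAt_iff_tendsto_slope' (by simp)] at hder
  refine ge_of_tendsto hder ?_
  filter_upwards [Ioc_mem_nhdsGT hh₀] with h hh
  rw [slope_def_field, sub_zero, le_div_iff₀ hh.1]
  linarith [key0 h hh.1 hh.2]

/-- Small densities on large tori at fields in `[b_n, h₀]`, `b_n → 0`. -/
theorem spontMag_ge_of_rho_range {β η h₀ : ℝ} (hβ : 0 < β) (hh₀ : 0 < h₀) {b : ℕ → ℝ}
    (hb : Tendsto b atTop (𝓝 0)) {n0 : ℕ}
    (H : ∀ (n : ℕ) [NeZero n], n0 ≤ n → Odd n → ∀ h : ℝ, b n ≤ h → h ≤ h₀ →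
      ∀ x : Tor n, rho (edges n) β (fun _ => h) x ≤ η) :
    1 / 2 - η ≤ Model.spontMag 1 β := by
  refine spontMag_ge_range 1 hβ hh₀ (a := fun N : ℕ => b (2 * N + 1)) ?_ ?_
  · refine hb.comp (tendsto_atTop_mono (fun n => ?_) tendsto_id)
    simp only [id]; omega
  · filter_upwards [eventually_ge_atTop (max n0 1)] with N hN h hh1 hh2
    have hN1 : 1 ≤ N := le_trans (le_max_right _ _) hN
    have hN0 : n0 ≤ 2 * N + 1 := by
      have := le_trans (le_max_left _ _) hN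
      omega
    have hodd : Odd (2 * N + 1) := ⟨N, rfl⟩
    have h2 := H (2 * N + 1) hN0 hodd h hh1 hh2
    rw [gibbsMagV_eq (by omega) β h]
    have hcard : (Fintype.card (Tor (2 * N + 1)) : ℝ) = (2 * (N : ℝ) + 1) ^ 3 := by
      rw [Fintype.card_fun, ZMod.card, Fintype.card_fin]
      push_cast
      ring
    rw [le_div_iff₀ (by positivity), ← hcard, mul_comm, ← nsmul_eq_mul, ← Finset.card_univ]
    refine Finset.card_nsmul_le_sum _ _ _ fun x _ => ?_
    linarith [h2 x]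

theorem tendsto_rpow_neg_nat : Tendsto (fun n : ℕ => (n : ℝ) ^ (-(1 / 4) : ℝ)) atTop (𝓝 0) :=
  (tendsto_rpow_neg_atTop (by norm_num : (0 : ℝ) < 1 / 4)).comp tendsto_natCast_atTop_atTop

/-- **Bloch's order** of the spontaneous magnetization. -/
theorem order3_of (H : BootStmt3) : ∃ C β0 : ℝ, 0 < C ∧ 0 < β0 ∧ ∀ β : ℝ, β0 ≤ β →
    1 / 2 - C * β ^ (-(3 / 2) : ℝ) ≤ Model.spontMag 1 β := by
  obtain ⟨C7, β0, hC7, H⟩ := H
  refine ⟨C7, max β0 1, hC7, lt_max_of_lt_right one_pos, fun β hβ => ?_⟩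
  have hβ0 : β0 ≤ β := (le_max_left _ _).trans hβ
  have hβ1 : 1 ≤ β := (le_max_right _ _).trans hβ
  have hβp : 0 < β := by linarith
  obtain ⟨n0, H⟩ := H β hβ0
  refine spontMag_ge_of_rho_range hβp (h₀ := 1 / β) (by positivity)
    (b := fun n => (n : ℝ) ^ (-(1 / 4) : ℝ)) tendsto_rpow_neg_nat (n0 := max n0 1) ?_
  intro n _ hn hodd h hh1 hh2 x
  have hn0 : n0 ≤ n := (le_max_left _ _).trans hn
  have hnp : (0 : ℝ) < n := by exact_mod_cast NeZero.pos n
  have hap : 0 < (n : ℝ) ^ (-(1 / 4) : ℝ) := Real.rpow_pos_of_pos hnp _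
  have hhp : 0 < h := hap.trans_le hh1
  have hhβ : h * β ≤ 1 := by
    rwa [le_div_iff₀ hβp] at hh2
  have hexp : 1 ≤ Real.exp (β ^ (-(9 / 2) : ℝ)) :=
    Real.one_le_exp (Real.rpow_pos_of_pos hβp _).le
  have h3 := H n hn0 hodd (h * β) (hh1.trans (by nlinarith)) hhβ (fun _ => h * β)
    ⟨fun _ => ⟨le_rfl, hhβ⟩, fun _ _ => by
      constructor <;> nlinarith [mul_pos hhp hβp]⟩ x
  have h4 : (fun _ : Tor n => h * β / β) = fun _ => h := by
    funext _
    field_simp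
  rw [h4] at h3
  exact h3

end Vale.Agent.P361.LRO.S3
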