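import Vale.Agent.P361.LRO.Fin.Main
import Vale.Agent.P361.LRO.Top.Trans
import Vale.Agent.P361.LRO.S3.Iface
import Vale.Agent.P361.ModelB

/-!
P361, stage 3, block (B): the start of the bootstrap at the uniform field `h = 1/β` (helper10).

`M_n(h)/n³ ≥ (p_n(h) - p_n(h/2))/(h/2) → (p(h) - p(h/2))/(h/2) ≥ mag(h/2)`, and
`mag(1/(2β)) ≥ 1/2 - C β^{-3/2}` is the landed uniform law `BridgeB.mag_uniform`.
-/

namespace Vale.Agent.P361.LRO.S3

open Filter Topology Finset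

/-- The mean density on a torus in terms of the torus pressure. -/
theorem rho_le_slope {N : ℕ} (hN : 1 ≤ N) {β h : ℝ} (hβ : 0 < β) (hh : 0 < h)
    (x : Tor (2 * N + 1)) :
    rho (edges (2 * N + 1)) β (fun _ => h) x ≤
      1 / 2 - (pressTorus 1 N β h - pressTorus 1 N β (h / 2)) / (h / 2) := by
  have h1 := pressTorus_support 1 N hN hβ h (h / 2)
  rw [gibbsMagV_eq (by omega) β h] at h1
  have htr : ∀ y : Tor (2 * N + 1), rho (edges (2 * N + 1)) β (fun _ => h) y =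
      rho (edges (2 * N + 1)) β (fun _ => h) x := by
    intro y
    have h3 := transStmt (2 * N + 1) β (fun _ => h) x (y - x)
    rw [add_sub_cancel] at h3
    exact h3.symm
  rw [Finset.sum_congr rfl fun y _ => by rw [htr y], Finset.sum_const, Finset.card_univ,
    nsmul_eq_mul] at h1
  have hcard : (Fintype.card (Tor (2 * N + 1)) : ℝ) = (2 * (N : ℝ) + 1) ^ 3 := by
    rw [Fintype.card_fun, ZMod.card, Fintype.card_fin]
    push_cast
    ring
  rw [hcard] at h1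
  have hpos : (0 : ℝ) < (2 * (N : ℝ) + 1) ^ 3 := by positivity
  rw [mul_div_cancel_left₀ _ hpos.ne'] at h1
  rw [le_sub_comm, div_le_iff₀ (by positivity)]
  nlinarith

/-- **Start of the bootstrap** from the uniform law. -/
theorem start3_of (hU : ∀ κ : ℝ, κ < 1 / 21 → ∀ ε : ℝ, 0 < ε →
    ∀ᶠ β : ℝ in atTop, ∀ h : ℝ, β ^ (-1 - κ) ≤ h →
      |β ^ (3 / 2 : ℝ) * (((1 : ℕ) : ℝ) / 2 - Model.mag 1 β h) -
        Model.idealDeficit (((1 : ℕ) : ℝ) / 2) (β * h)| ≤ ε) : StartStmt3 := by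
  set I := Model.idealDeficit (((1 : ℕ) : ℝ) / 2) (1 / 2) with hI
  have h1 := hU (1 / 42) (by norm_num) 1 one_pos
  obtain ⟨β1, hβ1⟩ := eventually_atTop.1 h1
  refine ⟨|I| + 2, max β1 (2 ^ 42), fun β hβ => ?_⟩
  have hb1 : β1 ≤ β := le_trans (le_max_left _ _) hβ
  have hb2 : (2 : ℝ) ^ 42 ≤ β := le_trans (le_max_right _ _) hβ
  have hb0 : (0 : ℝ) < β := lt_of_lt_of_le (by norm_num) hb2
  set h : ℝ := 1 / β with hh
  have hpos : 0 < h := by positivity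
  -- the magnetization at `h / 2`
  have hfield : β ^ (-1 - 1 / 42 : ℝ) ≤ h / 2 := by
    have e1 : β ^ (-1 - 1 / 42 : ℝ) = β⁻¹ * (β ^ (1 / 42 : ℝ))⁻¹ := by
      rw [← Real.rpow_neg hb0.le, ← Real.rpow_neg_one, ← Real.rpow_add hb0]
      congr 1
    have e2 : (2 : ℝ) ≤ β ^ (1 / 42 : ℝ) := by
      have e3 : (2 : ℝ) = ((2 : ℝ) ^ 42) ^ (1 / 42 : ℝ) := by
        rw [← Real.rpow_natCast, ← Real.rpow_mul (by norm_num)]
        norm_num
      rw [e3]
      exact Real.rpow_le_rpow (by norm_num) hb2 (by norm_num)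
    have e4 : (β ^ (1 / 42 : ℝ))⁻¹ ≤ 2⁻¹ := inv_anti₀ (by norm_num) e2
    have e5 : h / 2 = β⁻¹ * 2⁻¹ := by rw [hh, one_div, div_eq_mul_inv]
    rw [e1, e5]
    exact mul_le_mul_of_nonneg_left e4 (inv_nonneg.2 hb0.le)
  have h2 := hβ1 β hb1 (h / 2) hfield
  have hbh : β * (h / 2) = 1 / 2 := by
    rw [hh]; field_simp
  rw [hbh, ← hI] at h2
  have hb32 : 0 < β ^ (3 / 2 : ℝ) := Real.rpow_pos_of_pos hb0 _
  have hneg : β ^ (-(3 / 2) : ℝ) = (β ^ (3 / 2 : ℝ))⁻¹ := Real.rpow_neg hb0.le _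
  have hb32' : 0 < β ^ (-(3 / 2) : ℝ) := Real.rpow_pos_of_pos hb0 _
  have h3 : 1 / 2 - Model.mag 1 β (h / 2) ≤ (|I| + 1) * β ^ (-(3 / 2) : ℝ) := by
    have e1 := (abs_le.1 h2).2
    have e2 := le_abs_self I
    rw [Nat.cast_one] at e1
    rw [hneg, ← div_eq_mul_inv, le_div_iff₀ hb32]
    linarith
  -- the pressures on tori
  have h4 := Vale.Agent.P361.rightDeriv_le_slope' 1 hb0 (h₀ := h / 2) (h := h) (by linarith)
  have h4' : Model.mag 1 β (h / 2) ≤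
      (Model.pressure 1 β h - Model.pressure 1 β (h / 2)) / (h / 2) := by
    have e1 : h - h / 2 = h / 2 := by ring
    rw [e1] at h4
    exact h4
  have h5 : Tendsto (fun N : ℕ => (pressTorus 1 N β h - pressTorus 1 N β (h / 2)) / (h / 2)) atTop
      (𝓝 ((Model.pressure 1 β h - Model.pressure 1 β (h / 2)) / (h / 2))) :=
    ((pressTorus_tendsto 1 hb0 h).sub (pressTorus_tendsto 1 hb0 (h / 2))).div_const _
  have h6 := (tendsto_order.1 h5).1
    ((Model.pressure 1 β h - Model.pressure 1 β (h / 2)) / (h / 2) - β ^ (-(3 / 2) : ℝ))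
    (by linarith)
  obtain ⟨N0, hN0⟩ := eventually_atTop.1 h6
  refine ⟨2 * N0 + 3, fun n _ hn hodd x => ?_⟩
  obtain ⟨N, rfl⟩ := hodd
  have hN1 : 1 ≤ N := by omega
  have hNN : N0 ≤ N := by omega
  have h7 := hN0 N hNN
  have h8 := rho_le_slope hN1 hb0 hpos x
  have h9 : (|I| + 1) * β ^ (-(3 / 2) : ℝ) + β ^ (-(3 / 2) : ℝ) =
      (|I| + 2) * β ^ (-(3 / 2) : ℝ) := by ring
  linarith

end Vale.Agent.P361.LRO.S3
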