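import Vale.Agent.P361.LRO.Fin.TorusPress
import Vale.Agent.P361.ModelB

/-!
P361, stage 3, all spins `S = s/2`: the start of the bootstrap at the uniform field `h = 1/β`, on the
level of the magnetization per site of the odd tori (helper10).
-/

namespace Vale.Agent.P361.LRO.S3

open Filter Topology Finset

/-- Magnetization per site on odd tori from the torus pressure. -/
theorem magTorus_ge_slope (s : ℕ) {N : ℕ} (hN : 1 ≤ N) {β h : ℝ} (hβ : 0 < β) (hh : 0 < h) :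
    (pressTorus s N β h - pressTorus s N β (h / 2)) / (h / 2) ≤
      gibbsMagV s (torusAdj (2 * N + 1)) β h / (2 * N + 1) ^ 3 := by
  have h1 := pressTorus_support s N hN hβ h (h / 2)
  rw [div_le_iff₀ (by positivity)]
  nlinarith

/-- Field `c/β`: the deficit of the magnetization per site is `O(β^{-3/2})` on large odd tori. -/
theorem magTorus_start (s : ℕ) {c : ℝ} (hc : 0 < c) (hU : ∀ κ : ℝ, κ < 1 / 21 → ∀ ε : ℝ, 0 < ε →
    ∀ᶠ β : ℝ in atTop, ∀ h : ℝ, β ^ (-1 - κ) ≤ h →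
      |β ^ (3 / 2 : ℝ) * ((s : ℝ) / 2 - Model.mag s β h) -
        Model.idealDeficit ((s : ℝ) / 2) (β * h)| ≤ ε) :
    ∃ C β0 : ℝ, ∀ β : ℝ, β0 ≤ β → ∃ N0 : ℕ, ∀ N : ℕ, N0 ≤ N → 1 ≤ N ∧
      (s : ℝ) / 2 - gibbsMagV s (torusAdj (2 * N + 1)) β (c / β) / (2 * N + 1) ^ 3 ≤
        C * β ^ (-(3 / 2) : ℝ) := by
  set I := Model.idealDeficit ((s : ℝ) / 2) (c / 2) with hI
  have h1 := hU (1 / 42) (by norm_num) 1 one_pos
  obtain ⟨β1, hβ1⟩ := eventually_atTop.1 h1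
  have hlim : Tendsto (fun β : ℝ => β ^ (1 / 42 : ℝ)) atTop atTop :=
    tendsto_rpow_atTop (by norm_num)
  obtain ⟨β2, hβ2⟩ := eventually_atTop.1 (hlim.eventually (eventually_ge_atTop (2 / c)))
  refine ⟨|I| + 2, max (max β1 β2) 1, fun β hβ => ?_⟩
  have hb1 : β1 ≤ β := le_trans (le_trans (le_max_left _ _) (le_max_left _ _)) hβ
  have hb2 : β2 ≤ β := le_trans (le_trans (le_max_right _ _) (le_max_left _ _)) hβ
  have hb0 : (0 : ℝ) < β := lt_of_lt_of_le one_pos (le_trans (le_max_right _ _) hβ)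
  set h : ℝ := c / β with hh
  have hpos : 0 < h := by positivity
  have hfield : β ^ (-1 - 1 / 42 : ℝ) ≤ h / 2 := by
    have e1 : β ^ (-1 - 1 / 42 : ℝ) = β⁻¹ * (β ^ (1 / 42 : ℝ))⁻¹ := by
      rw [← Real.rpow_neg hb0.le, ← Real.rpow_neg_one, ← Real.rpow_add hb0]
      congr 1
    have e2 : 2 / c ≤ β ^ (1 / 42 : ℝ) := hβ2 β hb2
    have e4 : (β ^ (1 / 42 : ℝ))⁻¹ ≤ (2 / c)⁻¹ := inv_anti₀ (by positivity) e2
    have e5 : h / 2 = β⁻¹ * (2 / c)⁻¹ := by rw [hh]; field_simp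
    rw [e1, e5]
    exact mul_le_mul_of_nonneg_left e4 (inv_nonneg.2 hb0.le)
  have h2 := hβ1 β hb1 (h / 2) hfield
  have hbh : β * (h / 2) = c / 2 := by
    rw [hh]; field_simp
  rw [hbh, ← hI] at h2
  have hb32 : 0 < β ^ (3 / 2 : ℝ) := Real.rpow_pos_of_pos hb0 _
  have hneg : β ^ (-(3 / 2) : ℝ) = (β ^ (3 / 2 : ℝ))⁻¹ := Real.rpow_neg hb0.le _
  have hb32' : 0 < β ^ (-(3 / 2) : ℝ) := Real.rpow_pos_of_pos hb0 _
  have h3 : (s : ℝ) / 2 - Model.mag s β (h / 2) ≤ (|I| + 1) * β ^ (-(3 / 2) : ℝ) := by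
    have e1 := (abs_le.1 h2).2
    have e2 := le_abs_self I
    rw [hneg, ← div_eq_mul_inv, le_div_iff₀ hb32]
    linarith
  have h4 := Vale.Agent.P361.rightDeriv_le_slope' s hb0 (h₀ := h / 2) (h := h) (by linarith)
  have h4' : Model.mag s β (h / 2) ≤
      (Model.pressure s β h - Model.pressure s β (h / 2)) / (h / 2) := by
    have e1 : h - h / 2 = h / 2 := by ring
    rw [e1] at h4
    exact h4
  have h5 : Tendsto (fun N : ℕ => (pressTorus s N β h - pressTorus s N β (h / 2)) / (h / 2)) atTop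
      (𝓝 ((Model.pressure s β h - Model.pressure s β (h / 2)) / (h / 2))) :=
    ((pressTorus_tendsto s hb0 h).sub (pressTorus_tendsto s hb0 (h / 2))).div_const _
  have h6 := (tendsto_order.1 h5).1
    ((Model.pressure s β h - Model.pressure s β (h / 2)) / (h / 2) - β ^ (-(3 / 2) : ℝ))
    (by linarith)
  obtain ⟨N0, hN0⟩ := eventually_atTop.1 h6
  refine ⟨N0 + 1, fun N hN => ⟨by omega, ?_⟩⟩
  have h7 := hN0 N (by omega)
  have h8 := magTorus_ge_slope s (by omega : 1 ≤ N) hb0 hpos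
  have h9 : (|I| + 1) * β ^ (-(3 / 2) : ℝ) + β ^ (-(3 / 2) : ℝ) =
      (|I| + 2) * β ^ (-(3 / 2) : ℝ) := by ring
  linarith

end Vale.Agent.P361.LRO.S3
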