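import Vale.Agent.P361.LRO.S3.Iface
import Vale.Agent.P361.LRO.Tw.Gibbs
import Vale.Agent.P361.LRO.Tw.J.Law3
import Vale.Agent.P361.LRO.Energy.TorusR
import Vale.Agent.P361.B.Params

/-!
P361, stage 3, block (T): lower tail of `N_b`. Assembly (helper260).
-/

namespace Vale.Agent.P361.LRO.S3T

open Finset Matrix Filter Topology
open Vale.Agent.P361.LRO Vale.Agent.P361.LRO.S3

/-- (T0) + (T1): Peierls-Bogoliubov, tiling, comparison with the landed partition function. -/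
def LT01Stmt : Prop :=
  ∀ β h : ℝ, 0 < β → 0 < h → ∀ w : ℕ, 0 < w → ∀ ε : ℝ, 0 < ε →
    ∃ n0 : ℕ, ∀ (n : ℕ) [NeZero n], n0 ≤ n → Odd n →
    ∀ (x : Tor n) (G : Polynomial ℝ) (τ1 τ2 c1 c2 : ℝ), 0 < τ1 → 0 < τ2 → 0 ≤ c1 → 0 ≤ c2 →
    (∀ r : ℕ, 2 * r ≤ w ^ 3 → Real.exp (G.eval ((r : ℝ) * ((w : ℝ) ^ 3 - r + 1))) ≤
      c1 * Real.exp (-(τ1 * r)) + c2 * Real.exp (-(τ2 * r))) →
    gib (edges n) β (fun _ => h) (Polynomial.aeval (CM (cube n x w)) G) ≤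
      Real.log (((w : ℝ) ^ 3 + 1) *
        (c1 * B.Zt 1 (B.cube w) β τ1 + c2 * B.Zt 1 (B.cube w) β τ2)) -
      (w : ℝ) ^ 3 * B.gRed 1 β h + ε

/-- (T2): the partition function of the block at a fixed field `τ / β`. -/
def LT2Stmt : Prop :=
  ∀ d : ℝ, 0 < d → d ≤ 1 / 100 → ∀ τ ε : ℝ, 0 < τ → 0 < ε → ∃ β0 : ℝ, ∀ β : ℝ, β0 ≤ β →
    ∀ a : ℕ, β ^ (1 / 2 + d) ≤ (3 : ℝ) ^ a → (3 : ℝ) ^ a ≤ 3 * β ^ (1 / 2 + d) →
    Real.sqrt β ^ 3 / ((3 : ℝ) ^ a) ^ 3 * Real.log (B.Zt 1 (B.cube (3 ^ a)) β τ) ≤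
      B.FS (1 / 2) τ + ε

theorem BC_eq : BC = B.aS (1 / 2) := by
  unfold BC B.aS
  have h1 : Real.sqrt (4 * Real.pi * (1 / 2)) ^ 3 =
      8 * Real.pi ^ (3 / 2 : ℝ) * (1 / 2 : ℝ) ^ (3 / 2 : ℝ) := by
    have hpi := Real.pi_pos
    have e1 : Real.sqrt (4 * Real.pi * (1 / 2)) ^ 3 = (4 * Real.pi * (1 / 2)) ^ (3 / 2 : ℝ) := by
      rw [Real.sqrt_eq_rpow, ← Real.rpow_natCast, ← Real.rpow_mul (by positivity)]
      norm_num
    rw [e1, Real.mul_rpow (by positivity) (by norm_num), Real.mul_rpow (by norm_num) hpi.le]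
    have e2 : (4 : ℝ) ^ (3 / 2 : ℝ) = 8 := by
      rw [show (4 : ℝ) = 2 ^ (2 : ℝ) by norm_num, ← Real.rpow_mul (by norm_num)]
      norm_num
    rw [e2]
  rw [h1, div_eq_inv_mul]

theorem aS_pos : 0 < B.aS (1 / 2) := by
  refine lt_of_lt_of_le ?_ (B.fR_le (1 / 2) 1 (t := 0) le_rfl)
  unfold B.fR
  have hpi := Real.pi_pos
  simp only [Finset.range_one, Finset.sum_singleton]
  positivity

/-- `F(0) - F(τ) ≥ τ f(τ)`. -/
theorem FS_sub_ge (S : ℝ) {τ : ℝ} (hτ : 0 ≤ τ) : τ * B.fS S τ ≤ B.FS S 0 - B.FS S τ := by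
  unfold B.FS B.fS
  rw [← mul_sub, ← (B.summable_F le_rfl).tsum_sub (B.summable_F hτ), mul_left_comm τ]
  refine mul_le_mul_of_nonneg_left ?_ (by positivity)
  rw [← tsum_mul_left]
  refine Summable.tsum_le_tsum (fun r => ?_) ((B.summable_f hτ).mul_left τ)
    ((B.summable_F le_rfl).sub (B.summable_F hτ))
  rw [← sub_div, le_div_iff₀ (by positivity)]
  have h3 : τ * (Real.exp (-(((r : ℝ) + 1) * τ)) / Real.sqrt ((r : ℝ) + 1) ^ 3) *
      (((r : ℝ) + 1) * Real.sqrt ((r : ℝ) + 1) ^ 3) =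
      Real.exp (-(((r : ℝ) + 1) * τ)) * (((r : ℝ) + 1) * τ) := by
    have : 0 < Real.sqrt ((r : ℝ) + 1) := Real.sqrt_pos.2 (by positivity)
    field_simp
  rw [h3]
  have h4 : Real.exp (-(((r : ℝ) + 1) * 0)) = 1 := by simp
  rw [h4]
  have h5 := Real.add_one_le_exp (((r : ℝ) + 1) * τ)
  have h6 : Real.exp (-(((r : ℝ) + 1) * τ)) * Real.exp (((r : ℝ) + 1) * τ) = 1 := by
    rw [← Real.exp_add]; simp
  have h7 := Real.exp_pos (-(((r : ℝ) + 1) * τ))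
  nlinarith

theorem FS_anti (S : ℝ) {τ : ℝ} (hτ : 0 ≤ τ) : B.FS S τ ≤ B.FS S 0 := by
  have h := FS_sub_ge S hτ
  have := mul_nonneg hτ (B.fS_nonneg S τ)
  linarith

/-- The law of `r = J_max - J` of a block. -/
theorem gib_law {V : Type} [Fintype V] [DecidableEq V] (L : List (V × V)) (β : ℝ) (h : V → ℝ)
    (b : Finset V) :
    ∃ (ι : Type) (_ : Fintype ι) (μ : ι → ℝ) (r : ι → ℕ), (∀ i, 0 ≤ μ i) ∧
      (∀ i, 2 * r i ≤ b.card) ∧ ∑ i, μ i = 1 ∧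
      (∀ P : Polynomial ℝ, ∑ i, μ i * P.eval ((r i : ℝ) * ((b.card : ℝ) - r i + 1)) =
        gib L β h (Polynomial.aeval (CM b) P)) ∧
      ∑ i, μ i * (r i : ℝ) ≤ ∑ x ∈ b, rho L β h x := by
  obtain ⟨ι, hι, μ, N, r, p, h1, h2, h3, -, -⟩ :=
    TwJ.joint_law_poly (Tw.expH_psd L β h) (fun σ τ hd => by
      have := Tw.expH_cons L β h σ τ hd
      exact_mod_cast this) b
  have hT := Tw.trace_expH_pos L β h
  set T := Matrix.trace (NormedSpace.exp (-β • ham L h)) with hTdef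
  have key : ∀ P Q : Polynomial ℝ, ∑ i, μ i / T *
      (P.eval ((r i : ℝ) * ((b.card : ℝ) - r i + 1)) * Q.eval ((r i : ℝ) + p i)) =
      gib L β h (Polynomial.aeval (CM b) P * Polynomial.aeval (TwJ.Dn b) Q) := by
    intro P Q
    have e : ∑ i, μ i / T *
        (P.eval ((r i : ℝ) * ((b.card : ℝ) - r i + 1)) * Q.eval ((r i : ℝ) + p i)) =
        (∑ i, μ i * (P.eval ((r i : ℝ) * ((b.card : ℝ) - r i + 1)) *
          Q.eval ((r i : ℝ) + p i))) / T := by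
      rw [Finset.sum_div]
      exact Finset.sum_congr rfl fun i _ => by ring
    rw [e, h3]
    rfl
  refine ⟨ι, hι, fun i => μ i / T, r, fun i => div_nonneg (h1 i) hT.le,
    fun i => by have := (h2 i).1; omega, ?_, ?_, ?_⟩
  · have hk := key 1 1
    simp only [Polynomial.eval_one, mul_one, map_one] at hk
    rw [hk]
    unfold gib
    rw [mul_one, ← hTdef, div_self hT.ne']
  · intro P
    have hk := key P 1
    simpa only [Polynomial.eval_one, mul_one, map_one] using hk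
  · have hk := key 1 Polynomial.X
    simp only [Polynomial.eval_one, one_mul, map_one, Polynomial.eval_X,
      Polynomial.aeval_X] at hk
    have e2 : gib L β h (TwJ.Dn b) = ∑ x ∈ b, rho L β h x := by
      unfold rho gib TwJ.Dn
      rw [Finset.mul_sum, Matrix.trace_sum, Finset.sum_div]
    rw [← e2, ← hk]
    refine Finset.sum_le_sum fun i _ => ?_
    refine mul_le_mul_of_nonneg_left ?_ (div_nonneg (h1 i) hT.le)
    have : (0 : ℝ) ≤ p i := Nat.cast_nonneg _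
    linarith

/-- Scalar core for one value of `β`: `v = w³ β^{-3/2}`. -/
theorem core {ι : Type} [Fintype ι] (μ : ι → ℝ) (r : ι → ℕ)
    {q s t' X R : ℝ} {g : ι → ℝ} (ht' : 0 ≤ t')
    (hg : ∀ i, g i = (if (r i : ℝ) < q then s else 0) - t' * r i)
    (hX : ∑ i, μ i * g i ≤ X) (hR : ∑ i, μ i * (r i : ℝ) ≤ R) :
    s * ∑ i, (if (r i : ℝ) < q then μ i else 0) ≤ X + t' * R := by
  have e : ∑ i, μ i * g i = s * ∑ i, (if (r i : ℝ) < q then μ i else 0) -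
      t' * ∑ i, μ i * (r i : ℝ) := by
    rw [Finset.mul_sum, Finset.mul_sum, ← Finset.sum_sub_distrib]
    refine Finset.sum_congr rfl fun i _ => ?_
    rw [hg]
    split_ifs <;> ring
  rw [e] at hX
  have := mul_le_mul_of_nonneg_left hR ht'
  linarith

/-- Eventual lower bound of the reduced pressure at tiny fields. -/
theorem gRed_ge {ε : ℝ} (hε : 0 < ε) : ∃ β0 : ℝ, ∀ β : ℝ, β0 ≤ β → ∀ h : ℝ, 0 < h →
    h ≤ β ^ (-(10 : ℝ)) → B.FS (1 / 2) 0 - ε ≤ Real.sqrt β ^ 3 * B.gRed 1 β h := by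
  obtain ⟨K, hK1, hK⟩ := B.gRed_lower (n := 1) le_rfl
  have e12 : ((1 : ℕ) : ℝ) / 2 = 1 / 2 := by norm_num
  rw [e12] at hK
  obtain ⟨R, hR⟩ := ((B.FR_tendsto (1 / 2) (t := 0) le_rfl).eventually
    (lt_mem_nhds (show B.FS (1 / 2) 0 - ε / 3 < B.FS (1 / 2) 0 by linarith))).exists
  have hcont : Tendsto (fun t : ℝ => B.FR (1 / 2) R t) (𝓝 0) (𝓝 (B.FR (1 / 2) R 0)) :=
    (B.hasDerivAt_FR (1 / 2) R 0).continuousAt
  have hsmall : Tendsto (fun β : ℝ => β ^ (-(9 : ℝ))) atTop (𝓝 0) :=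
    tendsto_rpow_neg_atTop (by norm_num)
  have h1 : ∀ᶠ t in 𝓝 (0 : ℝ), B.FS (1 / 2) 0 - 2 * ε / 3 < B.FR (1 / 2) R t :=
    hcont.eventually (lt_mem_nhds (by linarith))
  obtain ⟨δ', hδ', hball⟩ := Metric.eventually_nhds_iff.1 h1
  set X : ℝ := B.FS (1 / 2) 0 - 2 * ε / 3 with hX
  have h2 : Tendsto (fun β : ℝ => (1 - K / β) * X) atTop (𝓝 ((1 - 0) * X)) :=
    (tendsto_const_nhds.sub (tendsto_const_nhds.div_atTop tendsto_id)).mul_const X
  have h3 : ∀ᶠ β : ℝ in atTop, X - ε / 3 < (1 - K / β) * X :=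
    h2.eventually (lt_mem_nhds (by linarith))
  have h4 : ∀ᶠ β : ℝ in atTop, β ^ (-(9 : ℝ)) < δ' := hsmall.eventually (gt_mem_nhds hδ')
  obtain ⟨β0, hβ0⟩ := eventually_atTop.1 (h3.and (h4.and (eventually_ge_atTop (max K 1))))
  refine ⟨β0, fun β hβ h hh0 hh => ?_⟩
  obtain ⟨h5, h6, h7⟩ := hβ0 β hβ
  have hβK : K ≤ β := (le_max_left _ _).trans h7
  have hβ1 : 1 ≤ β := (le_max_right _ _).trans h7
  have hβ : 0 < β := by linarith
  refine le_trans ?_ (hK β hβK h hh0.le R)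
  have h8 : β * h < δ' := by
    refine lt_of_le_of_lt ?_ h6
    calc β * h ≤ β * β ^ (-(10 : ℝ)) := mul_le_mul_of_nonneg_left hh hβ.le
      _ = β ^ (-(9 : ℝ)) := by
        nth_rewrite 1 [← Real.rpow_one β]
        rw [← Real.rpow_add hβ]
        norm_num
  have h9 : X < B.FR (1 / 2) R (β * h) := by
    refine hball ?_
    rw [Real.dist_eq, sub_zero, abs_of_nonneg (by positivity)]
    exact h8
  have h10 : 0 ≤ 1 - K / β := by
    rw [sub_nonneg, div_le_one hβ]; exact hβK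
  have h11 := mul_le_mul_of_nonneg_left h9.le h10
  linarith

/-- The upper bound `X` for the exponent. -/
theorem log_bound {v W A FS0 FSt FSτ s0 s q τ δ ε z1 z2 : ℝ} (hv : 0 < v) (hW : 0 ≤ W)
    (hs : s = s0 * v) (hq : q = (1 - δ) * A * v) (hs0 : s0 = 3 / 4 * δ * τ * A)
    (hF1 : FSt ≤ FS0) (hF2 : τ * ((1 - δ / 4) * A) ≤ FS0 - FSτ) (hz1 : 0 < z1) (hz2 : 0 < z2)
    (h1 : Real.log z1 ≤ v * (FSt + ε)) (h2 : Real.log z2 ≤ v * (FSτ + ε)) :
    Real.log ((W + 1) * (1 * z1 + Real.exp (s + τ * q) * z2)) ≤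
      Real.log (2 * (W + 1)) + v * (FS0 + ε) := by
  have e1 : z1 ≤ Real.exp (v * (FS0 + ε)) := by
    rw [← Real.log_le_iff_le_exp hz1]
    refine h1.trans (mul_le_mul_of_nonneg_left (by linarith) hv.le)
  have e2 : Real.exp (s + τ * q) * z2 ≤ Real.exp (v * (FS0 + ε)) := by
    have e3 : z2 ≤ Real.exp (v * (FSτ + ε)) := by
      rw [← Real.log_le_iff_le_exp hz2]
      exact h2
    refine (mul_le_mul_of_nonneg_left e3 (Real.exp_pos _).le).trans ?_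
    rw [← Real.exp_add]
    refine Real.exp_le_exp.2 ?_
    rw [hs, hq, hs0]
    have e4 : 3 / 4 * δ * τ * A * v + τ * ((1 - δ) * A * v) + v * (FSτ + ε) =
        v * (τ * ((1 - δ / 4) * A) + FSτ + ε) := by ring
    rw [e4]
    exact mul_le_mul_of_nonneg_left (by linarith) hv.le
  have hpos : 0 < (W + 1) * (1 * z1 + Real.exp (s + τ * q) * z2) := by
    have := Real.exp_pos (s + τ * q)
    positivity
  have e5 : (W + 1) * (1 * z1 + Real.exp (s + τ * q) * z2) ≤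
      2 * (W + 1) * Real.exp (v * (FS0 + ε)) := by
    calc (W + 1) * (1 * z1 + Real.exp (s + τ * q) * z2) ≤
        (W + 1) * (Real.exp (v * (FS0 + ε)) + Real.exp (v * (FS0 + ε))) :=
          mul_le_mul_of_nonneg_left (by linarith) (by linarith)
      _ = _ := by ring
  have e6 := Real.log_le_log hpos e5
  rwa [Real.log_mul (by positivity) (Real.exp_pos _).ne', Real.log_exp] at e6

theorem num_log {β d W v c : ℝ} (hβ1 : 1 ≤ β) (hd1 : d ≤ 1 / 100) (hWp : 0 < W)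
    (ha1 : β ^ (1 / 2 + d) ≤ W) (ha2 : W ≤ 3 * β ^ (1 / 2 + d)) (hv : v = W ^ 3 / Real.sqrt β ^ 3)
    (hc : 0 < c) (k1 : Real.log 56 + 3 * Real.log β ≤ c * β ^ (3 * d)) :
    Real.log (2 * (W ^ 3 + 1)) ≤ c * v := by
  have hβ0 : 0 < β := by linarith
  have hsb : 0 < Real.sqrt β ^ 3 := by
    have := Real.sqrt_pos.2 hβ0
    positivity
  have a1 : W ≤ 3 * β := by
    refine ha2.trans ?_
    refine mul_le_mul_of_nonneg_left ?_ (by norm_num)
    calc β ^ (1 / 2 + d) ≤ β ^ (1 : ℝ) :=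
          Real.rpow_le_rpow_of_exponent_le hβ1 (by linarith)
      _ = β := Real.rpow_one β
  have a2 : 2 * (W ^ 3 + 1) ≤ 56 * β ^ 3 := by
    have b1 : W ^ 3 ≤ (3 * β) ^ 3 := pow_le_pow_left₀ hWp.le a1 3
    have b2 : 1 ≤ β ^ 3 := one_le_pow₀ hβ1
    have b3 : (3 * β) ^ 3 = 27 * β ^ 3 := by ring
    rw [b3] at b1
    linarith
  have a3 := Real.log_le_log (by positivity) a2
  rw [Real.log_mul (x := 56) (by norm_num) (by positivity), Real.log_pow] at a3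
  have a4 : β ^ (3 * d) ≤ v := by
    rw [hv, le_div_iff₀ hsb]
    have b1 : Real.sqrt β ^ 3 = β ^ (3 / 2 : ℝ) := by
      rw [Real.sqrt_eq_rpow, ← Real.rpow_natCast, ← Real.rpow_mul hβ0.le]
      norm_num
    have b2 : (β ^ (1 / 2 + d)) ^ 3 ≤ W ^ 3 :=
      pow_le_pow_left₀ (Real.rpow_nonneg hβ0.le _) ha1 3
    refine le_trans (le_of_eq ?_) b2
    rw [b1, ← Real.rpow_natCast (β ^ (1 / 2 + d)) 3, ← Real.rpow_mul hβ0.le,
      ← Real.rpow_add hβ0]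
    congr 1
    push_cast
    ring
  have a5 := mul_le_mul_of_nonneg_left a4 hc.le
  push_cast at a3
  linarith

theorem num_fin {s0 δ v t' C7 Z L2 F g ε : ℝ} (hC7 : 0 < C7) (ht' : t' = s0 * δ / (4 * C7))
    (hε : ε = s0 * δ / 16) (q3 : Z ≤ L2 + v * (F + ε)) (q5 : v * (F - ε) ≤ g)
    (q6 : L2 ≤ s0 * δ / 8 * v) (hvp : 0 < v) (hs : 0 < s0 * δ) :
    Z - g + s0 * δ / 8 * v + t' * (C7 * v) ≤ s0 * v * δ := by
  have e1 : t' * (C7 * v) = s0 * δ / 4 * v := by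
    rw [ht']; field_simp
  rw [e1]
  have e3 : v * (F + ε) - v * (F - ε) = 2 * (v * ε) := by ring
  have e4 : v * ε = s0 * δ * v / 16 := by rw [hε]; ring
  have e5 : 0 < s0 * δ * v := by positivity
  have e6 : s0 * δ / 8 * v = s0 * δ * v / 8 := by ring
  have e7 : s0 * δ / 4 * v = s0 * δ * v / 4 := by ring
  have e8 : s0 * v * δ = s0 * δ * v := by ring
  rw [e6, e7, e8]
  rw [e6] at q6
  rw [e4] at e3
  linarith

theorem exp_G {s t' τ q c : ℝ} {r : ℕ} (ht' : 0 ≤ t') (hτ : 0 ≤ τ)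
    (hc : c = (if (r : ℝ) < q then s else 0) - t' * r) :
    Real.exp c ≤ 1 * Real.exp (-(t' * r)) + Real.exp (s + τ * q) * Real.exp (-(τ * r)) := by
  rw [hc]
  split_ifs with hlt
  · rw [← Real.exp_add]
    have e4 : Real.exp (s - t' * r) ≤ Real.exp (s + τ * q + -(τ * r)) := by
      refine Real.exp_le_exp.2 ?_
      have e5 : 0 ≤ t' * r := by positivity
      have e6 : τ * r ≤ τ * q := mul_le_mul_of_nonneg_left hlt.le hτ
      linarith
    have := Real.exp_pos (-(t' * r))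
    linarith
  · rw [zero_sub]
    have := Real.exp_pos (s + τ * q)
    have h7 := Real.exp_pos (-(τ * r))
    have := mul_pos this h7
    linarith

theorem fam_const {n : ℕ} [NeZero n] {g0 lam : ℝ} (hg : 0 ≤ g0) (hg1 : g0 ≤ 1) (hlam : 0 ≤ lam) :
    Fam n g0 lam (fun _ => g0) := by
  refine ⟨fun x => ⟨le_rfl, hg1⟩, fun x i => ?_⟩
  have h1 : 1 ≤ Real.exp lam := Real.one_le_exp hlam
  constructor <;> nlinarith

theorem tailStmt3_of (h01 : LT01Stmt) (h2 : LT2Stmt) (hB : BootStmt3) : TailStmt3 := by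
  intro d hd0 hd1 δ hδ
  obtain ⟨C7, βB, hC7, hB⟩ := hB
  rcases le_or_gt 1 δ with hδ1 | hδ1
  · refine ⟨1, fun β hβ a _ _ h _ _ => ⟨0, fun n _ _ _ x P hP => ?_⟩⟩
    obtain ⟨ι, hι, μ, r, hμ0, hr, hμ1, hlaw, -⟩ :=
      gib_law (edges n) β (fun _ => h) (cube n x (3 ^ a))
    rw [← hlaw P]
    calc _ ≤ ∑ i, μ i * 1 := Finset.sum_le_sum fun i _ =>
          mul_le_mul_of_nonneg_left ((hP _ (hr i)).trans (by split_ifs <;> norm_num)) (hμ0 i)
      _ = 1 := by simp [hμ1]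
      _ ≤ δ := hδ1
  set A : ℝ := B.aS (1 / 2) with hA
  have hA0 : 0 < A := aS_pos
  obtain ⟨τ, hτ0, hτ⟩ : ∃ τ : ℝ, 0 < τ ∧ (1 - δ / 4) * A ≤ B.fS (1 / 2) τ := by
    have h1 := B.fS_tendsto_zero (1 / 2)
    rw [B.fS_zero] at h1
    have h2 : ∀ᶠ t in 𝓝[≥] (0 : ℝ), (1 - δ / 4) * A < B.fS (1 / 2) t :=
      h1.eventually (lt_mem_nhds (by nlinarith))
    have h3 : ∀ᶠ t in 𝓝[>] (0 : ℝ), (1 - δ / 4) * A < B.fS (1 / 2) t :=
      h2.filter_mono (nhdsWithin_mono _ Set.Ioi_subset_Ici_self)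
    obtain ⟨t, ht1, ht2⟩ := (h3.and self_mem_nhdsWithin).exists
    exact ⟨t, ht2, ht1.le⟩
  obtain ⟨s0, hs0⟩ : ∃ s0 : ℝ, s0 = 3 / 4 * δ * τ * A := ⟨_, rfl⟩
  have hs0p : 0 < s0 := by rw [hs0]; positivity
  obtain ⟨t', ht'⟩ : ∃ t' : ℝ, t' = s0 * δ / (4 * C7) := ⟨_, rfl⟩
  have ht'p : 0 < t' := by rw [ht']; positivity
  obtain ⟨ε, hε⟩ : ∃ ε : ℝ, ε = s0 * δ / 16 := ⟨_, rfl⟩
  have hεp : 0 < ε := by rw [hε]; positivity
  obtain ⟨β1, hβ1⟩ := h2 d hd0 hd1 t' ε ht'p hεp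
  obtain ⟨β2, hβ2⟩ := h2 d hd0 hd1 τ ε hτ0 hεp
  obtain ⟨β3, hβ3⟩ := gRed_ge hεp
  have hc : 0 < s0 * δ / 8 := by positivity
  have hl : ∀ᶠ β : ℝ in atTop, Real.log 56 + 3 * Real.log β ≤ s0 * δ / 8 * β ^ (3 * d) := by
    have l1 := (isLittleO_log_rpow_atTop (show 0 < 3 * d by linarith)).bound
      (show 0 < s0 * δ / 8 / 6 by positivity)
    have l2 : ∀ᶠ β : ℝ in atTop, Real.log 56 / (s0 * δ / 8 / 2) ≤ β ^ (3 * d) :=
      (tendsto_rpow_atTop (by linarith)).eventually_ge_atTop _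
    filter_upwards [l1, l2, eventually_ge_atTop 1] with β l1 l2 l3
    rw [Real.norm_of_nonneg (Real.log_nonneg l3),
      Real.norm_of_nonneg (Real.rpow_nonneg (by linarith) _)] at l1
    rw [div_le_iff₀ (by positivity)] at l2
    nlinarith
  have hl2 : ∀ᶠ β : ℝ in atTop, 6 * β ^ (-(1 / 2) : ℝ) ≤ s0 * δ / 8 := by
    have l1 : Tendsto (fun β : ℝ => 6 * β ^ (-(1 / 2) : ℝ)) atTop (𝓝 (6 * 0)) :=
      (tendsto_rpow_neg_atTop (by norm_num)).const_mul 6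
    rw [mul_zero] at l1
    filter_upwards [l1.eventually (gt_mem_nhds hc)] with β l2 using l2.le
  obtain ⟨β4, hβ4⟩ := eventually_atTop.1 (hl.and (hl2.and (eventually_ge_atTop (max 1 βB))))
  refine ⟨max (max β1 β2) (max β3 β4), fun β hβ a ha1 ha2 h hh0 hh => ?_⟩
  have hb1 : β1 ≤ β := (le_max_left _ _).trans ((le_max_left _ _).trans hβ)
  have hb2 : β2 ≤ β := (le_max_right _ _).trans ((le_max_left _ _).trans hβ)
  have hb3 : β3 ≤ β := (le_max_left _ _).trans ((le_max_right _ _).trans hβ)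
  have hb4 : β4 ≤ β := (le_max_right _ _).trans ((le_max_right _ _).trans hβ)
  obtain ⟨k1, k2, k3⟩ := hβ4 β hb4
  have hβ1' : 1 ≤ β := (le_max_left _ _).trans k3
  have hβB : βB ≤ β := (le_max_right _ _).trans k3
  have hβ0 : 0 < β := by linarith
  obtain ⟨nB, hnB⟩ := hB β hβB
  have hw0 : 0 < 3 ^ a := by positivity
  obtain ⟨W, hW⟩ : ∃ W : ℝ, W = (3 : ℝ) ^ a := ⟨_, rfl⟩
  have hW1 : 1 ≤ W := by rw [hW]; exact one_le_pow₀ (by norm_num)
  have hWp : 0 < W := by linarith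
  have hsb : 0 < Real.sqrt β ^ 3 := by
    have := Real.sqrt_pos.2 hβ0
    positivity
  obtain ⟨v, hv⟩ : ∃ v : ℝ, v = W ^ 3 / Real.sqrt β ^ 3 := ⟨_, rfl⟩
  have hvp : 0 < v := by rw [hv]; positivity
  obtain ⟨n1, hn1⟩ := h01 β h hβ0 hh0 (3 ^ a) hw0 (s0 * δ / 8 * v) (by positivity)
  obtain ⟨nh, hnh⟩ : ∃ nh : ℕ, ∀ n : ℕ, nh ≤ n → (n : ℝ) ^ (-(1 / 4) : ℝ) ≤ β * h := by
    have l1 : Tendsto (fun n : ℕ => (n : ℝ) ^ (-(1 / 4) : ℝ)) atTop (𝓝 0) :=
      (tendsto_rpow_neg_atTop (by norm_num)).comp tendsto_natCast_atTop_atTop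
    obtain ⟨N, hN⟩ := eventually_atTop.1
      (l1.eventually (gt_mem_nhds (show 0 < β * h by positivity)))
    exact ⟨N, fun n hn => (hN n hn).le⟩
  have hhβ : β * h ≤ 1 := by
    calc β * h ≤ β * β ^ (-(10 : ℝ)) := mul_le_mul_of_nonneg_left hh hβ0.le
      _ = β ^ (-(9 : ℝ)) := by
        nth_rewrite 1 [← Real.rpow_one β]
        rw [← Real.rpow_add hβ0]
        norm_num
      _ ≤ 1 := Real.rpow_le_one_of_one_le_of_nonpos hβ1' (by norm_num)
  refine ⟨max (max n1 (3 ^ a)) (max nB nh), fun n _ hn hodd x P hP => ?_⟩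
  have hn1' : n1 ≤ n := (le_max_left _ _).trans ((le_max_left _ _).trans hn)
  have hwn : 3 ^ a ≤ n := (le_max_right _ _).trans ((le_max_left _ _).trans hn)
  have hnB' : nB ≤ n := (le_max_left _ _).trans ((le_max_right _ _).trans hn)
  have hnh' : nh ≤ n := (le_max_right _ _).trans ((le_max_right _ _).trans hn)
  have hcard : (cube n x (3 ^ a)).card = (3 ^ a) ^ 3 := EnR.card_cube x hwn
  have hcardR : ((cube n x (3 ^ a)).card : ℝ) = W ^ 3 := by rw [hcard, hW]; push_cast; ring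
  obtain ⟨ι, hι, μ, r, hμ0, hr, hμ1, hlaw, hmean⟩ :=
    gib_law (edges n) β (fun _ => h) (cube n x (3 ^ a))
  rw [← hlaw P]
  obtain ⟨q, hq⟩ : ∃ q : ℝ, q = (1 - δ) * A * v := ⟨_, rfl⟩
  have hpow : β ^ (-(3 / 2) : ℝ) = 1 / Real.sqrt β ^ 3 := by
    rw [Real.rpow_neg hβ0.le, Real.sqrt_eq_rpow, ← Real.rpow_natCast, ← Real.rpow_mul hβ0.le,
      one_div]
    norm_num
  have hq' : (1 - δ) * BC * β ^ (-(3 / 2) : ℝ) * (cube n x (3 ^ a)).card = q := by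
    rw [hq, BC_eq, hcardR, hpow, hv]
    ring
  rw [hq'] at hP
  obtain ⟨s, hs⟩ : ∃ s : ℝ, s = s0 * v := ⟨_, rfl⟩
  have hsp : 0 < s := by rw [hs]; positivity
  obtain ⟨G, hG⟩ := TwJ.exists_poly ((3 ^ a) ^ 3)
    (fun r : ℕ => (if (r : ℝ) < q then s else 0) - t' * r)
  -- mean of `r`
  have hrho : ∀ z, rho (edges n) β (fun _ => h) z ≤ C7 * β ^ (-(3 / 2) : ℝ) := by
    intro z
    have h1 := hnB n hnB' hodd (β * h) (hnh n hnh') hhβ (fun _ => β * h)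
      (fam_const (by positivity) hhβ (by positivity)) z
    have e1 : (fun _ : Tor n => β * h / β) = fun _ => h := by
      funext _
      rw [mul_div_cancel_left₀ _ hβ0.ne']
    simp only [e1] at h1
    exact h1
  have hmean' : ∑ i, μ i * (r i : ℝ) ≤ C7 * v := by
    refine hmean.trans ((Finset.sum_le_card_nsmul _ _ _ fun z _ => hrho z).trans ?_)
    rw [nsmul_eq_mul, hcardR, hpow, hv]
    refine le_of_eq ?_
    ring
  -- the exponent
  have hFt := FS_anti (1 / 2) ht'p.le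
  have hFτ := FS_sub_ge (1 / 2) hτ0.le
  have hFτ' : τ * ((1 - δ / 4) * A) ≤ B.FS (1 / 2) 0 - B.FS (1 / 2) τ :=
    (mul_le_mul_of_nonneg_left hτ hτ0.le).trans hFτ
  have hz1 := B.Zt_pos (n := 1) (Λ := B.cube (3 ^ a)) β t'
  have hz2 := B.Zt_pos (n := 1) (Λ := B.cube (3 ^ a)) β τ
  have hvv : v * (Real.sqrt β ^ 3 / W ^ 3) = 1 := by
    rw [hv]; field_simp
  have q1 : Real.log (B.Zt 1 (B.cube (3 ^ a)) β t') ≤ v * (B.FS (1 / 2) t' + ε) := by
    have e := hβ1 β hb1 a (by rw [← hW]; exact hW ▸ ha1) (by rw [← hW]; exact hW ▸ ha2)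
    rw [← hW] at e
    have e2 := mul_le_mul_of_nonneg_left e hvp.le
    rwa [← mul_assoc, hvv, one_mul] at e2
  have q2 : Real.log (B.Zt 1 (B.cube (3 ^ a)) β τ) ≤ v * (B.FS (1 / 2) τ + ε) := by
    have e := hβ2 β hb2 a (by rw [← hW]; exact hW ▸ ha1) (by rw [← hW]; exact hW ▸ ha2)
    rw [← hW] at e
    have e2 := mul_le_mul_of_nonneg_left e hvp.le
    rwa [← mul_assoc, hvv, one_mul] at e2
  have q3 := log_bound (W := W ^ 3) hvp (by positivity) hs hq hs0 hFt hFτ' hz1 hz2 q1 q2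
  have q4 := hβ3 β hb3 h hh0 hh
  have q5 : v * (B.FS (1 / 2) 0 - ε) ≤ W ^ 3 * B.gRed 1 β h := by
    have e := mul_le_mul_of_nonneg_left q4 hvp.le
    have e2 : v * (Real.sqrt β ^ 3 * B.gRed 1 β h) = W ^ 3 * B.gRed 1 β h := by
      rw [hv]; field_simp
    rwa [e2] at e
  have hcast : ((3 ^ a : ℕ) : ℝ) = W := by rw [hW]; push_cast; rfl
  have hX := hn1 n hn1' hodd x G t' τ 1 (Real.exp (s + τ * q)) ht'p hτ0 zero_le_one
    (Real.exp_pos _).le ?_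
  · rw [hcast, ← hlaw G] at hX
    have hGi : ∀ i, G.eval ((r i : ℝ) * (((cube n x (3 ^ a)).card : ℝ) - r i + 1)) =
        (if (r i : ℝ) < q then s else 0) - t' * r i := by
      intro i
      have := hG (r i) (by have := hr i; rwa [hcard] at this)
      rw [hcard]
      exact this
    have hcore := core μ r (g := fun i =>
      G.eval ((r i : ℝ) * (((cube n x (3 ^ a)).card : ℝ) - r i + 1))) ht'p.le hGi
      hX hmean'
    -- log term
    have q6 : Real.log (2 * (W ^ 3 + 1)) ≤ s0 * δ / 8 * v :=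
      num_log hβ1' hd1 hWp (hW ▸ ha1) (hW ▸ ha2) hv hc k1
    have q7 : ∑ i, μ i * P.eval ((r i : ℝ) * (((cube n x (3 ^ a)).card : ℝ) - r i + 1)) ≤
        ∑ i, (if (r i : ℝ) < q then μ i else 0) := by
      refine Finset.sum_le_sum fun i _ => ?_
      have e := mul_le_mul_of_nonneg_left (hP (r i) (hr i)) (hμ0 i)
      refine e.trans (le_of_eq ?_)
      split_ifs <;> ring
    refine q7.trans ?_
    have q8 : s0 * v * ∑ i, (if (r i : ℝ) < q then μ i else 0) ≤ s0 * v * δ := by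
      refine le_trans (le_trans (le_of_eq (by rw [hs])) hcore) ?_
      exact num_fin hC7 ht' hε q3 q5 q6 hvp (by positivity)
    exact le_of_mul_le_mul_left q8 (by positivity)
  · intro r' hr'
    rw [hcast]
    have e := hG r' hr'
    have e3 : (((3 ^ a) ^ 3 : ℕ) : ℝ) = W ^ 3 := by rw [hW]; push_cast; rfl
    rw [e3] at e
    exact exp_G ht'p.le hτ0.le e

end Vale.Agent.P361.LRO.S3T
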